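import Vale.Agent.P193.Words
import Mathlib.GroupTheory.SemidirectProduct
import Mathlib.GroupTheory.QuotientGroup.Defs
import Mathlib.GroupTheory.GroupAction.Quotient

/-!
P193: `Cent M L` is the HNN extension of `M` by a letter `k` centralising `L`, in its concrete model: the free
group on the left cosets `M ⧸ L`, extended by `M`. The letter `k` is the coset of `1`.
-/

namespace Vale.P193

variable (M : Type) [Group M] (L : Subgroup M)

/-- `M` acts on the free group on its left cosets. -/
def centAct : M →* MulAut (FreeGroup (M ⧸ L)) where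
  toFun m := FreeGroup.freeGroupCongr (MulAction.toPerm m)
  map_one' := by
    refine MulEquiv.ext fun x => ?_
    have h : (MulAction.toPerm (1 : M) : Equiv.Perm (M ⧸ L)) = Equiv.refl _ := by
      ext q; simp
    simp [h]
  map_mul' a b := by
    refine MulEquiv.ext fun x => ?_
    have h : (MulAction.toPerm (a * b) : Equiv.Perm (M ⧸ L)) =
        (MulAction.toPerm b).trans (MulAction.toPerm a) := by
      ext q; simp [mul_smul]
    rw [h, ← FreeGroup.freeGroupCongr_trans]
    rfl

/-- The centralising HNN extension. -/
abbrev Cent : Type := FreeGroup (M ⧸ L) ⋊[centAct M L] M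

namespace Cent

variable {M L}

/-- The base. -/
abbrev base : M →* Cent M L := SemidirectProduct.inr

/-- The stable letter. -/
def k : Cent M L := SemidirectProduct.inl (FreeGroup.of ((1 : M) : M ⧸ L))

/-- The coset letter `m k m⁻¹`. -/
def letter (q : M ⧸ L) : Cent M L := SemidirectProduct.inl (FreeGroup.of q)

theorem centAct_of (m : M) (q : M ⧸ L) :
    centAct M L m (FreeGroup.of q) = FreeGroup.of (m • q) := by
  simp [centAct, FreeGroup.freeGroupCongr]

theorem conj_k (m : M) : base m * k * (base m)⁻¹ = letter (L := L) (m : M ⧸ L) := by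
  show SemidirectProduct.inr m * SemidirectProduct.inl _ * (SemidirectProduct.inr m)⁻¹ = _
  rw [← map_inv, ← SemidirectProduct.inl_aut, centAct_of]
  simp [letter, MulAction.Quotient.smul_mk]

theorem k_comm {l : M} (hl : l ∈ L) : base l * k = k * base (L := L) l := by
  have h := conj_k (L := L) l
  have : ((l : M) : M ⧸ L) = ((1 : M) : M ⧸ L) := QuotientGroup.eq.2 (by simpa using hl)
  rw [this] at h
  calc base l * k = (base l * k * (base l)⁻¹) * base l := (inv_mul_cancel_right _ _).symm
    _ = k * base l := by rw [h]; rfl

theorem gen_top :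
    Subgroup.closure (Set.range (base : M →* Cent M L) ∪ {k}) = ⊤ := by
  rw [eq_top_iff]
  intro x _
  rw [← SemidirectProduct.inl_left_mul_inr_right x]
  refine Subgroup.mul_mem _ ?_ (Subgroup.subset_closure (Or.inl ⟨x.right, rfl⟩))
  induction x.left using FreeGroup.induction_on with
  | C1 => simp
  | of q =>
    induction q using QuotientGroup.induction_on with
    | H m =>
      change letter (L := L) (m : M ⧸ L) ∈ _
      rw [← conj_k]
      refine Subgroup.mul_mem _ (Subgroup.mul_mem _ ?_ ?_) (Subgroup.inv_mem _ ?_)
      · exact Subgroup.subset_closure (Or.inl ⟨m, rfl⟩)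
      · exact Subgroup.subset_closure (Or.inr rfl)
      · exact Subgroup.subset_closure (Or.inl ⟨m, rfl⟩)
  | inv_of q ih => simpa using ih
  | mul a b ha hb => simpa using Subgroup.mul_mem _ ha hb

end Cent

end Vale.P193
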