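import Vale.Agent.P193.Words
import Mathlib.GroupTheory.HNNExtension

/-!
P193: `GraphHNN U φ` is the HNN extension of `M × B` in which the stable letter conjugates `(u, 1)` to `(u, φ u)`.
-/

namespace Vale.P193

variable {M B : Type} [Group M] [Group B] {U : Subgroup M} (φ : U →* B)

/-- The graph of `φ` in `M × B`. -/
def graphSub : Subgroup (M × B) := (U.subtype.prod φ).range

/-- The isomorphism `(u,1) ↦ (u, φ u)`. -/
noncomputable def graphEquiv : (U.map (MonoidHom.inl M B)) ≃* graphSub φ :=
  (U.equivMapOfInjective (MonoidHom.inl M B) (fun a b h => by simpa using h)).symm.trans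
    (MonoidHom.ofInjective (f := U.subtype.prod φ) (fun a b h => Subtype.ext (congrArg Prod.fst h)))

/-- The rope extension. -/
abbrev GraphHNN : Type := HNNExtension (M × B) (U.map (MonoidHom.inl M B)) (graphSub φ) (graphEquiv φ)

noncomputable section
namespace GraphHNN

/-- The stable letter. -/
def r : GraphHNN φ := HNNExtension.t

/-- The two factors. -/
def inM : M →* GraphHNN φ := HNNExtension.of.comp (MonoidHom.inl M B)

/-- The second factor. -/
def inB : B →* GraphHNN φ := HNNExtension.of.comp (MonoidHom.inr M B)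

theorem inM_inB_comm (m : M) (b : B) : inM φ m * inB φ b = inB φ b * inM φ m := by
  simp only [inM, inB, MonoidHom.comp_apply, ← map_mul]
  simp

theorem r_conj (u : U) : r φ * inM φ u = inM φ u * inB φ (φ u) * r φ := by
  have h := HNNExtension.t_mul_of (φ := graphEquiv φ) ⟨((u : M), 1), ⟨u, u.2, rfl⟩⟩
  have e : ((graphEquiv φ) ⟨((u : M), 1), ⟨u, u.2, rfl⟩⟩ : M × B) = ((u : M), φ u) := by
    have : (U.equivMapOfInjective (MonoidHom.inl M B) (fun a b h => by simpa using h)).symm
        ⟨((u : M), 1), ⟨u, u.2, rfl⟩⟩ = u := by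
      rw [MulEquiv.symm_apply_eq]
      exact Subtype.ext rfl
    unfold graphEquiv
    erw [MulEquiv.trans_apply, this, MonoidHom.ofInjective_apply]
    rfl
  rw [e] at h
  simpa [r, inM, inB, ← map_mul] using h

end GraphHNN
end

end Vale.P193
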