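import Mathlib.GroupTheory.Coprod.Basic
import Mathlib.GroupTheory.FreeGroup.Basic

/-! P193: HNN extensions with several stable letters: definition and universal property. -/

namespace Vale.P193

open Monoid Monoid.Coprod

variable {ι G : Type} [Group G] (A B : ι → Subgroup G) (φ : ∀ i, A i ≃* B i)

/-- The defining congruence. -/
def multiCon : Con (Coprod G (FreeGroup ι)) :=
  conGen fun x y => ∃ (i : ι) (a : A i),
    x = inr (FreeGroup.of i) * inl (a : G) ∧ y = inl (φ i a : G) * inr (FreeGroup.of i)

/-- The HNN extension with stable letters indexed by `ι`. -/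
def MultiHNN : Type := (multiCon A B φ).Quotient

instance : Group (MultiHNN A B φ) := by
  delta MultiHNN; infer_instance

namespace MultiHNN

/-- The base. -/
def of : G →* MultiHNN A B φ := (multiCon A B φ).mk'.comp inl

/-- The free group on the stable letters. -/
def lift' : FreeGroup ι →* MultiHNN A B φ := (multiCon A B φ).mk'.comp inr

/-- A stable letter. -/
def t (i : ι) : MultiHNN A B φ := lift' A B φ (FreeGroup.of i)

theorem t_mul_of (i : ι) (a : A i) :
    t A B φ i * of A B φ (a : G) = of A B φ (φ i a : G) * t A B φ i :=
  (Con.eq _).2 <| ConGen.Rel.of _ _ <| ⟨i, a, by simp⟩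

end MultiHNN

end Vale.P193
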