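import Vale.Agent.P193.Gen.Cent
import Vale.Agent.P193.Gen.Graph
import Vale.Agent.P193.Gen.MultiDefs
import Mathlib.GroupTheory.NoncommPiCoprod
import Mathlib.GroupTheory.NoncommCoprod
import Mathlib.Algebra.BigOperators.Pi
import Mathlib.Algebra.Group.Subgroup.Lattice
import Mathlib.Tactic.Group

/-!
P193: universal properties of the models (`Cent`, `GraphHNN`, `MultiHNN`, the lattice) with hypotheses on generators
only, and the matching generation lemmas.
-/

namespace Vale.P193

open Monoid

variable {H : Type} [Group H]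

/-- Two elements of a closure commute with `x` as soon as the generators do. -/
theorem commute_of_closure {M : Type} [Group M] (f : M →* H) {x : H} {S : Set M}
    (hS : ∀ s ∈ S, Commute (f s) x) {m : M} (hm : m ∈ Subgroup.closure S) : Commute (f m) x := by
  refine Subgroup.closure_induction (p := fun y _ => Commute (f y) x) hS (by simp) ?_ ?_ hm
  · intro a b _ _ ha hb; rw [map_mul]; exact ha.mul_left hb
  · intro a _ ha; rw [map_inv]; exact ha.inv_left

namespace Cent

variable {M : Type} [Group M] {L : Subgroup M} (f : M →* H) (x : H)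

theorem liftVal_aux (hx : ∀ l ∈ L, Commute (f l) x) (a b : M)
    (hab : (QuotientGroup.leftRel L) a b) : f a * x * (f a)⁻¹ = f b * x * (f b)⁻¹ := by
  have hl : a⁻¹ * b ∈ L := QuotientGroup.leftRel_apply.1 hab
  have h := (hx _ hl).eq
  have e : f b = f a * f (a⁻¹ * b) := by rw [← map_mul, mul_inv_cancel_left]
  rw [e, mul_assoc (f a) _ x, h, mul_inv_rev]
  group

/-- The value of a coset letter. -/
def liftVal (hx : ∀ l ∈ L, Commute (f l) x) : M ⧸ L → H :=
  fun q => Quotient.liftOn' q (fun m => f m * x * (f m)⁻¹) (liftVal_aux f x hx)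

/-- The universal property. -/
def liftHom (hx : ∀ l ∈ L, Commute (f l) x) : Cent M L →* H :=
  SemidirectProduct.lift (FreeGroup.lift (liftVal f x hx)) f <| by
    intro m
    refine FreeGroup.ext_hom _ _ fun q => ?_
    induction q using QuotientGroup.induction_on with
    | H a =>
      simp only [MonoidHom.comp_apply, MulEquiv.coe_toMonoidHom, centAct_of, FreeGroup.lift_apply_of,
        MulAut.conj_apply, MulAction.Quotient.smul_coe, smul_eq_mul]
      show f (m * a) * x * (f (m * a))⁻¹ = f m * (f a * x * (f a)⁻¹) * (f m)⁻¹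
      rw [map_mul, mul_inv_rev]
      group

@[simp] theorem liftHom_base (hx : ∀ l ∈ L, Commute (f l) x) (m : M) :
    liftHom f x hx (base m) = f m := by simp [liftHom]

@[simp] theorem liftHom_k (hx : ∀ l ∈ L, Commute (f l) x) : liftHom f x hx k = x := by
  simp only [liftHom, k, SemidirectProduct.lift_inl, FreeGroup.lift_apply_of]
  show f 1 * x * (f 1)⁻¹ = x
  simp

/-- A subgroup with the base and `k` is everything. -/
theorem mem_of_gens {K : Subgroup (Cent M L)} (hb : ∀ m, base m ∈ K) (hk : k ∈ K) (y : Cent M L) :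
    y ∈ K := by
  have h : Subgroup.closure (Set.range (base : M →* Cent M L) ∪ {k}) ≤ K := by
    rw [Subgroup.closure_le]
    rintro _ (⟨m, rfl⟩ | rfl)
    exacts [hb m, hk]
  exact h (gen_top (L := L) ▸ Subgroup.mem_top y)

end Cent

namespace GraphHNN

variable {M B : Type} [Group M] [Group B] {U : Subgroup M} (φ : U →* B)

/-- The universal property, with the rope relation tested on a generating set. -/
noncomputable def liftHom (fM : M →* H) (fB : B →* H) (hc : ∀ m b, Commute (fM m) (fB b)) (x : H)
    {S : Set U} (hS : Subgroup.closure S = ⊤)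
    (hx : ∀ u ∈ S, x * fM u = fM u * fB (φ u) * x) : GraphHNN φ →* H :=
  HNNExtension.lift (MonoidHom.noncommCoprod fM fB hc) x <| by
    rintro ⟨_, u, hu, rfl⟩
    have key : ∀ v : U, x * fM v * x⁻¹ = fM v * fB (φ v) := by
      intro v
      have heq : ((MulAut.conj x).toMonoidHom.comp (fM.comp U.subtype)) =
          (MonoidHom.noncommCoprod fM fB hc).comp (U.subtype.prod φ) := by
        refine MonoidHom.eq_of_eqOn_dense hS fun u hu => ?_
        simp only [MonoidHom.comp_apply, MulEquiv.coe_toMonoidHom, MulAut.conj_apply, Subgroup.coe_subtype,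
          MonoidHom.prod_apply, MonoidHom.noncommCoprod_apply]
        rw [hx u hu, mul_inv_cancel_right]
      simpa using DFunLike.congr_fun heq v
    have e : ((graphEquiv φ) ⟨MonoidHom.inl M B u, u, hu, rfl⟩ : M × B) = (u, φ ⟨u, hu⟩) := by
      have h2 : (U.equivMapOfInjective (MonoidHom.inl M B) (fun a b h => by simpa using h)).symm
          ⟨MonoidHom.inl M B u, u, hu, rfl⟩ = ⟨u, hu⟩ := by
        rw [MulEquiv.symm_apply_eq]; exact Subtype.ext rfl
      unfold graphEquiv
      erw [MulEquiv.trans_apply, h2, MonoidHom.ofInjective_apply]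
      rfl
    rw [e]
    have h := key ⟨u, hu⟩
    rw [mul_inv_eq_iff_eq_mul] at h
    simpa using h

variable {φ} {fM : M →* H} {fB : B →* H} {hc : ∀ m b, Commute (fM m) (fB b)} {x : H}
  {S : Set U} {hS : Subgroup.closure S = ⊤} {hx : ∀ u ∈ S, x * fM u = fM u * fB (φ u) * x}

@[simp] theorem liftHom_inM (m : M) : liftHom φ fM fB hc x hS hx (inM φ m) = fM m := by
  simp [liftHom, inM]

@[simp] theorem liftHom_inB (b : B) : liftHom φ fM fB hc x hS hx (inB φ b) = fB b := by
  simp [liftHom, inB]

@[simp] theorem liftHom_r : liftHom φ fM fB hc x hS hx (r φ) = x := by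
  simp [liftHom, r]

/-- A subgroup with both factors and `r` is everything. -/
theorem mem_of_gens {K : Subgroup (GraphHNN φ)} (hM : ∀ m, inM φ m ∈ K) (hB : ∀ b, inB φ b ∈ K)
    (hr : r φ ∈ K) (y : GraphHNN φ) : y ∈ K := by
  induction y using HNNExtension.induction_on with
  | of g =>
    have : (HNNExtension.of g : GraphHNN φ) = inM φ g.1 * inB φ g.2 := by
      simp only [inM, inB, MonoidHom.comp_apply, ← map_mul]
      simp
    rw [this]; exact K.mul_mem (hM _) (hB _)
  | t => exact hr
  | mul a b ha hb => exact K.mul_mem ha hb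
  | inv a ha => exact K.inv_mem ha

end GraphHNN

namespace MultiHNN

variable {ι G : Type} [Group G] (A B : ι → Subgroup G) (φ : ∀ i, A i ≃* B i)

/-- The universal property. -/
def liftHom (f : G →* H) (x : ι → H) (hx : ∀ i (a : A i), x i * f a = f (φ i a : G) * x i) :
    MultiHNN A B φ →* H :=
  (multiCon A B φ).lift (Coprod.lift f (FreeGroup.lift x)) <| Con.conGen_le.2 fun p q h => by
    obtain ⟨i, a, rfl, rfl⟩ := h
    simp [hx]

theorem liftHom_of (f : G →* H) (x : ι → H) (hx : ∀ i (a : A i), x i * f a = f (φ i a : G) * x i)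
    (g : G) : liftHom A B φ f x hx (of A B φ g) = f g :=
  (Con.lift_mk' _ _).trans (Coprod.lift_apply_inl _ _ _)

theorem liftHom_t (f : G →* H) (x : ι → H) (hx : ∀ i (a : A i), x i * f a = f (φ i a : G) * x i)
    (i : ι) : liftHom A B φ f x hx (t A B φ i) = x i :=
  (Con.lift_mk' _ _).trans ((Coprod.lift_apply_inr _ _ _).trans FreeGroup.lift_apply_of)

/-- A subgroup with the base and the stable letters is everything. -/
theorem mem_of_gens {K : Subgroup (MultiHNN A B φ)} (hb : ∀ g, of A B φ g ∈ K)
    (ht : ∀ i, t A B φ i ∈ K) (y : MultiHNN A B φ) : y ∈ K := by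
  obtain ⟨z, rfl⟩ := Con.mk'_surjective (c := multiCon A B φ) y
  show z ∈ K.comap (multiCon A B φ).mk'
  induction z using Coprod.induction_on with
  | inl g => exact hb g
  | inr w =>
    have h : (⊤ : Subgroup (FreeGroup ι)) ≤ K.comap (lift' A B φ) := by
      rw [← FreeGroup.closure_range_of, Subgroup.closure_le]
      rintro _ ⟨i, rfl⟩
      exact ht i
    exact h (Subgroup.mem_top w)
  | mul a b ha hb => exact Subgroup.mul_mem _ ha hb

end MultiHNN

section Lattice

variable {d : ℕ} (y : Fin d → H) (hy : ∀ j l, Commute (y j) (y l))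

/-- `ℤ^d → H` from commuting elements. -/
noncomputable def latHom : Multiplicative (Fin d → ℤ) →* H :=
  (MonoidHom.noncommPiCoprod (fun j => zpowersHom H (y j))
      (fun i j _ a b => ((hy i j).zpow_zpow a.toAdd b.toAdd))).comp
    { toFun := fun c j => Multiplicative.ofAdd (c.toAdd j)
      map_one' := rfl
      map_mul' := fun _ _ => rfl }

theorem latHom_single (j : Fin d) (a : ℤ) :
    latHom y hy (Multiplicative.ofAdd (Pi.single j a)) = y j ^ a := by
  have h : (fun i => Multiplicative.ofAdd ((Pi.single j a : Fin d → ℤ) i)) =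
      (Pi.mulSingle j (Multiplicative.ofAdd a) : Fin d → Multiplicative ℤ) := by
    funext i
    by_cases hi : i = j
    · subst hi; simp
    · simp [hi]
  show MonoidHom.noncommPiCoprod (fun j => zpowersHom H (y j))
      (fun i j _ a b => ((hy i j).zpow_zpow a.toAdd b.toAdd))
    (fun i => Multiplicative.ofAdd ((Pi.single j a : Fin d → ℤ) i)) = _
  rw [h]
  refine (MonoidHom.noncommPiCoprod_mulSingle (fun j => zpowersHom H (y j)) j (Multiplicative.ofAdd a)).trans ?_
  simp

/-- Two maps on `ℤ^d` agree if they agree on the axes. -/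
theorem lat_ext {f g : Multiplicative (Fin d → ℤ) →* H}
    (h : ∀ j a, f (Multiplicative.ofAdd (Pi.single j a)) = g (Multiplicative.ofAdd (Pi.single j a)))
    (c : Fin d → ℤ) : f (Multiplicative.ofAdd c) = g (Multiplicative.ofAdd c) := by
  classical
  have key : ∀ s : Finset (Fin d), f (Multiplicative.ofAdd (∑ j ∈ s, Pi.single j (c j))) =
      g (Multiplicative.ofAdd (∑ j ∈ s, Pi.single j (c j))) := by
    intro s
    induction s using Finset.induction_on with
    | empty => simp
    | insert j s hj ih => rw [Finset.sum_insert hj, ofAdd_add, map_mul, map_mul, h, ih]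
  have h0 : ∑ j, Pi.single j (c j) = c := Finset.univ_sum_single c
  have hu := key Finset.univ
  rwa [h0] at hu

end Lattice

end Vale.P193
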