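import Mathlib.GroupTheory.Coprod.Basic
import Mathlib.Algebra.Group.End
import Mathlib.Algebra.Group.Subgroup.Basic

/-!
P193: normal forms `p₀ q₁ p₁ q₂ …` in a free product of two groups, by letting it act on the forms.
-/

namespace Vale.P193.CoprodNF

open Monoid

variable {P Q : Type*} [Group P] [Group Q]

/-- The pairs after the first factor: second-kind parts nontrivial, interior first-kind parts nontrivial. -/
def OkL : List (Q × P) → Prop
  | [] => True
  | (q, p) :: r => q ≠ 1 ∧ (r = [] ∨ p ≠ 1) ∧ OkL r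

theorem okL_iff : ∀ {l : List (Q × P)},
    OkL l ↔ (∀ x ∈ l, x.1 ≠ 1) ∧ ∀ x ∈ l.dropLast, x.2 ≠ 1 := by
  intro l
  induction l with
  | nil => simp [OkL]
  | cons x r ih =>
    obtain ⟨q, p⟩ := x
    cases r with
    | nil => simp [OkL]
    | cons y r =>
      show q ≠ 1 ∧ (y :: r = [] ∨ p ≠ 1) ∧ OkL (y :: r) ↔ _
      rw [ih]
      simp only [List.dropLast_cons_cons, List.mem_cons, reduceCtorEq, false_or, forall_eq_or_imp]
      tauto

/-- Forms. -/
abbrev NF (P Q : Type*) [Group P] [Group Q] := P × {l : List (Q × P) // OkL l}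

/-- Forms not starting with the second kind, after a second-kind prefix. -/
abbrev NF2 (P Q : Type*) [Group P] [Group Q] :=
  Q × {x : P × List (Q × P) // (x.2 = [] ∨ x.1 ≠ 1) ∧ OkL x.2}

variable (P Q) in
open Classical in
/-- The two descriptions agree. -/
noncomputable def flip : NF P Q ≃ NF2 P Q where
  toFun x :=
    match x with
    | (p, ⟨[], h⟩) => (1, ⟨(p, []), Or.inl rfl, h⟩)
    | (p, ⟨(q, p') :: r, h⟩) =>
      if hp : p = 1 then (q, ⟨(p', r), h.2⟩) else (1, ⟨(p, (q, p') :: r), Or.inr hp, h⟩)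
  invFun y :=
    if hq : y.1 = 1 then (y.2.1.1, ⟨y.2.1.2, y.2.2.2⟩)
    else (1, ⟨(y.1, y.2.1.1) :: y.2.1.2, hq, y.2.2⟩)
  left_inv x := by
    obtain ⟨p, l, h⟩ := x
    cases l with
    | nil => simp
    | cons x r =>
      obtain ⟨q, p'⟩ := x
      by_cases hp : p = 1
      · simp [hp, h.1]
      · simp [hp]
  right_inv y := by
    obtain ⟨q, ⟨p, l⟩, h1, h2⟩ := y
    by_cases hq : q = 1
    · subst hq
      cases l with
      | nil => simp
      | cons x r =>
        obtain ⟨q', p'⟩ := x
        have hp : p ≠ 1 := h1.resolve_left (by simp)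
        simp [hp]
    · simp [hq]

/-- Left multiplication on forms by the first factor. -/
noncomputable def actP : P →* Equiv.Perm (NF P Q) where
  toFun p := (Equiv.mulLeft p).prodCongr (Equiv.refl _)
  map_one' := by ext x <;> simp
  map_mul' a b := by ext x <;> simp [mul_assoc]

/-- Left multiplication on forms by the second factor. -/
noncomputable def actQ : Q →* Equiv.Perm (NF P Q) where
  toFun q := (flip P Q).trans (((Equiv.mulLeft q).prodCongr (Equiv.refl _)).trans (flip P Q).symm)
  map_one' := by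
    refine Equiv.ext fun x => ?_
    simp [Equiv.trans_apply, Prod.map]
  map_mul' a b := by
    refine Equiv.ext fun x => ?_
    simp [Equiv.trans_apply, mul_assoc, Prod.map]

/-- The action of the free product on forms. -/
noncomputable def act : Coprod P Q →* Equiv.Perm (NF P Q) := Coprod.lift actP actQ

/-- Value of the pairs. -/
def lVal : List (Q × P) → Coprod P Q
  | [] => 1
  | x :: r => Coprod.inr x.1 * Coprod.inl x.2 * lVal r

/-- Value of a form. -/
def nfVal (p : P) (l : List (Q × P)) : Coprod P Q := Coprod.inl p * lVal l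

theorem act_inl (a p : P) (l : {l : List (Q × P) // OkL l}) :
    act (Coprod.inl a) (p, l) = (a * p, l) := by
  simp [act, actP]

theorem act_nfVal : ∀ (l : List (Q × P)) (h : OkL l) (p : P),
    act (nfVal p l) (1, ⟨[], trivial⟩) = (p, ⟨l, h⟩) := by
  intro l
  induction l with
  | nil => intro h p; simp [nfVal, lVal, act_inl]
  | cons x r ih =>
    intro h p
    obtain ⟨q, p'⟩ := x
    have e : nfVal p ((q, p') :: r) = Coprod.inl p * (Coprod.inr q * nfVal p' r) := by
      simp [nfVal, lVal, mul_assoc]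
    rw [e, map_mul, map_mul, Equiv.Perm.mul_apply, Equiv.Perm.mul_apply, ih h.2.2 p']
    have e2 : act (Coprod.inr q) (p', ⟨r, h.2.2⟩) = (1, ⟨(q, p') :: r, h⟩) := by
      simp only [act, Coprod.lift_apply_inr, actQ, MonoidHom.coe_mk, OneHom.coe_mk, Equiv.trans_apply]
      have e3 : flip P Q (p', ⟨r, h.2.2⟩) = (1, ⟨(p', r), h.2.1, h.2.2⟩) := by
        cases r with
        | nil => rfl
        | cons y r =>
          obtain ⟨q', p''⟩ := y
          have hp : p' ≠ 1 := h.2.1.resolve_left (by simp)
          simp [flip, hp]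
      rw [e3]
      simp [flip, h.1]
    rw [e2, act_inl, mul_one]

theorem nfVal_inj {p p' : P} {l l' : List (Q × P)} (h : OkL l) (h' : OkL l')
    (e : nfVal p l = nfVal p' l') : p = p' ∧ l = l' := by
  have := congrArg (fun g => act g ((1, ⟨[], trivial⟩) : NF P Q)) e
  rw [act_nfVal l h, act_nfVal l' h'] at this
  simpa using this

theorem eq_nil {p x : P} {l : List (Q × P)} (h : OkL l) (e : nfVal p l = Coprod.inl x) :
    p = x ∧ l = [] :=
  nfVal_inj h trivial (e.trans (by simp [nfVal, lVal]))

theorem ne_one {p : P} {l : List (Q × P)} (h : OkL l) (hne : l ≠ [] ∨ p ≠ 1) : nfVal p l ≠ 1 := by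
  intro e
  obtain ⟨hp, hl⟩ := eq_nil h (e.trans (map_one _).symm)
  exact hne.elim (fun h1 => h1 hl) (fun h1 => h1 hp)

section Blockwise

variable (S : Subgroup P)

/-- All parts of the first kind lie in `S`. -/
def AllS (x : NF P Q) : Prop := x.1 ∈ S ∧ ∀ y ∈ x.2.1, y.2 ∈ S

/-- Generated by `S` and the whole second factor. -/
def withQ : Subgroup (Coprod P Q) :=
  Subgroup.closure (Coprod.inl '' (S : Set P) ∪ Set.range Coprod.inr)

theorem allS_flip (x : NF P Q) :
    AllS S x ↔ (flip P Q x).2.1.1 ∈ S ∧ ∀ y ∈ (flip P Q x).2.1.2, y.2 ∈ S := by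
  obtain ⟨p, l, h⟩ := x
  cases l with
  | nil => simp [AllS, flip]
  | cons y r =>
    obtain ⟨q, p'⟩ := y
    by_cases hp : p = 1
    · simp [AllS, flip, hp, S.one_mem]
    · simp [AllS, flip, hp]

theorem allS_act {g : Coprod P Q} (hg : g ∈ withQ S) :
    ∀ x, AllS S (act g x) ↔ AllS S x := by
  induction hg using Subgroup.closure_induction with
  | mem y hy =>
    rintro ⟨p, l⟩
    rcases hy with ⟨s, hs, rfl⟩ | ⟨q, rfl⟩
    · rw [act_inl]
      simp [AllS, S.mul_mem_cancel_left hs]
    · rw [allS_flip, allS_flip S (p, l)]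
      simp [act, actQ, Equiv.trans_apply, Prod.map]
  | one => simp
  | mul a b _ _ ha hb =>
    intro x
    rw [map_mul, Equiv.Perm.mul_apply, ha, hb]
  | inv a _ ha =>
    intro x
    rw [map_inv]
    simpa using (ha ((act a)⁻¹ x)).symm

/-- A normal form lies in `⟨S, Q⟩` exactly when its first-kind parts lie in `S`. -/
theorem mem_withQ_iff {p : P} {l : List (Q × P)} (h : OkL l) :
    nfVal p l ∈ withQ S ↔ p ∈ S ∧ ∀ x ∈ l, x.2 ∈ S := by
  constructor
  · intro hm
    have := (allS_act S hm (1, ⟨[], trivial⟩)).2 ⟨S.one_mem, by simp⟩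
    rw [act_nfVal l h] at this
    exact this
  · rintro ⟨hp, hl⟩
    refine Subgroup.mul_mem _ (Subgroup.subset_closure (Or.inl ⟨p, hp, rfl⟩)) ?_
    clear h hp
    induction l with
    | nil => exact Subgroup.one_mem _
    | cons x r ih =>
      exact Subgroup.mul_mem _ (Subgroup.mul_mem _ (Subgroup.subset_closure (Or.inr ⟨x.1, rfl⟩))
        (Subgroup.subset_closure (Or.inl ⟨x.2, hl x (by simp), rfl⟩)))
        (ih fun y hy => hl y (by simp [hy]))

end Blockwise

end Vale.P193.CoprodNF
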