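import Vale.Agent.P193.Gen.EmbRedDefs
import Vale.Agent.P193.Gen.CoprodNF

/-!
P193 M6: segments in the base `P ∗ F(a, c, e, f)`: their values, free parts, and blocks.
-/

namespace Vale.P193

theorem wsum_winv {α : Type} (f : α → ℕ) (w : Wd α) : wsum f (winv w) = wsum f w :=
  wsum_invRev f w

theorem wev_single {α G : Type*} [Group G] (f : α → G) (l : α × Bool) :
    wev f [l] = cond l.2 (f l.1) (f l.1)⁻¹ := by
  rw [wev_cons', wev_nil, mul_one]

namespace EmbData

open Monoid

variable {P : Type} [Group P] {τ : Type} (tv : τ → P)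

theorem wev_inT (v : Wd τ) : wev (bl tv) (inT v) = Coprod.inl (wev tv v) := by
  rw [inT, wev_map, hom_wev]
  rfl

theorem wev_in4 (x : Wd (Fin 4)) : wev (bl tv) (in4 x) = Coprod.inr (FreeGroup.mk x) := by
  have h : (FreeGroup.mk x : F4) = wev FreeGroup.of x := by
    induction x with
    | nil => simp [← FreeGroup.one_eq_mk]
    | cons l x ih =>
      rw [← List.singleton_append, ← FreeGroup.mul_mk, wev_append, ih]
      congr 1
      obtain ⟨j, b⟩ := l
      cases b <;> simp [wev_single] <;> rfl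
  rw [in4, wev_map, h, hom_wev]
  rfl

theorem wsum_inT (tw : τ → ℕ) (v : Wd τ) : wsum (wB tw) (inT v) = wsum tw v := by
  rw [inT, wsum_map]
  rfl

theorem tokW_inT (tw : τ → ℕ) (v : Wd τ) : wsum (tokW tw) (inT v) = wsum tw v := by
  rw [inT, wsum_map]
  rfl

theorem tokW_in4 (tw : τ → ℕ) (x : Wd (Fin 4)) : wsum (tokW tw) (in4 x) = 0 := by
  induction x with
  | nil => rfl
  | cons l x ih => simpa [in4, wsum_cons, tokW] using ih

theorem tokW_le (tw : τ → ℕ) (u : SW τ) : wsum (tokW tw) u ≤ wsum (wB tw) u := by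
  rw [wB_eq]; omega

/-- The free part of the value. -/
theorem snd_bl (u : SW τ) : Coprod.snd (wev (bl tv) u) = FreeGroup.mk (x4 u) := by
  induction u with
  | nil => simp [x4, ← FreeGroup.one_eq_mk]
  | cons l u ih =>
    obtain ⟨k | j, b⟩ := l
    · rw [wev_cons', map_mul, ih, show x4 ((Sum.inl k, b) :: u) = x4 u from rfl]
      cases b <;> simp [bl]
    · have e : x4 ((Sum.inr j, b) :: u) = [(j, b)] ++ x4 u := rfl
      rw [wev_cons', map_mul, ih, e, ← FreeGroup.mul_mk]
      congr 1
      cases b <;> simp [bl] <;> rfl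

theorem x4_append (u v : SW τ) : x4 (u ++ v) = x4 u ++ x4 v := by simp [x4]

theorem length_x4_le (u : SW τ) : (x4 u).length ≤ u.length := List.length_filterMap_le _ _

theorem x4_in4 (x : Wd (Fin 4)) : x4 (in4 x : SW τ) = x := by
  induction x with
  | nil => rfl
  | cons l x ih => simpa [x4, in4] using ih

/-- The pairs of values of a block list. -/
def pairs (l : List (Wd (Fin 4) × Wd τ)) : List (F4 × P) :=
  l.map fun x => (FreeGroup.mk x.1, wev tv x.2)

/-- The blocks are normal. -/
def BlkOk (b : Blk τ) : Prop := CoprodNF.OkL (pairs tv b.2)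

theorem blkOk_iff (b : Blk τ) : BlkOk tv b ↔
    (∀ x ∈ b.2, FreeGroup.mk x.1 ≠ 1) ∧ ∀ x ∈ b.2.dropLast, wev tv x.2 ≠ 1 := by
  simp only [BlkOk, CoprodNF.okL_iff, pairs, ← List.map_dropLast, List.forall_mem_map]

theorem blk_val (b : Blk τ) :
    wev (bl tv) (blkWord b) = CoprodNF.nfVal (wev tv b.1) (pairs tv b.2) := by
  obtain ⟨v, l⟩ := b
  simp only [blkWord, wev_append, wev_inT, CoprodNF.nfVal]
  congr 1
  induction l with
  | nil => simp [pairs, CoprodNF.lVal]
  | cons x l ih =>
    simp only [List.flatMap_cons, wev_append, ih, wev_inT, wev_in4, pairs, List.map_cons,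
      CoprodNF.lVal]

/-- Token weight of blocks. -/
def btW (tw : τ → ℕ) (b : Blk τ) : ℕ := ((toks b).map (wsum tw)).sum

theorem wsum_le_btW (tw : τ → ℕ) {b : Blk τ} {v : Wd τ} (hv : v ∈ toks b) :
    wsum tw v ≤ btW tw b :=
  List.le_sum_of_mem (List.mem_map.2 ⟨v, hv, rfl⟩)

theorem exists_blocks (tw : τ → ℕ) (u : SW τ) :
    ∃ b : Blk τ, BlkOk tv b ∧ wev (bl tv) (blkWord b) = wev (bl tv) u ∧
      btW tw b ≤ wsum (tokW tw) u := by
  classical
  induction u with
  | nil => exact ⟨([], []), trivial, by simp [blkWord, inT], by simp [btW, toks]⟩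
  | cons l u ih =>
    obtain ⟨⟨w0, bs⟩, hok, hval, hw⟩ := ih
    rw [blk_val] at hval
    obtain ⟨k | j, s⟩ := l
    · refine ⟨((k, s) :: w0, bs), hok, ?_, ?_⟩
      · rw [blk_val, wev_cons' (bl tv), ← hval]
        simp only [CoprodNF.nfVal, ← mul_assoc]
        congr 1
        rw [wev_cons', map_mul]
        cases s <;> simp [bl]
      · simp [btW, toks, tokW] at hw ⊢
        omega
    · have hl : wev (bl tv) ((Sum.inr j, s) :: u) =
          Coprod.inr (FreeGroup.mk [(j, s)]) * CoprodNF.nfVal (wev tv w0) (pairs tv bs) := by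
        rw [wev_cons', hval]
        congr 1
        cases s
        · show _ = Coprod.inr ((FreeGroup.of j)⁻¹)
          simp [bl]
        · rfl
      have hne : FreeGroup.mk [(j, s)] ≠ 1 := fun e => by
        have := congrArg FreeGroup.toWord e
        simp [FreeGroup.IsReduced.singleton.reduce_eq, FreeGroup.toWord_mk] at this
      simp only [btW, toks, List.map_cons, List.sum_cons, List.map_map, wsum_cons, tokW] at hw ⊢
      by_cases hc : bs = [] ∨ wev tv w0 ≠ 1
      · refine ⟨([], ([(j, s)], w0) :: bs), ⟨hne, ?_, hok⟩, ?_, ?_⟩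
        · exact hc.imp (fun e => by simp [e]) id
        · rw [hl, blk_val]
          simp [pairs, CoprodNF.nfVal, CoprodNF.lVal, mul_assoc]
        · simp; omega
      · push Not at hc
        obtain ⟨hne2, hw0⟩ := hc
        obtain ⟨⟨y1, w1⟩, r, rfl⟩ := List.exists_cons_of_ne_nil hne2
        obtain ⟨hy1, hw1, hr⟩ := (hok : CoprodNF.OkL ((FreeGroup.mk y1, wev tv w1) :: pairs tv r))
        have hl2 : wev (bl tv) ((Sum.inr j, s) :: u) =
            Coprod.inr (FreeGroup.mk ((j, s) :: y1)) * CoprodNF.nfVal (wev tv w1) (pairs tv r) := by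
          rw [hl, hw0, show ((j, s) :: y1) = [(j, s)] ++ y1 from rfl, ← FreeGroup.mul_mk, map_mul]
          simp [pairs, CoprodNF.nfVal, CoprodNF.lVal, mul_assoc]
        simp only [List.map_cons, List.sum_cons, Function.comp_apply] at hw
        by_cases hy : FreeGroup.mk ((j, s) :: y1) = 1
        · refine ⟨(w1, r), hr, ?_, ?_⟩
          · rw [hl2, hy, map_one, one_mul, blk_val]
          · simp; omega
        · refine ⟨([], ((j, s) :: y1, w1) :: r), ⟨hy, hw1, hr⟩, ?_, ?_⟩
          · rw [hl2, blk_val]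
            simp [pairs, CoprodNF.nfVal, CoprodNF.lVal, mul_assoc]
          · simp; omega

theorem blk_ne_one {b : Blk τ} (h : BlkOk tv b) (hne : b.2 ≠ [] ∨ wev tv b.1 ≠ 1) :
    wev (bl tv) (blkWord b) ≠ 1 := by
  rw [blk_val]
  exact CoprodNF.ne_one h (hne.imp (fun e => by simpa [pairs]) id)

theorem blk_nil {b : Blk τ} (h : BlkOk tv b) {x : P}
    (e : wev (bl tv) (blkWord b) = Coprod.inl x) : b.2 = [] ∧ wev tv b.1 = x := by
  rw [blk_val] at e
  obtain ⟨h1, h2⟩ := CoprodNF.eq_nil h e
  exact ⟨by simpa [pairs] using h2, h1⟩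

theorem blk_mem_iff {b : Blk τ} (h : BlkOk tv b) (S : Subgroup P) :
    wev (bl tv) (blkWord b) ∈ CoprodNF.withQ S ↔ ∀ v ∈ toks b, wev tv v ∈ S := by
  rw [blk_val, CoprodNF.mem_withQ_iff S h]
  simp only [toks, pairs, List.forall_mem_cons, List.forall_mem_map]

end EmbData

end Vale.P193
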