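import Vale.Agent.P193.Gen.EmbSide

/-!
P193 M6: soundness and completeness of the certificates for negative statements in an embedding extension.
The atoms are needed only on token words of weight at most twice that of the word.
-/

namespace Vale.P193.EmbData

open Monoid

variable {P : Type} [Group P] {τ : Type} {D : EmbData P}

theorem forall_zip_tail {α : Type*} {R : α → α → Prop} :
    ∀ {l : List α}, (∀ q ∈ l.zip l.tail, R q.1 q.2) ↔ List.IsChain R l := by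
  intro l
  induction l with
  | nil => simp
  | cons a r ih =>
    cases r with
    | nil => simp
    | cons b r =>
      rw [List.isChain_cons_cons, ← ih]
      simp

theorem tokW_append_in4 (tw : τ → ℕ) (u : SW τ) (x : Wd (Fin 4)) :
    wsum (tokW tw) (u ++ winv (in4 x)) = wsum (tokW tw) u := by
  rw [wsum_append, wsum_winv, tokW_in4, Nat.add_zero]

namespace Toks

variable (T : Toks D τ) {NP NS : Wd τ → Prop} {Dr : Wd (EL τ) → Prop}

/-- Equality derived on the whole alphabet holds in the base. -/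
theorem base_eq (hDr : ∀ v, Dr v → wev (D.eVal T.tv) v = 1) {u v : SW τ}
    (h : Dr (weq (up u) (up v))) : wev (bl T.tv) u = wev (bl T.tv) v := by
  have e := hDr _ h
  rw [wev_weq, wev_up, wev_up] at e
  exact HNNExtension.of_injective _ e

theorem blkCert_sound (hNP : ∀ v, NP v → wev T.tv v ≠ 1)
    (hDr : ∀ v, Dr v → wev (D.eVal T.tv) v = 1) {Pz : Blk τ → Prop} {u : SW τ}
    (h : BlkCert NP Dr Pz u) :
    ∃ b, BlkOk T.tv b ∧ Pz b ∧ wev (bl T.tv) (blkWord b) = wev (bl T.tv) u := by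
  obtain ⟨b, hd, h1, h2, hp⟩ := h
  exact ⟨b, (blkOk_iff T.tv b).2 ⟨h1, fun x hx => hNP _ (h2 x hx)⟩, hp, (T.base_eq hDr hd).symm⟩

theorem blockNe_sound (hNP : ∀ v, NP v → wev T.tv v ≠ 1)
    (hDr : ∀ v, Dr v → wev (D.eVal T.tv) v = 1) {u : SW τ}
    (h : BlockNe NP Dr u) : wev (bl T.tv) u ≠ 1 := by
  obtain ⟨b, hb, hp, e⟩ := T.blkCert_sound hNP hDr h
  rw [← e]
  exact blk_ne_one T.tv hb (hp.imp id (hNP _))

theorem blkCert_complete {N : ℕ} (hNP : ∀ v, wsum T.C.tw v ≤ N → wev T.tv v ≠ 1 → NP v)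
    (hDr : ∀ v, wev (D.eVal T.tv) v = 1 → Dr v) {Pz : Blk τ → Prop} {u : SW τ}
    (hu : wsum (tokW T.C.tw) u ≤ N)
    (hP : ∀ b, BlkOk T.tv b → wev (bl T.tv) (blkWord b) = wev (bl T.tv) u →
      btW T.C.tw b ≤ wsum (tokW T.C.tw) u → Pz b) :
    BlkCert NP Dr Pz u := by
  obtain ⟨b, hb, e, hw⟩ := exists_blocks T.tv T.C.tw u
  obtain ⟨h1, h2⟩ := (blkOk_iff T.tv b).1 hb
  refine ⟨b, hDr _ ?_, h1, fun x hx => hNP _ ?_ (h2 x hx), hP b hb e hw⟩
  · rw [wev_weq, wev_up, wev_up, e]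
  · have := wsum_le_btW T.C.tw (b := b) (v := x.2)
      (List.mem_cons_of_mem _ (List.mem_map.2 ⟨x, List.dropLast_subset _ hx, rfl⟩))
    omega

theorem blockNe_complete {N : ℕ} (hNP : ∀ v, wsum T.C.tw v ≤ N → wev T.tv v ≠ 1 → NP v)
    (hDr : ∀ v, wev (D.eVal T.tv) v = 1 → Dr v) {u : SW τ}
    (hu : wsum (tokW T.C.tw) u ≤ N) (hne : wev (bl T.tv) u ≠ 1) : BlockNe NP Dr u := by
  refine T.blkCert_complete hNP hDr hu fun b _ e hw => ?_
  by_cases hb : b.2 = []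
  · refine Or.inr (hNP _ ?_ fun h1 => hne ?_)
    · have := wsum_le_btW T.C.tw (b := b) (v := b.1) (by simp [toks])
      omega
    · rw [← e, blk_val, h1, hb]
      simp [pairs, CoprodNF.nfVal, CoprodNF.lVal]
  · exact Or.inl hb

theorem notA_sound (hNP : ∀ v, NP v → wev T.tv v ≠ 1)
    (hDr : ∀ v, Dr v → wev (D.eVal T.tv) v = 1) {u : SW τ} (h : NotA T.C NP Dr u) :
    wev (bl T.tv) u ∉ D.sideA := by
  intro hu
  obtain ⟨Ξ, hm, hs⟩ := T.shape_a_mem hu
  rcases h with h | h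
  · exact h Ξ hm hs
  · refine T.blockNe_sound hNP hDr h ?_
    rw [wev_append, wev_winv, (T.mem_sideA hs).1 hu, wev_in4, mul_inv_cancel]

theorem notB_sound (hNP : ∀ v, NP v → wev T.tv v ≠ 1)
    (hDr : ∀ v, Dr v → wev (D.eVal T.tv) v = 1) {u : SW τ} (h : NotB T.C NP Dr u) :
    wev (bl T.tv) u ∉ D.sideB := by
  intro hu
  rcases h with h | ⟨Ξ, hs, h⟩
  · obtain ⟨Ξ, hm, hs⟩ := T.shape_b_mem hu
    exact h Ξ hm hs
  · obtain ⟨e, hw⟩ := (T.mem_sideB hs).1 hu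
    rcases h with h | h
    · omega
    · refine T.blockNe_sound hNP hDr h ?_
      rw [wev_append, wev_winv, e, mul_inv_cancel]

theorem notSide_sound (hNP : ∀ v, NP v → wev T.tv v ≠ 1)
    (hDr : ∀ v, Dr v → wev (D.eVal T.tv) v = 1) {b : Bool} {u : SW τ}
    (h : NotSide T.C NP Dr b u) : wev (bl T.tv) u ∉ HNNRed.side D.sideA D.sideB b := by
  cases b
  · exact T.notB_sound hNP hDr h
  · exact T.notA_sound hNP hDr h

theorem tokW_genWord_b (W : Wd D.ι) :
    wsum (tokW T.C.tw) (genWord (bWord1 T.C) (D.cw W)) ≤ wsum D.m W := by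
  refine wsum_genWord D (tokW T.C.tw) (fun i => ?_) W
  have := T.rep_w i
  simp [bWord1, conjW, wsum_replicate, tokW_inT, tokW]
  omega

theorem notSide_complete {N : ℕ} (hNP : ∀ v, wsum T.C.tw v ≤ N → wev T.tv v ≠ 1 → NP v)
    (hDr : ∀ v, wev (D.eVal T.tv) v = 1 → Dr v) {b : Bool} {u : SW τ}
    (hu : 2 * wsum (tokW T.C.tw) u ≤ N)
    (h : wev (bl T.tv) u ∉ HNNRed.side D.sideA D.sideB b) : NotSide T.C NP Dr b u := by
  classical
  cases b
  · show NotB T.C NP Dr u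
    by_cases hn : NoShape T.C (bWord1 T.C) u
    · exact Or.inl hn
    simp only [NoShape, not_forall, not_not] at hn
    obtain ⟨Ξ, -, hs⟩ := hn
    refine Or.inr ⟨Ξ, hs, ?_⟩
    by_cases hw : wsum (tokW T.C.tw) u < codeW T.C Ξ
    · exact Or.inl hw
    refine Or.inr (T.blockNe_complete hNP hDr ?_ fun e => ?_)
    · obtain ⟨W, rfl, -, -⟩ := (T.shape_iff T.wev_bWord1 u Ξ).1 hs
      have := T.tokW_genWord_b W
      rw [T.codeW_cw] at hw
      rw [wsum_append, wsum_winv]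
      omega
    · rw [wev_append, wev_winv, mul_inv_eq_one] at e
      exact h ((T.mem_sideB hs).2 ⟨e, not_lt.1 hw⟩)
  · show NotA T.C NP Dr u
    by_cases hn : NoShape T.C (aWord1 T.C) u
    · exact Or.inl hn
    simp only [NoShape, not_forall, not_not] at hn
    obtain ⟨Ξ, -, hs⟩ := hn
    refine Or.inr (T.blockNe_complete hNP hDr ?_ fun e => ?_)
    · rw [tokW_append_in4]; omega
    · rw [wev_append, wev_winv, wev_in4, mul_inv_eq_one] at e
      exact h ((T.mem_sideA hs).2 e)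

/-- A certified form is a pinch-free form of the word. -/
theorem formCert_sound (hNP : ∀ v, NP v → wev T.tv v ≠ 1)
    (hDr : ∀ v, Dr v → wev (D.eVal T.tv) v = 1) {Pz : EForm τ → Prop} {w : Wd (EL τ)}
    (h : FormCert T.C NP Dr Pz w) :
    ∃ f, D.Red T.tv f ∧ Pz f ∧ D.fVal T.tv f = wev (D.eVal T.tv) w := by
  obtain ⟨f, hd, hc, hp⟩ := h
  refine ⟨f, ?_, hp, ?_⟩
  · have hc2 : List.IsChain (fun x y : Bool × SW τ =>
        x.1 = y.1 ∨ NotSide T.C NP Dr x.1 x.2) f.2 := forall_zip_tail.1 hc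
    rw [Red, vlist, HNNRed.PF, List.isChain_map]
    refine hc2.imp fun x y hxy hx => ?_
    exact hxy.resolve_right fun hn => T.notSide_sound hNP hDr hn hx
  · have e := hDr _ hd
    rw [wev_weq, wev_formWord] at e
    exact e.symm

/-- A certified form exists, and it may be assumed pinch-free and no heavier than the word. -/
theorem formCert_complete {w : Wd (EL τ)}
    (hNP : ∀ v, wsum T.C.tw v ≤ 2 * wsum (wE T.C.tw) w → wev T.tv v ≠ 1 → NP v)
    (hDr : ∀ v, wev (D.eVal T.tv) v = 1 → Dr v) {Pz : EForm τ → Prop}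
    (hP : ∀ f, D.Red T.tv f → D.fVal T.tv f = wev (D.eVal T.tv) w →
      formW T.C.tw f ≤ wsum (wE T.C.tw) w → Pz f) :
    FormCert T.C NP Dr Pz w := by
  classical
  obtain ⟨f, hf, hv, hw⟩ := T.reduce w
  refine ⟨f, hDr _ ?_, ?_, hP f hf hv hw⟩
  · rw [wev_weq, wev_formWord, hv]
  · rw [Red, vlist, HNNRed.PF, List.isChain_map] at hf
    have hall : ∀ x ∈ f.2, wev (bl T.tv) x.2 ∉ HNNRed.side D.sideA D.sideB x.1 →
        NotSide T.C NP Dr x.1 x.2 := by
      intro x hx hn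
      refine T.notSide_complete hNP hDr ?_ hn
      have h1 := tokW_le T.C.tw x.2
      have h2 := seg_le_formW T.C.tw (f := f) (s := x.2)
        (List.mem_cons_of_mem _ (List.mem_map.2 ⟨x, hx, rfl⟩))
      omega
    intro q hq
    have hstep : q.1.1 = q.2.1 ∨ wev (bl T.tv) q.1.2 ∉ HNNRed.side D.sideA D.sideB q.1.1 := by
      have := (forall_zip_tail (R := fun x y : Bool × SW τ =>
        wev (bl T.tv) x.2 ∈ HNNRed.side D.sideA D.sideB x.1 → x.1 = y.1)).2 hf q hq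
      exact (em (wev (bl T.tv) q.1.2 ∈ HNNRed.side D.sideA D.sideB q.1.1)).imp this id
    exact hstep.imp id (hall _ (List.of_mem_zip hq).1)

theorem negE_sound (hNP : ∀ v, NP v → wev T.tv v ≠ 1)
    (hDr : ∀ v, Dr v → wev (D.eVal T.tv) v = 1) {w : Wd (EL τ)} (h : NegE T.C NP Dr w) :
    wev (D.eVal T.tv) w ≠ 1 := by
  intro e
  obtain ⟨f, hf, hp, hv⟩ := T.formCert_sound hNP hDr h
  obtain ⟨h1, h2⟩ := form_nil_of D hf (x := 1) (by rw [hv, e, map_one])
  exact T.blockNe_sound hNP hDr (hp.resolve_left fun hne => hne h1) h2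

theorem negE_complete {w : Wd (EL τ)}
    (hNP : ∀ v, wsum T.C.tw v ≤ 2 * wsum (wE T.C.tw) w → wev T.tv v ≠ 1 → NP v)
    (hDr : ∀ v, wev (D.eVal T.tv) v = 1 → Dr v) (h : wev (D.eVal T.tv) w ≠ 1) :
    NegE T.C NP Dr w := by
  refine T.formCert_complete hNP hDr fun f hf hv hw => ?_
  by_cases h1 : f.2 = []
  · refine Or.inr (T.blockNe_complete hNP hDr ?_ fun e => h ?_)
    · have h2 := tokW_le T.C.tw f.1
      have h3 := seg_le_formW T.C.tw (f := f) (s := f.1) (by simp [segs])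
      omega
    · rw [← hv, fVal, e, h1]
      simp [vlist, HNNRed.hval, HNNRed.prodT]
  · exact Or.inl h1

theorem notP_sound {S : Subgroup P} (hNP : ∀ v, NP v → wev T.tv v ≠ 1)
    (hNS : ∀ v, NS v → wev T.tv v ∉ S) (hDr : ∀ v, Dr v → wev (D.eVal T.tv) v = 1)
    {w : Wd (EL τ)} (h : NotP T.C NP NS Dr w) {x : P} (hx : x ∈ S) :
    wev (D.eVal T.tv) w ≠ D.inP x := by
  intro e
  obtain ⟨f, hf, hp, hv⟩ := T.formCert_sound hNP hDr h
  obtain ⟨h1, h2⟩ := form_nil_of D hf (hv.trans e)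
  obtain ⟨b, hb, hpb, hbv⟩ := T.blkCert_sound hNP hDr (hp.resolve_left fun hne => hne h1)
  obtain ⟨h3, h4⟩ := blk_nil T.tv hb (hbv.trans h2)
  exact hNS _ (hpb.resolve_left fun hne => hne h3) (h4 ▸ hx)

theorem notP_complete {S : Subgroup P} {w : Wd (EL τ)}
    (hNP : ∀ v, wsum T.C.tw v ≤ 2 * wsum (wE T.C.tw) w → wev T.tv v ≠ 1 → NP v)
    (hNS : ∀ v, wsum T.C.tw v ≤ 2 * wsum (wE T.C.tw) w → wev T.tv v ∉ S → NS v)
    (hDr : ∀ v, wev (D.eVal T.tv) v = 1 → Dr v)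
    (h : ∀ x ∈ S, wev (D.eVal T.tv) w ≠ D.inP x) : NotP T.C NP NS Dr w := by
  refine T.formCert_complete hNP hDr fun f hf hv hw => ?_
  by_cases h1 : f.2 = []
  · have h2 := tokW_le T.C.tw f.1
    have h3 := seg_le_formW T.C.tw (f := f) (s := f.1) (by simp [segs])
    refine Or.inr (T.blkCert_complete hNP hDr (by omega) fun b _ e hb => ?_)
    by_cases h4 : b.2 = []
    · refine Or.inr (hNS _ ?_ fun hS => h _ hS ?_)
      · have := wsum_le_btW T.C.tw (b := b) (v := b.1) (by simp [toks])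
        omega
      · rw [← hv, fVal, ← e, h1, blk_val, h4]
        simp [vlist, HNNRed.hval, HNNRed.prodT, pairs, CoprodNF.nfVal, CoprodNF.lVal, inP]
    · exact Or.inl h4
  · exact Or.inl h1

theorem notQ_sound (hNP : ∀ v, NP v → wev T.tv v ≠ 1)
    (hNS : ∀ v, NS v → wev T.tv v ∉ D.valSub) (hDr : ∀ v, Dr v → wev (D.eVal T.tv) v = 1)
    {w : Wd (EL τ)} (h : NotQ T.C NP NS Dr w) :
    wev (D.eVal T.tv) w ∉ Subgroup.closure (Set.range D.five) := by
  intro e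
  obtain ⟨f, hf, ⟨s, hs, hp⟩, hv⟩ := T.formCert_sound hNP hDr h
  obtain ⟨b, hb, ⟨v, hv1, hv2⟩, hbv⟩ := T.blkCert_sound hNP hDr hp
  have h1 := (D.mem_five_iff hf).1 (hv ▸ e) s hs
  rw [← hbv, blk_mem_iff T.tv hb] at h1
  exact hNS v hv2 (h1 v hv1)

theorem notQ_complete {w : Wd (EL τ)}
    (hNP : ∀ v, wsum T.C.tw v ≤ 2 * wsum (wE T.C.tw) w → wev T.tv v ≠ 1 → NP v)
    (hNS : ∀ v, wsum T.C.tw v ≤ 2 * wsum (wE T.C.tw) w → wev T.tv v ∉ D.valSub → NS v)
    (hDr : ∀ v, wev (D.eVal T.tv) v = 1 → Dr v)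
    (h : wev (D.eVal T.tv) w ∉ Subgroup.closure (Set.range D.five)) :
    NotQ T.C NP NS Dr w := by
  refine T.formCert_complete hNP hDr fun f hf hv hw => ?_
  rw [← hv, D.mem_five_iff hf] at h
  obtain ⟨s, hs⟩ := not_forall.1 h
  obtain ⟨hs, hns⟩ := Classical.not_imp.1 hs
  have h2 := tokW_le T.C.tw s
  have h3 := seg_le_formW T.C.tw hs
  refine ⟨s, hs, T.blkCert_complete hNP hDr (by omega) fun b hb e hb2 => ?_⟩
  rw [← e, blk_mem_iff T.tv hb] at hns
  obtain ⟨v, hv1⟩ := not_forall.1 hns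
  obtain ⟨hv1, hv2⟩ := Classical.not_imp.1 hv1
  have := wsum_le_btW T.C.tw hv1
  exact ⟨v, hv1, hNS v (by omega) hv2⟩

end Toks

end Vale.P193.EmbData
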