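import Vale.Agent.P193.Layer.H0Words
import Vale.Agent.P193.RE

/-!
P193 M5: the rope certificates are recursively enumerable, uniformly in a parameter.
-/

namespace Vale.P193

open Primrec

theorem primrec_winv {α : Type} [Primcodable α] [DecidableEq α] : Primrec (winv : Wd α → Wd α) :=
  RE.primrec_invRev

theorem primrec_weq {α : Type} [Primcodable α] [DecidableEq α] : Primrec₂ (weq : Wd α → Wd α → Wd α) :=
  Primrec.list_append.comp₂ Primrec₂.left (primrec_winv.comp₂ Primrec₂.right)

/-- Mapping the letters of a word along a primitive recursive map. -/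
theorem primrec_mapLetters {α β : Type} [Primcodable α] [Primcodable β] {g : α → β} (hg : Primrec g) :
    Primrec fun w : Wd α => w.map fun l => (g l.1, l.2) :=
  Primrec.list_map Primrec.id
    (((hg.comp (Primrec.fst.comp Primrec.snd)).pair (Primrec.snd.comp Primrec.snd)).to₂)

/-- Consecutive pairs of a list. -/
theorem primrec_zipTail {α : Type} [Primcodable α] : Primrec fun l : List α => l.zip l.tail := by
  have key : ∀ l : List α, l.foldr (fun a (acc : Option α × List (α × α)) =>
      (some a, Option.elim acc.1 acc.2 fun b => (a, b) :: acc.2)) (none, []) = (l.head?, l.zip l.tail) := by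
    intro l
    induction l with
    | nil => rfl
    | cons a l ih =>
      rw [List.foldr_cons, ih]
      cases l <;> rfl
  have h : Primrec fun l : List α => (l.foldr (fun a (acc : Option α × List (α × α)) =>
      (some a, Option.elim acc.1 acc.2 fun b => (a, b) :: acc.2)) (none, [])).2 := by
    refine Primrec.snd.comp (Primrec.list_foldr (h := fun (_ : List α) (q : α × (Option α × List (α × α))) =>
      (some q.1, Option.elim q.2.1 q.2.2 fun b => (q.1, b) :: q.2.2))
      Primrec.id (Primrec.const (none, [])) ?_)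
    refine (Primrec.option_some.comp (Primrec.fst.comp Primrec.snd)).pair ?_
    refine (Primrec.option_casesOn (o := fun z : List α × (α × (Option α × List (α × α))) => z.2.2.1)
      (f := fun z => z.2.2.2) (g := fun z b => (z.2.1, b) :: z.2.2.2)
      (Primrec.fst.comp (Primrec.snd.comp Primrec.snd)) (Primrec.snd.comp (Primrec.snd.comp Primrec.snd))
      ?_).of_eq fun z => ?_
    · exact Primrec.list_cons.comp
        ((Primrec.fst.comp (Primrec.snd.comp Primrec.fst)).pair Primrec.snd)
        (Primrec.snd.comp (Primrec.snd.comp (Primrec.snd.comp Primrec.fst)))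
    · cases z.2.2.1 <;> rfl
  exact h.of_eq fun l => by rw [key]

namespace GraphHNN

variable {αM αB : Type} [Primcodable αM] [Primcodable αB] [DecidableEq αM] [DecidableEq αB]

omit [DecidableEq αM] [DecidableEq αB] in
theorem primrec_segWord : Primrec (segWord : Seg αM αB → Wd (GLet αM αB)) :=
  Primrec.list_append.comp ((primrec_mapLetters Primrec.sumInl).comp Primrec.fst)
    ((primrec_mapLetters (Primrec.sumInr.comp Primrec.sumInl)).comp Primrec.snd)

theorem primrec_formWord : Primrec (formWord : Form αM αB → Wd (GLet αM αB)) :=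
  Primrec.list_append.comp (primrec_segWord.comp Primrec.fst)
    (Primrec.list_flatMap Primrec.snd
      (Primrec.list_cons.comp ((Primrec.const (Sum.inr (Sum.inr ()))).pair (Primrec.fst.comp Primrec.snd))
        (primrec_segWord.comp (Primrec.snd.comp Primrec.snd))).to₂)

variable {P : Type} [Primcodable P]
variable {NU : P → Wd αM → Prop} {NB : P → Wd αB → Prop} {Dr : P → Wd (GLet αM αB) → Prop}

/-- The side condition of a pinch certificate on the negative side. -/
def negSide (q : (P × Bool × Seg αM αB) × Wd αB) : Wd (GLet αM αB) :=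
  weq ([(Sum.inr (Sum.inr ()), true)] ++ segWord (q.1.2.2.1, []) ++
    [(Sum.inr (Sum.inr ()), false)]) (segWord (q.1.2.2.1, q.2))

theorem re_pinchNeg (hNU : REPred fun x : P × Wd αM => NU x.1 x.2)
    (hNB : REPred fun x : P × Wd αB => NB x.1 x.2)
    (hDr : REPred fun x : P × Wd (GLet αM αB) => Dr x.1 x.2) :
    REPred fun x : P × Bool × Seg αM αB => PinchNeg (NU x.1) (NB x.1) (Dr x.1) x.2.1 x.2.2 := by
  have hneg : Primrec (negSide : (P × Bool × Seg αM αB) × Wd αB → _) := by
    have hm : Primrec fun q : (P × Bool × Seg αM αB) × Wd αB => q.1.2.2.1 :=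
      Primrec.fst.comp (Primrec.snd.comp (Primrec.snd.comp Primrec.fst))
    refine primrec_weq.comp (Primrec.list_append.comp (Primrec.list_append.comp
      (Primrec.const _) (primrec_segWord.comp (hm.pair (Primrec.const [])))) (Primrec.const _))
      (primrec_segWord.comp (hm.pair Primrec.snd))
  have h1 : REPred fun x : P × Bool × Seg αM αB => NU x.1 x.2.2.1 :=
    RE.comp (g := fun x : P × Bool × Seg αM αB => (x.1, x.2.2.1)) hNU
      (Primrec.fst.pair (Primrec.fst.comp (Primrec.snd.comp Primrec.snd))).to_comp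
  have h2 : REPred fun x : P × Bool × Seg αM αB => x.2.1 = true ∧ NB x.1 x.2.2.2 :=
    RE.and (RE.eq (Computable.fst.comp Computable.snd) (Computable.const true))
      (RE.comp (g := fun x : P × Bool × Seg αM αB => (x.1, x.2.2.2)) hNB
        (Primrec.fst.pair (Primrec.snd.comp (Primrec.snd.comp Primrec.snd))).to_comp)
  have h3 : REPred fun x : P × Bool × Seg αM αB =>
      x.2.1 = false ∧ ∃ b : Wd αB, Dr x.1 (negSide (x, b)) ∧ NB x.1 (x.2.2.2 ++ winv b) :=
    RE.and (RE.eq (Computable.fst.comp Computable.snd) (Computable.const false))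
      (RE.exists_ (p := fun (x : P × Bool × Seg αM αB) (b : Wd αB) =>
          Dr x.1 (negSide (x, b)) ∧ NB x.1 (x.2.2.2 ++ winv b))
        (RE.and
          (RE.comp (g := fun q : (P × Bool × Seg αM αB) × Wd αB => (q.1.1, negSide q)) hDr
            ((Primrec.fst.comp Primrec.fst).pair hneg).to_comp)
          (RE.comp (g := fun q : (P × Bool × Seg αM αB) × Wd αB => (q.1.1, q.1.2.2.2 ++ winv q.2)) hNB
            ((Primrec.fst.comp Primrec.fst).pair (Primrec.list_append.comp
              (Primrec.snd.comp (Primrec.snd.comp (Primrec.snd.comp Primrec.fst)))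
              (primrec_winv.comp Primrec.snd))).to_comp)))
  refine (RE.or h1 (RE.or h2 h3)).of_eq fun x => ?_
  obtain ⟨p, ε, s⟩ := x
  cases ε <;> simp [PinchNeg, negSide]

theorem re_cert (hNU : REPred fun x : P × Wd αM => NU x.1 x.2)
    (hNB : REPred fun x : P × Wd αB => NB x.1 x.2)
    (hDr : REPred fun x : P × Wd (GLet αM αB) => Dr x.1 x.2)
    {Pz : P → Seg αM αB → Prop} (hPz : REPred fun x : P × Seg αM αB => Pz x.1 x.2) :
    REPred fun x : P × Wd (GLet αM αB) => Cert (NU x.1) (NB x.1) (Dr x.1) (Pz x.1) x.2 := by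
  refine RE.exists_ (p := fun (x : P × Wd (GLet αM αB)) (f : Form αM αB) =>
    Dr x.1 (weq x.2 (formWord f)) ∧
    (∀ q ∈ f.2.zip f.2.tail, q.1.1 = q.2.1 ∨ PinchNeg (NU x.1) (NB x.1) (Dr x.1) q.1.1 q.1.2) ∧
    (f.2 ≠ [] ∨ Pz x.1 f.1)) (RE.and ?_ (RE.and ?_ ?_))
  · exact RE.comp (g := fun q : (P × Wd (GLet αM αB)) × Form αM αB => (q.1.1, weq q.1.2 (formWord q.2))) hDr
      ((Primrec.fst.comp Primrec.fst).pair (primrec_weq.comp (Primrec.snd.comp Primrec.fst)
        (primrec_formWord.comp Primrec.snd))).to_comp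
  · refine RE.forall_mem (p := fun (z : (P × Wd (GLet αM αB)) × Form αM αB)
      (q : (Bool × Seg αM αB) × (Bool × Seg αM αB)) =>
        q.1.1 = q.2.1 ∨ PinchNeg (NU z.1.1) (NB z.1.1) (Dr z.1.1) q.1.1 q.1.2)
      (l := fun z => z.2.2.zip z.2.2.tail) (RE.or ?_ ?_)
      (primrec_zipTail.comp (Primrec.snd.comp Primrec.snd)).to_comp
    · exact RE.eq (Primrec.fst.comp (Primrec.fst.comp Primrec.snd)).to_comp
        (Primrec.fst.comp (Primrec.snd.comp Primrec.snd)).to_comp
    · exact RE.comp (g := fun y : ((P × Wd (GLet αM αB)) × Form αM αB) ×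
          ((Bool × Seg αM αB) × (Bool × Seg αM αB)) => (y.1.1.1, y.2.1.1, y.2.1.2)) (re_pinchNeg hNU hNB hDr)
        ((Primrec.fst.comp (Primrec.fst.comp Primrec.fst)).pair
          ((Primrec.fst.comp (Primrec.fst.comp Primrec.snd)).pair
            (Primrec.snd.comp (Primrec.fst.comp Primrec.snd)))).to_comp
  · refine RE.or (RE.of_primrec ?_)
      (RE.comp (g := fun q : (P × Wd (GLet αM αB)) × Form αM αB => (q.1.1, q.2.1)) hPz
        ((Primrec.fst.comp Primrec.fst).pair (Primrec.fst.comp Primrec.snd)).to_comp)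
    exact (Primrec.eq.comp (Primrec.snd.comp Primrec.snd) (Primrec.const [])).not

variable {NM : P → Wd αM → Prop} {NB' : P → Wd αB → Prop}

theorem re_negG (hNU : REPred fun x : P × Wd αM => NU x.1 x.2)
    (hNM : REPred fun x : P × Wd αM => NM x.1 x.2) (hNB : REPred fun x : P × Wd αB => NB x.1 x.2)
    (hDr : REPred fun x : P × Wd (GLet αM αB) => Dr x.1 x.2) :
    REPred fun x : P × Wd (GLet αM αB) => NegG (NU x.1) (NM x.1) (NB x.1) (Dr x.1) x.2 :=
  re_cert hNU hNB hDr (Pz := fun p s => NM p s.1 ∨ NB p s.2)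
    (RE.or (RE.comp (g := fun x : P × Seg αM αB => (x.1, x.2.1)) hNM
        (Computable.fst.pair (Computable.fst.comp Computable.snd)))
      (RE.comp (g := fun x : P × Seg αM αB => (x.1, x.2.2)) hNB
        (Computable.fst.pair (Computable.snd.comp Computable.snd))))

theorem re_notG (hNU : REPred fun x : P × Wd αM => NU x.1 x.2)
    (hNM : REPred fun x : P × Wd αM => NM x.1 x.2) (hNB : REPred fun x : P × Wd αB => NB x.1 x.2)
    (hNB' : REPred fun x : P × Wd αB => NB' x.1 x.2)
    (hDr : REPred fun x : P × Wd (GLet αM αB) => Dr x.1 x.2) :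
    REPred fun x : P × Wd (GLet αM αB) => NotG (NU x.1) (NM x.1) (NB x.1) (NB' x.1) (Dr x.1) x.2 :=
  re_cert hNU hNB hDr (Pz := fun p s => NM p s.1 ∨ NB' p s.2)
    (RE.or (RE.comp (g := fun x : P × Seg αM αB => (x.1, x.2.1)) hNM
        (Computable.fst.pair (Computable.fst.comp Computable.snd)))
      (RE.comp (g := fun x : P × Seg αM αB => (x.1, x.2.2)) hNB'
        (Computable.fst.pair (Computable.snd.comp Computable.snd))))

end GraphHNN

open GraphHNN

variable {P : Type} [Primcodable P] {n : ℕ} {O : P → Wd (Fin n) → Prop} {N : P → ℕ}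

theorem re_atom (hO : REPred fun x : P × Wd (Fin n) => O x.1 x.2) (hN : Computable N) :
    REPred fun x : P × Wd (Fin n) => Atom (O x.1) (N x.1) x.2 := by
  refine RE.and ?_ hO
  exact RE.comp (g := fun x : P × Wd (Fin n) => (x.2.length, N x.1))
    (RE.of_primrec Primrec.nat_le) ((Computable.list_length.comp Computable.snd).pair (hN.comp Computable.fst))

theorem re_freeNe {α : Type} [Primcodable α] [DecidableEq α] :
    REPred fun x : P × Wd α => FreeNe x.2 := by
  refine (RE.of_primrec ((RE.primrec_mk_eq (α := α)).comp Primrec.snd (Primrec.const [])).not).of_eq fun x => ?_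
  rw [← FreeGroup.one_eq_mk]; rfl

theorem re_negBt {Dr : P → Wd (BL n) → Prop} (hO : REPred fun x : P × Wd (Fin n) => O x.1 x.2)
    (hN : Computable N) (hDr : REPred fun x : P × Wd (BL n) => Dr x.1 x.2) :
    REPred fun x : P × Wd (BL n) => NegBt (O x.1) (N x.1) (Dr x.1) x.2 :=
  re_negG (NU := fun (_ : P) (_ : Wd (Fin n)) => False) (NM := fun _ => FreeNe)
    (NB := fun p => Atom (O p) (N p)) (RE.const False) re_freeNe
    (re_atom hO hN) hDr

theorem re_notBt {Dr : P → Wd (BL n) → Prop} (hO : REPred fun x : P × Wd (Fin n) => O x.1 x.2)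
    (hN : Computable N) (hDr : REPred fun x : P × Wd (BL n) => Dr x.1 x.2) :
    REPred fun x : P × Wd (BL n) => NotBt (O x.1) (N x.1) (Dr x.1) x.2 :=
  re_notG (NU := fun (_ : P) (_ : Wd (Fin n)) => False) (NM := fun _ => FreeNe)
    (NB := fun p => Atom (O p) (N p)) (NB' := fun (_ : P) (_ : Wd (Fin n)) => False) (RE.const False) re_freeNe
    (re_atom hO hN) (RE.const False) hDr

section H0

variable {αK : Type} [Primcodable αK] [DecidableEq αK]
variable {NUk NK : P → Wd αK → Prop} {Dr : P → Wd (H0L αK n) → Prop}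

omit [DecidableEq αK] in
theorem re_drBt (hDr : REPred fun x : P × Wd (H0L αK n) => Dr x.1 x.2) :
    REPred fun x : P × Wd (BL n) => DrBt (Dr x.1) x.2 :=
  RE.comp (g := fun x : P × Wd (BL n) => (x.1, btUp (αK := αK) x.2)) hDr
    (Primrec.fst.pair ((primrec_mapLetters (Primrec.sumInr.comp Primrec.sumInl)).comp Primrec.snd)).to_comp

theorem re_negH0 (hNUk : REPred fun x : P × Wd αK => NUk x.1 x.2)
    (hNK : REPred fun x : P × Wd αK => NK x.1 x.2) (hO : REPred fun x : P × Wd (Fin n) => O x.1 x.2)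
    (hN : Computable N) (hDr : REPred fun x : P × Wd (H0L αK n) => Dr x.1 x.2) :
    REPred fun x : P × Wd (H0L αK n) => NegH0 (NUk x.1) (NK x.1) (O x.1) (N x.1) (Dr x.1) x.2 :=
  re_negG (NB := fun p => NegBt (O p) (N p) (DrBt (Dr p))) hNUk hNK
    (re_negBt (Dr := fun p => DrBt (Dr p)) hO hN (re_drBt hDr)) hDr

theorem re_notBH0 (hNUk : REPred fun x : P × Wd αK => NUk x.1 x.2)
    (hNK : REPred fun x : P × Wd αK => NK x.1 x.2) (hO : REPred fun x : P × Wd (Fin n) => O x.1 x.2)
    (hN : Computable N) (hDr : REPred fun x : P × Wd (H0L αK n) => Dr x.1 x.2) :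
    REPred fun x : P × Wd (H0L αK n) => NotBH0 (NUk x.1) (NK x.1) (O x.1) (N x.1) (Dr x.1) x.2 :=
  re_notG (NB := fun p => NegBt (O p) (N p) (DrBt (Dr p))) (NB' := fun p => NotBt (O p) (N p) (DrBt (Dr p)))
    hNUk hNK (re_negBt (Dr := fun p => DrBt (Dr p)) hO hN (re_drBt hDr))
    (re_notBt (Dr := fun p => DrBt (Dr p)) hO hN (re_drBt hDr)) hDr

end H0

end Vale.P193
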