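import Vale.Agent.P193.Gen.EmbRedDefs
import Vale.Agent.P193.Gen.GraphCertRE

/-!
P193 M5: the certificates of an embedding extension are recursively enumerable, uniformly in a parameter.
-/

namespace Vale.P193.EmbData

open Primrec

variable {τ : Type} [Primcodable τ] [DecidableEq τ]
variable {P : Type} [Primcodable P]

/-- The codes depend primitive recursively on the parameter. -/
structure CodesPrim (C : P → Codes τ) : Prop where
  tw : Primrec₂ fun p k => (C p).tw k
  wt : Primrec₂ fun p c => (C p).wt c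
  rep : Primrec₂ fun p c => (C p).rep c

theorem primrec_repl {α : Type} [Primcodable α] : Primrec₂ (List.replicate : ℕ → α → List α) := by
  have h : Primrec fun x : ℕ × α => (List.range x.1).map fun _ => x.2 :=
    Primrec.list_map (Primrec.list_range.comp Primrec.fst) (Primrec.snd.comp Primrec.fst).to₂
  exact (h.of_eq (g := fun x : ℕ × α => List.replicate x.1 x.2) fun x => by simp [List.map_const']).to₂

theorem primrec_sumList {α : Type} [Primcodable α] {l : α → List ℕ} (hl : Primrec l) :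
    Primrec fun a => (l a).sum := by
  refine (Primrec.list_foldr (h := fun (_ : α) (q : ℕ × ℕ) => q.1 + q.2) hl (Primrec.const 0)
    (Primrec.nat_add.comp (Primrec.fst.comp Primrec.snd) (Primrec.snd.comp Primrec.snd)).to₂).of_eq fun a => ?_
  rfl

theorem primrec_wsum {α β : Type} [Primcodable α] [Primcodable β] {f : β → α → ℕ} (hf : Primrec₂ f) :
    Primrec₂ fun b (w : Wd α) => wsum (f b) w :=
  (primrec_sumList (Primrec.list_map Primrec.snd
    (hf.comp (Primrec.fst.comp Primrec.fst) (Primrec.fst.comp Primrec.snd)).to₂)).to₂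

omit [DecidableEq τ] in
theorem primrec_up : Primrec (up : SW τ → Wd (EL τ)) :=
  primrec_mapLetters (Primrec.sumCasesOn Primrec.id (Primrec.sumInl.comp Primrec.snd).to₂
    (Primrec.sumInr.comp ((Primrec.dom_finite (Fin.castSucc (n := 4))).comp Primrec.snd)).to₂ |>.of_eq
      fun x => by cases x <;> rfl)

omit [DecidableEq τ] in
theorem primrec_inT : Primrec (inT : Wd τ → SW τ) := primrec_mapLetters Primrec.sumInl

omit [DecidableEq τ] in
theorem primrec_in4 : Primrec (in4 : Wd (Fin 4) → SW τ) := primrec_mapLetters Primrec.sumInr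

omit [DecidableEq τ] in
theorem primrec_x4 : Primrec (x4 : SW τ → Wd (Fin 4)) :=
  (Primrec.listFilterMap Primrec.id ((Primrec.sumCasesOn (f := fun l : (τ ⊕ Fin 4) × Bool => l.1)
      (g := fun _ _ => (none : Option (Fin 4 × Bool))) (h := fun l j => some (j, l.2)) Primrec.fst
      (Primrec.const none).to₂
      (Primrec.option_some.comp (Primrec.snd.pair (Primrec.snd.comp Primrec.fst))).to₂).comp Primrec.snd).to₂).of_eq
    fun u => by
      refine List.filterMap_congr fun l _ => ?_
      obtain ⟨a | j, b⟩ := l <;> rfl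

omit [DecidableEq τ] in
theorem primrec_formWord : Primrec (formWord : EForm τ → Wd (EL τ)) :=
  Primrec.list_append.comp (primrec_up.comp Primrec.fst)
    (Primrec.list_flatMap Primrec.snd
      (Primrec.list_cons.comp ((Primrec.const (Sum.inr 4)).pair (Primrec.fst.comp Primrec.snd))
        (primrec_up.comp (Primrec.snd.comp Primrec.snd))).to₂)

omit [DecidableEq τ] in
theorem primrec_segs : Primrec (segs : EForm τ → List (SW τ)) :=
  Primrec.list_cons.comp Primrec.fst (Primrec.list_map Primrec.snd (Primrec.snd.comp Primrec.snd).to₂)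

omit [DecidableEq τ] in
theorem primrec_blkWord : Primrec (blkWord : Blk τ → SW τ) :=
  Primrec.list_append.comp (primrec_inT.comp Primrec.fst)
    (Primrec.list_flatMap Primrec.snd
      (Primrec.list_append.comp (primrec_in4.comp (Primrec.fst.comp Primrec.snd))
        (primrec_inT.comp (Primrec.snd.comp Primrec.snd))).to₂)

omit [DecidableEq τ] in
theorem primrec_toks : Primrec (toks : Blk τ → List (Wd τ)) :=
  Primrec.list_cons.comp Primrec.fst (Primrec.list_map Primrec.snd (Primrec.snd.comp Primrec.snd).to₂)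

theorem primrec_dropLast {α : Type} [Primcodable α] : Primrec (List.dropLast : List α → List α) :=
  (Primrec.list_reverse.comp (Primrec.list_tail.comp Primrec.list_reverse)).of_eq fun l => by simp

section Gens

variable {C : P → Codes τ} (hC : CodesPrim C)
include hC

omit [DecidableEq τ] [Primcodable P] hC in
theorem primrec_conjW (x : Fin 4) {α : Type} [Primcodable α] {n : α → ℕ} {body : α → SW τ}
    (hn : Primrec n) (hb : Primrec body) : Primrec fun a => conjW x (n a) (body a) :=
  Primrec.list_append.comp (Primrec.list_append.comp (primrec_repl.comp hn (Primrec.const _)) hb)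
    (primrec_repl.comp hn (Primrec.const _))

omit [DecidableEq τ] in
theorem primrec_wtD : Primrec fun x : P × ℕ => ((C x.1).wt x.2).getD 0 :=
  Primrec.option_getD.comp (hC.wt.comp Primrec.fst Primrec.snd) (Primrec.const 0)

omit [DecidableEq τ] in
theorem primrec_aWord1 : Primrec₂ fun p c => aWord1 (C p) c :=
  (primrec_conjW 0 Primrec.snd
    (primrec_repl.comp (Primrec.nat_add.comp (primrec_wtD hC) (Primrec.const 2)) (Primrec.const _))).to₂

omit [DecidableEq τ] in
theorem primrec_bWord1 : Primrec₂ fun p c => bWord1 (C p) c :=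
  (primrec_conjW 1 Primrec.snd
    (Primrec.list_append.comp (Primrec.list_cons.comp (Primrec.const _)
      (primrec_inT.comp (hC.rep.comp Primrec.fst Primrec.snd))) (Primrec.const _))).to₂

omit [DecidableEq τ] in
theorem primrec_codeW : Primrec₂ fun p Ξ => codeW (C p) Ξ :=
  primrec_wsum (f := fun p c => ((C p).wt c).getD 0) (primrec_wtD hC).to₂

omit [DecidableEq τ] in
theorem primrec_tokWsum : Primrec₂ fun p (u : SW τ) => wsum (tokW (C p).tw) u := by
  refine primrec_wsum (f := fun p k => tokW (C p).tw k) ?_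
  suffices h : Primrec fun x : P × (τ ⊕ Fin 4) => tokW (C x.1).tw x.2 from h.to₂
  refine ((Primrec.sumCasesOn (f := fun x : P × (τ ⊕ Fin 4) => x.2) (g := fun x k => (C x.1).tw k)
    (h := fun _ _ => 0) Primrec.snd (hC.tw.comp (Primrec.fst.comp Primrec.fst) Primrec.snd).to₂
    (Primrec.const 0).to₂).of_eq fun x => ?_)
  obtain ⟨p, k | j⟩ := x <;> rfl

end Gens

theorem primrec_genWord {g : P → ℕ → SW τ} (hg : Primrec₂ g) :
    Primrec₂ fun p Ξ => genWord (g p) Ξ := by
  suffices h : Primrec fun x : P × Wd ℕ => genWord (g x.1) x.2 from h.to₂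
  refine ((Primrec.list_flatMap (f := fun x : P × Wd ℕ => x.2)
    (g := fun x l => bif l.2 then g x.1 l.1 else winv (g x.1 l.1)) Primrec.snd ?_).of_eq fun x => ?_)
  · have h1 : Primrec fun y : (P × Wd ℕ) × (ℕ × Bool) => g y.1.1 y.2.1 :=
      hg.comp (Primrec.fst.comp Primrec.fst) (Primrec.fst.comp Primrec.snd)
    exact (Primrec.cond (Primrec.snd.comp Primrec.snd) h1 (primrec_winv.comp h1)).to₂
  · refine List.flatMap_congr fun l _ => ?_
    cases l.2 <;> rfl

theorem primrec_cands : Primrec₂ cands := by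
  let step : ℕ → List (Wd ℕ) → List (Wd ℕ) := fun n IH =>
    [] :: IH.flatMap fun W => (List.range (n + 1)).flatMap fun c => [(c, true) :: W, (c, false) :: W]
  have hs : Primrec₂ fun (x : ℕ × ℕ) (q : ℕ × List (Wd ℕ)) => step x.1 q.2 := by
    suffices h : Primrec fun y : (ℕ × ℕ) × (ℕ × List (Wd ℕ)) => step y.1.1 y.2.2 from h.to₂
    refine Primrec.list_cons.comp (Primrec.const []) (Primrec.list_flatMap (Primrec.snd.comp Primrec.snd) ?_)
    suffices h : Primrec fun z : ((ℕ × ℕ) × (ℕ × List (Wd ℕ))) × Wd ℕ =>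
        (List.range (z.1.1.1 + 1)).flatMap fun c => [(c, true) :: z.2, (c, false) :: z.2] from h.to₂
    refine (Primrec.list_flatMap
      (Primrec.list_range.comp (Primrec.succ.comp (Primrec.fst.comp (Primrec.fst.comp Primrec.fst)))) ?_)
    have hc : ∀ b : Bool, Primrec fun z : (((ℕ × ℕ) × (ℕ × List (Wd ℕ))) × Wd ℕ) × ℕ => (z.2, b) :: z.1.2 :=
      fun b => Primrec.list_cons.comp (Primrec.snd.pair (Primrec.const b)) (Primrec.snd.comp Primrec.fst)
    exact (Primrec.list_cons.comp (hc true) (Primrec.list_cons.comp (hc false) (Primrec.const []))).to₂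
  suffices h : Primrec fun x : ℕ × ℕ => cands x.1 x.2 from h.to₂
  refine ((Primrec.nat_rec' (f := fun x : ℕ × ℕ => x.2) (g := fun _ => ([[]] : List (Wd ℕ)))
    (h := fun x q => step x.1 q.2) Primrec.snd (Primrec.const _) hs).of_eq fun x => ?_)
  obtain ⟨n, k⟩ := x
  induction k with
  | zero => rfl
  | succ k ih => exact congrArg (step n) ih

section Preds

variable {C : P → Codes τ} (hC : CodesPrim C)
include hC

theorem primrec_shape {g : P → ℕ → SW τ} (hg : Primrec₂ g) :
    PrimrecPred fun x : P × SW τ × Wd ℕ => Shape (C x.1) (g x.1) x.2.1 x.2.2 := by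
  have h1 : PrimrecPred fun x : P × SW τ × Wd ℕ => FreeGroup.IsReduced x.2.2 :=
    PrimrecPred.of_eq (Primrec.eq.comp (RE.primrec_reduce.comp (Primrec.snd.comp Primrec.snd))
      (Primrec.snd.comp Primrec.snd)) fun x => (FreeGroup.isReduced_iff_reduce_eq).symm
  have hall : Primrec fun x : P × SW τ × Wd ℕ =>
      x.2.2.foldr (fun l s => ((C x.1).wt l.1).isSome && s) true := by
    refine Primrec.list_foldr (h := fun (x : P × SW τ × Wd ℕ) (q : (ℕ × Bool) × Bool) =>
      ((C x.1).wt q.1.1).isSome && q.2) (Primrec.snd.comp Primrec.snd) (Primrec.const true) ?_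
    exact (Primrec.and.comp (Primrec.option_isSome.comp (hC.wt.comp (Primrec.fst.comp Primrec.fst)
      (Primrec.fst.comp (Primrec.fst.comp Primrec.snd)))) (Primrec.snd.comp Primrec.snd)).to₂
  have h2 : PrimrecPred fun x : P × SW τ × Wd ℕ => ∀ l ∈ x.2.2, ((C x.1).wt l.1).isSome := by
    refine PrimrecPred.of_eq (Primrec.eq.comp hall (Primrec.const true)) fun x => ?_
    obtain ⟨p, u, Ξ⟩ := x
    induction Ξ with
    | nil => simp
    | cons l Ξ ih => simp only [List.foldr_cons, List.forall_mem_cons] at ih ⊢; rw [← ih]; simp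
  have h3 : PrimrecPred fun x : P × SW τ × Wd ℕ =>
      FreeGroup.mk (x4 (genWord (g x.1) x.2.2)) = FreeGroup.mk (x4 x.2.1) :=
    RE.primrec_mk_eq.comp (primrec_x4.comp ((primrec_genWord hg).comp Primrec.fst (Primrec.snd.comp Primrec.snd)))
      (primrec_x4.comp (Primrec.fst.comp Primrec.snd))
  exact h1.and (h2.and h3)

theorem re_noShape {g : P → ℕ → SW τ} (hg : Primrec₂ g) :
    REPred fun x : P × SW τ => NoShape (C x.1) (g x.1) x.2 := by
  refine RE.forall_mem (p := fun (x : P × SW τ) (Ξ : Wd ℕ) => ¬ Shape (C x.1) (g x.1) x.2 Ξ)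
    (RE.comp (g := fun y : (P × SW τ) × Wd ℕ => (y.1.1, y.1.2, y.2))
      (RE.of_primrec (primrec_shape hC hg).not)
      ((Primrec.fst.comp Primrec.fst).pair ((Primrec.snd.comp Primrec.fst).pair Primrec.snd)).to_comp)
    (l := fun x => cands x.2.length x.2.length) ?_
  exact (primrec_cands.comp (Primrec.list_length.comp Primrec.snd) (Primrec.list_length.comp Primrec.snd)).to_comp

end Preds

section Certs

variable {C : P → Codes τ} {NP : P → Wd τ → Prop} {Dr : P → Wd (EL τ) → Prop}

theorem re_blkCert (hNP : REPred fun x : P × Wd τ => NP x.1 x.2)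
    (hDr : REPred fun x : P × Wd (EL τ) => Dr x.1 x.2) {Pz : P → Blk τ → Prop}
    (hPz : REPred fun x : P × Blk τ => Pz x.1 x.2) :
    REPred fun x : P × SW τ => BlkCert (NP x.1) (Dr x.1) (Pz x.1) x.2 := by
  refine RE.exists_ (p := fun (x : P × SW τ) (b : Blk τ) =>
    Dr x.1 (weq (up x.2) (up (blkWord b))) ∧ (∀ y ∈ b.2, FreeGroup.mk y.1 ≠ 1) ∧
    (∀ y ∈ b.2.dropLast, NP x.1 y.2) ∧ Pz x.1 b) (RE.and ?_ (RE.and ?_ (RE.and ?_ ?_)))
  · exact RE.comp (g := fun z : (P × SW τ) × Blk τ => (z.1.1, weq (up z.1.2) (up (blkWord z.2)))) hDr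
      ((Primrec.fst.comp Primrec.fst).pair (primrec_weq.comp (primrec_up.comp (Primrec.snd.comp Primrec.fst))
        (primrec_up.comp (primrec_blkWord.comp Primrec.snd)))).to_comp
  · exact RE.forall_mem (p := fun (_ : (P × SW τ) × Blk τ) (y : Wd (Fin 4) × Wd τ) => FreeGroup.mk y.1 ≠ 1)
      (l := fun z => z.2.2)
      (RE.comp (g := fun q : ((P × SW τ) × Blk τ) × (Wd (Fin 4) × Wd τ) => ((), q.2.1))
        (re_freeNe (P := Unit) (α := Fin 4))
        ((Primrec.const ()).pair (Primrec.fst.comp Primrec.snd)).to_comp)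
      (Primrec.snd.comp Primrec.snd).to_comp
  · exact RE.forall_mem (p := fun (z : (P × SW τ) × Blk τ) (y : Wd (Fin 4) × Wd τ) => NP z.1.1 y.2)
      (l := fun z => z.2.2.dropLast)
      (RE.comp (g := fun q : ((P × SW τ) × Blk τ) × (Wd (Fin 4) × Wd τ) => (q.1.1.1, q.2.2)) hNP
        ((Primrec.fst.comp (Primrec.fst.comp Primrec.fst)).pair (Primrec.snd.comp Primrec.snd)).to_comp)
      (primrec_dropLast.comp (Primrec.snd.comp Primrec.snd)).to_comp
  · exact RE.comp (g := fun z : (P × SW τ) × Blk τ => (z.1.1, z.2)) hPz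
      ((Primrec.fst.comp Primrec.fst).pair Primrec.snd).to_comp

theorem re_blockNe (hNP : REPred fun x : P × Wd τ => NP x.1 x.2)
    (hDr : REPred fun x : P × Wd (EL τ) => Dr x.1 x.2) :
    REPred fun x : P × SW τ => BlockNe (NP x.1) (Dr x.1) x.2 :=
  re_blkCert hNP hDr (Pz := fun p b => b.2 ≠ [] ∨ NP p b.1)
    (RE.or (RE.of_primrec (Primrec.eq.comp (Primrec.snd.comp Primrec.snd) (Primrec.const [])).not)
      (RE.comp (g := fun x : P × Blk τ => (x.1, x.2.1)) hNP
        (Primrec.fst.pair (Primrec.fst.comp Primrec.snd)).to_comp))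

theorem re_notSide (hC : CodesPrim C) (hNP : REPred fun x : P × Wd τ => NP x.1 x.2)
    (hDr : REPred fun x : P × Wd (EL τ) => Dr x.1 x.2) :
    REPred fun x : P × Bool × SW τ => NotSide (C x.1) (NP x.1) (Dr x.1) x.2.1 x.2.2 := by
  have hA : REPred fun x : P × SW τ => NotA (C x.1) (NP x.1) (Dr x.1) x.2 :=
    RE.or (re_noShape hC (primrec_aWord1 hC))
      (RE.comp (g := fun x : P × SW τ => (x.1, x.2 ++ winv (in4 (x4 x.2)))) (re_blockNe hNP hDr)
        (Primrec.fst.pair (Primrec.list_append.comp Primrec.snd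
          (primrec_winv.comp (primrec_in4.comp (primrec_x4.comp Primrec.snd))))).to_comp)
  have hB : REPred fun x : P × SW τ => NotB (C x.1) (NP x.1) (Dr x.1) x.2 := by
    refine RE.or (re_noShape hC (primrec_bWord1 hC))
      (RE.exists_ (p := fun (x : P × SW τ) (Ξ : Wd ℕ) => Shape (C x.1) (bWord1 (C x.1)) x.2 Ξ ∧
        (wsum (tokW (C x.1).tw) x.2 < codeW (C x.1) Ξ ∨
          BlockNe (NP x.1) (Dr x.1) (x.2 ++ winv (genWord (bWord1 (C x.1)) Ξ))))
        (RE.and ?_ (RE.or ?_ ?_)))
    · exact RE.comp (g := fun z : (P × SW τ) × Wd ℕ => (z.1.1, z.1.2, z.2))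
        (RE.of_primrec (primrec_shape hC (primrec_bWord1 hC)))
        ((Primrec.fst.comp Primrec.fst).pair ((Primrec.snd.comp Primrec.fst).pair Primrec.snd)).to_comp
    · exact RE.of_primrec (Primrec.nat_lt.comp
        ((primrec_tokWsum hC).comp (Primrec.fst.comp Primrec.fst) (Primrec.snd.comp Primrec.fst))
        ((primrec_codeW hC).comp (Primrec.fst.comp Primrec.fst) Primrec.snd))
    · exact RE.comp (g := fun z : (P × SW τ) × Wd ℕ =>
          (z.1.1, z.1.2 ++ winv (genWord (bWord1 (C z.1.1)) z.2))) (re_blockNe hNP hDr)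
        ((Primrec.fst.comp Primrec.fst).pair (Primrec.list_append.comp (Primrec.snd.comp Primrec.fst)
          (primrec_winv.comp ((primrec_genWord (primrec_bWord1 hC)).comp (Primrec.fst.comp Primrec.fst)
            Primrec.snd)))).to_comp
  refine (RE.or
    (RE.and (RE.eq (Computable.fst.comp Computable.snd) (Computable.const true))
      (RE.comp (g := fun x : P × Bool × SW τ => (x.1, x.2.2)) hA
        (Primrec.fst.pair (Primrec.snd.comp Primrec.snd)).to_comp))
    (RE.and (RE.eq (Computable.fst.comp Computable.snd) (Computable.const false))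
      (RE.comp (g := fun x : P × Bool × SW τ => (x.1, x.2.2)) hB
        (Primrec.fst.pair (Primrec.snd.comp Primrec.snd)).to_comp))).of_eq fun x => ?_
  obtain ⟨p, b, u⟩ := x
  cases b <;> simp [NotSide]

theorem re_formCert (hC : CodesPrim C) (hNP : REPred fun x : P × Wd τ => NP x.1 x.2)
    (hDr : REPred fun x : P × Wd (EL τ) => Dr x.1 x.2) {Pz : P → EForm τ → Prop}
    (hPz : REPred fun x : P × EForm τ => Pz x.1 x.2) :
    REPred fun x : P × Wd (EL τ) => FormCert (C x.1) (NP x.1) (Dr x.1) (Pz x.1) x.2 := by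
  refine RE.exists_ (p := fun (x : P × Wd (EL τ)) (f : EForm τ) =>
    Dr x.1 (weq x.2 (formWord f)) ∧
    (∀ q ∈ f.2.zip f.2.tail, q.1.1 = q.2.1 ∨ NotSide (C x.1) (NP x.1) (Dr x.1) q.1.1 q.1.2) ∧ Pz x.1 f)
    (RE.and ?_ (RE.and ?_ ?_))
  · exact RE.comp (g := fun z : (P × Wd (EL τ)) × EForm τ => (z.1.1, weq z.1.2 (formWord z.2))) hDr
      ((Primrec.fst.comp Primrec.fst).pair (primrec_weq.comp (Primrec.snd.comp Primrec.fst)
        (primrec_formWord.comp Primrec.snd))).to_comp
  · refine RE.forall_mem (p := fun (z : (P × Wd (EL τ)) × EForm τ) (q : (Bool × SW τ) × (Bool × SW τ)) =>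
        q.1.1 = q.2.1 ∨ NotSide (C z.1.1) (NP z.1.1) (Dr z.1.1) q.1.1 q.1.2)
      (l := fun z => z.2.2.zip z.2.2.tail) (RE.or ?_ ?_)
      (primrec_zipTail.comp (Primrec.snd.comp Primrec.snd)).to_comp
    · exact RE.eq (Primrec.fst.comp (Primrec.fst.comp Primrec.snd)).to_comp
        (Primrec.fst.comp (Primrec.snd.comp Primrec.snd)).to_comp
    · exact RE.comp (g := fun y : ((P × Wd (EL τ)) × EForm τ) × ((Bool × SW τ) × (Bool × SW τ)) =>
          (y.1.1.1, y.2.1.1, y.2.1.2)) (re_notSide hC hNP hDr)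
        ((Primrec.fst.comp (Primrec.fst.comp Primrec.fst)).pair
          ((Primrec.fst.comp (Primrec.fst.comp Primrec.snd)).pair
            (Primrec.snd.comp (Primrec.fst.comp Primrec.snd)))).to_comp
  · exact RE.comp (g := fun z : (P × Wd (EL τ)) × EForm τ => (z.1.1, z.2)) hPz
      ((Primrec.fst.comp Primrec.fst).pair Primrec.snd).to_comp

omit [DecidableEq τ] in
theorem re_hasLetter : REPred fun x : P × EForm τ => x.2.2 ≠ [] := by
  classical
  exact RE.of_primrec (Primrec.eq.comp (Primrec.snd.comp Primrec.snd) (Primrec.const [])).not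

theorem re_negE (hC : CodesPrim C) (hNP : REPred fun x : P × Wd τ => NP x.1 x.2)
    (hDr : REPred fun x : P × Wd (EL τ) => Dr x.1 x.2) :
    REPred fun x : P × Wd (EL τ) => NegE (C x.1) (NP x.1) (Dr x.1) x.2 :=
  re_formCert hC hNP hDr (Pz := fun p f => f.2 ≠ [] ∨ BlockNe (NP p) (Dr p) f.1)
    (RE.or re_hasLetter (RE.comp (g := fun x : P × EForm τ => (x.1, x.2.1)) (re_blockNe hNP hDr)
      (Primrec.fst.pair (Primrec.fst.comp Primrec.snd)).to_comp))

variable {NS : P → Wd τ → Prop}

theorem re_notP (hC : CodesPrim C) (hNP : REPred fun x : P × Wd τ => NP x.1 x.2)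
    (hNS : REPred fun x : P × Wd τ => NS x.1 x.2) (hDr : REPred fun x : P × Wd (EL τ) => Dr x.1 x.2) :
    REPred fun x : P × Wd (EL τ) => NotP (C x.1) (NP x.1) (NS x.1) (Dr x.1) x.2 :=
  re_formCert hC hNP hDr
    (Pz := fun p f => f.2 ≠ [] ∨ BlkCert (NP p) (Dr p) (fun b => b.2 ≠ [] ∨ NS p b.1) f.1)
    (RE.or re_hasLetter (RE.comp (g := fun x : P × EForm τ => (x.1, x.2.1))
      (re_blkCert hNP hDr (Pz := fun p b => b.2 ≠ [] ∨ NS p b.1)
        (RE.or (RE.of_primrec (Primrec.eq.comp (Primrec.snd.comp Primrec.snd) (Primrec.const [])).not)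
          (RE.comp (g := fun x : P × Blk τ => (x.1, x.2.1)) hNS
            (Primrec.fst.pair (Primrec.fst.comp Primrec.snd)).to_comp)))
      (Primrec.fst.pair (Primrec.fst.comp Primrec.snd)).to_comp))

end Certs

end Vale.P193.EmbData
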