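import Vale.Agent.P193.Words
import Mathlib.GroupTheory.FreeGroup.Reduce
import Mathlib.GroupTheory.HNNExtension
import Mathlib.GroupTheory.SemidirectProduct
import Mathlib.Algebra.Group.TypeTags.Basic

/-!
P193: the weighted embedding HNN extension. Over `P ∗ F(a,c,e,f)` the letter `t` conjugates
`a^i e^(2+m) a^(-i)` to `c^i f v f c^(-i)`, one pair for each entry (code `i`, weight `m`, value `v`).
Both sides are free bases for any values.
-/

namespace Vale.P193

/-- Replace each generator by a power. -/
def powHom {β : Type} (m : β → ℕ) : FreeGroup β →* FreeGroup β :=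
  FreeGroup.lift fun i => FreeGroup.of i ^ (m i + 1)

theorem powHom_injective {β : Type} (m : β → ℕ) : Function.Injective (powHom m) := by
  classical
  refine (injective_iff_map_eq_one _).2 fun x hx => ?_
  set L := x.toWord.flatMap fun l => List.replicate (m l.1 + 1) l with hL
  have hred : FreeGroup.IsReduced L := by
    have key : ∀ W : List (β × Bool), FreeGroup.IsReduced W →
        FreeGroup.IsReduced (W.flatMap fun l => List.replicate (m l.1 + 1) l) := by
      intro W hW
      rw [List.flatMap_def, FreeGroup.IsReduced, List.isChain_flatten (by simp)]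
      refine ⟨?_, ?_⟩
      · intro l hl
        obtain ⟨a, -, rfl⟩ := List.mem_map.1 hl
        exact List.isChain_replicate_of_rel _ fun _ => rfl
      · rw [List.isChain_map]
        refine List.IsChain.imp ?_ hW
        intro a b hab p hp q hq
        simp only [List.getLast?_replicate, List.head?_replicate, Nat.succ_ne_zero, if_false,
          Option.mem_def, Option.some.injEq] at hp hq
        subst hp; subst hq
        exact hab
    exact key _ FreeGroup.isReduced_toWord
  have hmk : ∀ W : List (β × Bool),
      powHom m (FreeGroup.mk W) = FreeGroup.mk (W.flatMap fun l => List.replicate (m l.1 + 1) l) := by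
    intro W
    induction W with
    | nil => simp [← FreeGroup.one_eq_mk]
    | cons l W ih =>
      rw [← List.singleton_append, ← FreeGroup.mul_mk, map_mul, ih, List.flatMap_append, ← FreeGroup.mul_mk]
      congr 1
      obtain ⟨i, b⟩ := l
      have hp : ∀ n : ℕ, FreeGroup.mk (List.replicate n (i, b)) = (FreeGroup.mk [(i, b)]) ^ n := by
        intro n
        induction n with
        | zero => simp [← FreeGroup.one_eq_mk]
        | succ n ih2 => rw [List.replicate_succ, pow_succ', ← ih2, FreeGroup.mul_mk]; rfl
      simp only [List.flatMap_cons, List.flatMap_nil, List.append_nil, hp]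
      cases b
      · have : FreeGroup.mk [(i, false)] = (FreeGroup.of i)⁻¹ := rfl
        rw [this, map_inv, inv_pow]; simp [powHom]
      · have : FreeGroup.mk [(i, true)] = FreeGroup.of i := rfl
        rw [this]; simp [powHom]
  have h1 : FreeGroup.mk L = 1 := by rw [hL, ← hmk, FreeGroup.mk_toWord]; exact hx
  have h2 : L = [] := by
    have := congrArg FreeGroup.toWord h1
    rwa [FreeGroup.toWord_mk, hred.reduce_eq, FreeGroup.toWord_one] at this
  apply FreeGroup.toWord_injective
  rw [FreeGroup.toWord_one]
  cases hW : x.toWord with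
  | nil => rfl
  | cons l W =>
    rw [hL, hW, List.flatMap_cons, List.replicate_succ] at h2
    simp at h2

/-- Entries of an embedding: injective codes, values, weights. -/
structure EmbData (P : Type) where
  ι : Type
  code : ι → ℕ
  code_inj : Function.Injective code
  val : ι → P
  m : ι → ℕ

namespace EmbData

open Monoid

variable {P : Type} [Group P] (D : EmbData P)

/-- The four free letters `a, c, e, f`. -/
abbrev F4 := FreeGroup (Fin 4)

/-- The base `P ∗ F(a,c,e,f)`. -/
abbrev Base (P : Type) [Group P] := Coprod P F4

/-- `a^i e^(2+m) a^(-i)`. -/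
def aGen (i : D.ι) : Base P :=
  Coprod.inr (FreeGroup.of 0 ^ D.code i * FreeGroup.of 2 ^ (D.m i + 2) * (FreeGroup.of 0 ^ D.code i)⁻¹)

/-- `c^i f v f c^(-i)`. -/
def bGen (i : D.ι) : Base P :=
  Coprod.inr (FreeGroup.of 1 ^ D.code i * FreeGroup.of 3) * Coprod.inl (D.val i) *
    Coprod.inr (FreeGroup.of 3 * (FreeGroup.of 1 ^ D.code i)⁻¹)

/-- Shift action of `ℤ` on `FreeGroup ℤ`. -/
def shift : Multiplicative ℤ →* MulAut (FreeGroup ℤ) where
  toFun n := FreeGroup.freeGroupCongr (Equiv.addLeft n.toAdd)
  map_one' := by
    refine MulEquiv.ext fun x => ?_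
    have h : (Equiv.addLeft (Multiplicative.toAdd (1 : Multiplicative ℤ))) = Equiv.refl ℤ := by
      ext q; simp
    simp [h]
  map_mul' a b := by
    refine MulEquiv.ext fun x => ?_
    have h : Equiv.addLeft (a * b).toAdd = (Equiv.addLeft b.toAdd).trans (Equiv.addLeft a.toAdd) := by
      ext q; simp [add_assoc]
    rw [h, ← FreeGroup.freeGroupCongr_trans]
    rfl

theorem shift_pow_of (n : ℕ) :
    shift (Multiplicative.ofAdd (1 : ℤ) ^ n) (FreeGroup.of 0) = FreeGroup.of (n : ℤ) := by
  simp [shift, FreeGroup.freeGroupCongr]

/-- Test map separating the conjugates `x^i y x^(-i)`, with `x` letter `j` and `y` letter `l`. -/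
noncomputable def sep (j l : Fin 4) : Base P →* FreeGroup ℤ ⋊[shift] Multiplicative ℤ :=
  Coprod.lift 1 <| FreeGroup.lift fun k =>
    if k = j then SemidirectProduct.inr (Multiplicative.ofAdd (1 : ℤ))
    else if k = l then SemidirectProduct.inl (FreeGroup.of 0) else 1

theorem aGen_injective : Function.Injective (FreeGroup.lift D.aGen) := by
  have h : ((sep 0 2).comp (FreeGroup.lift D.aGen)) =
      SemidirectProduct.inl.comp ((FreeGroup.map fun i => (D.code i : ℤ)).comp (powHom fun i => D.m i + 1)) := by
    refine FreeGroup.ext_hom _ _ fun i => ?_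
    simp only [MonoidHom.comp_apply, FreeGroup.lift_apply_of, powHom, map_pow, FreeGroup.map.of]
    simp only [aGen, sep, Coprod.lift_apply_inr, map_mul, map_inv, map_pow, FreeGroup.lift_apply_of,
      if_neg (show (2 : Fin 4) ≠ 0 by decide), if_true]
    rw [← map_pow SemidirectProduct.inr, ← map_pow SemidirectProduct.inl, ← map_inv,
      ← SemidirectProduct.inl_aut, map_pow, shift_pow_of]
    simp
  refine Function.Injective.of_comp (f := sep (P := P) 0 2) ?_
  rw [← MonoidHom.coe_comp, h]
  simp only [MonoidHom.coe_comp]
  refine SemidirectProduct.inl_injective.comp (Function.Injective.comp ?_ (powHom_injective _))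
  exact FreeGroup.map_injective fun a b hab => D.code_inj (Int.ofNat.inj hab)

theorem bGen_injective : Function.Injective (FreeGroup.lift D.bGen) := by
  have h : ((sep 1 3).comp (FreeGroup.lift D.bGen)) =
      SemidirectProduct.inl.comp ((FreeGroup.map fun i => (D.code i : ℤ)).comp (powHom fun _ => 1)) := by
    refine FreeGroup.ext_hom _ _ fun i => ?_
    simp only [MonoidHom.comp_apply, FreeGroup.lift_apply_of, powHom, map_pow, FreeGroup.map.of]
    simp only [bGen, sep, Coprod.lift_apply_inr, Coprod.lift_apply_inl, map_mul, map_inv, map_pow,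
      FreeGroup.lift_apply_of, if_neg (show (3 : Fin 4) ≠ 1 by decide), if_true, MonoidHom.one_apply, mul_one]
    rw [← shift_pow_of, ← map_pow SemidirectProduct.inr, ← map_inv, SemidirectProduct.inl_aut]
    simp only [pow_succ, pow_one, pow_zero, one_mul, mul_assoc, inv_mul_cancel_left, ← map_mul]
    simp [mul_assoc]
  refine Function.Injective.of_comp (f := sep (P := P) 1 3) ?_
  rw [← MonoidHom.coe_comp, h]
  simp only [MonoidHom.coe_comp]
  refine SemidirectProduct.inl_injective.comp (Function.Injective.comp ?_ (powHom_injective _))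
  exact FreeGroup.map_injective fun a b hab => D.code_inj (Int.ofNat.inj hab)

/-- The associated isomorphism. -/
noncomputable def equiv : (FreeGroup.lift D.aGen).range ≃* (FreeGroup.lift D.bGen).range :=
  (MonoidHom.ofInjective D.aGen_injective).symm.trans (MonoidHom.ofInjective D.bGen_injective)

/-- The embedding extension. -/
abbrev Emb : Type :=
  HNNExtension (Base P) (FreeGroup.lift D.aGen).range (FreeGroup.lift D.bGen).range D.equiv

/-- The base map. -/
noncomputable def inP : P →* D.Emb := HNNExtension.of.comp Coprod.inl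

/-- The five generators `a, c, e, f, t`. -/
noncomputable def five : Fin 5 → D.Emb := fun j =>
  if h : (j : ℕ) < 4 then HNNExtension.of (Coprod.inr (FreeGroup.of ⟨j, h⟩)) else HNNExtension.t

theorem t_conj (i : D.ι) :
    (HNNExtension.t : D.Emb) * HNNExtension.of (D.aGen i) = HNNExtension.of (D.bGen i) * HNNExtension.t := by
  have h := HNNExtension.t_mul_of (φ := D.equiv)
    ⟨D.aGen i, ⟨FreeGroup.of i, FreeGroup.lift_apply_of⟩⟩
  have e : ((D.equiv ⟨D.aGen i, ⟨FreeGroup.of i, FreeGroup.lift_apply_of⟩⟩ :
      (FreeGroup.lift D.bGen).range) : Base P) = D.bGen i := by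
    have : (MonoidHom.ofInjective D.aGen_injective).symm
        ⟨D.aGen i, ⟨FreeGroup.of i, FreeGroup.lift_apply_of⟩⟩ = FreeGroup.of i := by
      rw [MulEquiv.symm_apply_eq]; exact Subtype.ext (FreeGroup.lift_apply_of).symm
    simp [equiv, MulEquiv.trans_apply, this, MonoidHom.ofInjective_apply]
  rwa [e] at h

end EmbData

end Vale.P193
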