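import Vale.Agent.P193.Gen.EmbCert

/-!
P193 M6: a pinch-free form whose value is a word in the five letters has all segments equal to words in the
entries, of weight linearly bounded by the two words.
-/

namespace Vale.P193.EmbData

open Monoid

variable {P : Type} [Group P] {τ : Type} {D : EmbData P}

namespace Toks

variable (T : Toks D τ)

/-- An entry letter as tokens. -/
def repL (l : D.ι × Bool) : Wd τ := if l.2 then T.C.rep (D.code l.1) else winv (T.C.rep (D.code l.1))

/-- A word in entries as a word in tokens. -/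
def repWd (v : Wd D.ι) : Wd τ := v.flatMap T.repL

/-- A segment in entries as a segment in tokens. -/
def convS (u : SW D.ι) : SW τ :=
  u.flatMap fun l =>
    match l with
    | (.inl i, b) => inT (T.repL (i, b))
    | (.inr j, b) => [(Sum.inr j, b)]

theorem wev_repWd (v : Wd D.ι) : wev T.tv (T.repWd v) = wev D.val v := by
  refine wev_flatMap _ _ _ (fun l => ?_) v
  obtain ⟨i, b⟩ := l
  cases b <;> simp [repL, wev_single, wev_winv, T.rep_val]

theorem wsum_repL (l : D.ι × Bool) : wsum T.C.tw (T.repL l) ≤ D.m l.1 := by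
  obtain ⟨i, b⟩ := l
  cases b <;> simpa [repL, wsum_winv] using T.rep_w i

theorem wsum_repWd (v : Wd D.ι) : wsum T.C.tw (T.repWd v) ≤ wsum D.m v := by
  induction v with
  | nil => simp [repWd]
  | cons l v ih =>
    rw [repWd, List.flatMap_cons, wsum_append, wsum_cons]
    exact Nat.add_le_add (T.wsum_repL l) ih

theorem wev_convS (u : SW D.ι) : wev (bl T.tv) (T.convS u) = wev (bl D.val) u := by
  refine wev_flatMap _ _ _ (fun l => ?_) u
  obtain ⟨i | j, b⟩ := l
  · show wev (bl T.tv) (inT (T.repL (i, b))) = _
    rw [wev_inT]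
    cases b <;> simp [repL, wev_single, wev_winv, T.rep_val, bl]
  · cases b <;> simp [wev_single, bl]

theorem wsum_convS (u : SW D.ι) : wsum (wB T.C.tw) (T.convS u) ≤ wsum (wB D.m) u := by
  induction u with
  | nil => simp [convS]
  | cons l u ih =>
    rw [convS, List.flatMap_cons, wsum_append, wsum_cons]
    refine Nat.add_le_add ?_ ih
    obtain ⟨i | j, b⟩ := l
    · show wsum (wB T.C.tw) (inT (T.repL (i, b))) ≤ _
      rw [wsum_inT]
      exact T.wsum_repL (i, b)
    · simp [wB]

open Classical in
/-- The entries themselves as tokens. -/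
noncomputable def entToks : Toks D D.ι where
  tv := D.val
  C :=
    { tw := D.m
      wt := T.C.wt
      rep := fun n => if h : ∃ i, D.code i = n then [(h.choose, true)] else [] }
  wt_iff := T.wt_iff
  rep_val i := by
    have h : ∃ j, D.code j = D.code i := ⟨i, rfl⟩
    dsimp only
    rw [dif_pos h, wev_single, D.code_inj h.choose_spec]
    rfl
  rep_w i := by
    have h : ∃ j, D.code j = D.code i := ⟨i, rfl⟩
    dsimp only
    rw [dif_pos h, wsum_cons, D.code_inj h.choose_spec]
    simp
  lb i v hv := le_trans (T.lb i _ ((T.wev_repWd v).trans hv)) (T.wsum_repWd v)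

/-- An element of a side given by tokens is a word in entries of no bigger weight. -/
theorem side_word (b : Bool) {u : SW τ}
    (hu : wev (bl T.tv) u ∈ HNNRed.side D.sideA D.sideB b) :
    ∃ g : SW D.ι, wev (bl D.val) g = wev (bl T.tv) u ∧ wsum (wB D.m) g ≤ wsum (wB T.C.tw) u := by
  cases b
  · obtain ⟨W, hW, e⟩ := (mem_range_lift D.bGen).1 hu
    refine ⟨genWord (bWord1 T.entToks.C) (D.cw W),
      (wev_genWord D D.val T.entToks.wev_bWord1 W).trans e, ?_⟩
    have h : wsum (wB D.m) (genWord (bWord1 T.entToks.C) (D.cw W)) ≤ wsum (fun i => D.m i + 2) W :=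
      wsum_genWord D (wB D.m) T.entToks.wsum_bWord1 W
    have h1 := D.count_f T.tv hW e.symm
    have h2 := D.count_tok T.tv T.C.tw T.lb hW e.symm
    rw [wsum_add_two] at h
    rw [wB_eq T.C.tw u]
    omega
  · obtain ⟨W, hW, e⟩ := (mem_range_lift D.aGen).1 hu
    refine ⟨genWord (aWord1 T.entToks.C) (D.cw W),
      (wev_genWord D D.val T.entToks.wev_aWord1 W).trans e, ?_⟩
    have h : wsum (wB D.m) (genWord (aWord1 T.entToks.C) (D.cw W)) ≤ wsum (fun i => D.m i + 2) W :=
      wsum_genWord D (wB D.m) T.entToks.wsum_aWord1 W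
    have h1 := D.count_e T.tv hW e.symm
    rw [wB_eq T.C.tw u]
    omega

/-- Weight of the segments after the first. -/
def tailW {σ : Type} (tw : σ → ℕ) (l : List (Bool × SW σ)) : ℕ :=
  (l.map fun p => wsum (wB tw) p.2).sum

/-- Two equal pinch-free forms, one in tokens and one in entries: the segments of the first are entry words. -/
theorem segs_entries : ∀ {r : List (Bool × SW τ)} {r' : List (Bool × SW D.ι)} {s : SW τ} {g : SW D.ι},
    D.Red T.tv (s, r) → D.Red D.val (g, r') → D.fVal T.tv (s, r) = D.fVal D.val (g, r') →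
    ∀ x ∈ segs (s, r), ∃ y : SW D.ι, wev (bl D.val) y = wev (bl T.tv) x ∧
      wsum (wB D.m) y ≤
        2 * (wsum (wB D.m) g + tailW D.m r' + (wsum (wB T.C.tw) s + tailW T.C.tw r)) := by
  intro r
  induction r with
  | nil =>
    intro r' s g hr hr' e x hx
    simp only [segs, List.map_nil, List.mem_singleton] at hx
    subst hx
    obtain ⟨-, h2⟩ := form_nil_of D hr' (x := wev (bl T.tv) x)
      (e.symm.trans (by simp [fVal, vlist, HNNRed.hval, HNNRed.prodT]))
    exact ⟨g, h2, by omega⟩
  | cons p r ih =>
    intro r' s g hr hr' e x hx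
    cases r' with
    | nil => exact absurd (HNNRed.eq_signs D.equiv hr hr' e).1 (by simp [vlist])
    | cons p' r' =>
      obtain ⟨b, s1⟩ := p
      obtain ⟨b', g1⟩ := p'
      obtain ⟨rfl, hm, a, ha, hmove, e'⟩ := HNNRed.peel D.equiv hr hr' e
      have hu : wev (bl T.tv) (winv s ++ T.convS g) ∈ HNNRed.side D.sideA D.sideB (!b) := by
        rw [wev_append, wev_winv, T.wev_convS]
        exact hm
      obtain ⟨h, hh, hhw⟩ := T.side_word (!b) hu
      obtain ⟨v, hvw, hv⟩ := T.entToks.transfer (!b) (u := h) (show wev (bl D.val) h ∈ _ by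
        rw [hh]; exact hu)
      replace hhw : wsum (wB D.m) h ≤ wsum (wB T.C.tw) s + wsum (wB D.m) g := by
        have := T.wsum_convS g
        rw [wsum_append, wsum_winv] at hhw
        omega
      replace hvw : wsum (wB D.m) v ≤ wsum (wB D.m) h := hvw
      rw [wev_append, wev_winv, T.wev_convS] at hh
      have hva : wev (bl D.val) v = a := by
        apply HNNExtension.of_injective (φ := D.equiv)
        replace hv : HNNRed.tE D.equiv (!b) * HNNExtension.of (wev (bl D.val) h) *
            HNNRed.tE D.equiv (!!b) = HNNExtension.of (wev (bl D.val) v) := hv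
        rw [← hv, hh, Bool.not_not, mul_assoc, hmove, HNNRed.tE_not, inv_mul_cancel_left]
      have hval : D.fVal T.tv (s1, r) = D.fVal D.val (v ++ g1, r') := by
        simp only [fVal, wev_append, hva]
        exact e'
      rcases List.mem_cons.1 hx with rfl | hx
      · refine ⟨g ++ winv h, ?_, ?_⟩
        · rw [wev_append, wev_winv, hh]
          group
        · simp only [wsum_append, wsum_winv, tailW, List.map_cons, List.sum_cons]
          omega
      · obtain ⟨y, hy, hyw⟩ := ih (s := s1) (g := v ++ g1) (HNNRed.pf_cons.1 hr).2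
          (HNNRed.pf_cons.1 hr').2 hval x hx
        refine ⟨y, hy, ?_⟩
        simp only [wsum_append, tailW, List.map_cons, List.sum_cons] at hyw ⊢
        omega

/-- The segments of a pinch-free form with value in the five letters are entry words of bounded weight. -/
theorem seg_entry_bound {f : EForm τ} (hf : D.Red T.tv f) {v : Wd (Fin 5)}
    (e : D.fVal T.tv f = wev D.five v) :
    ∀ s ∈ segs f, ∃ g : SW D.ι, wev (bl D.val) g = wev (bl T.tv) s ∧
      wsum (wB D.m) g ≤ 2 * (wsum w5 v + formW T.C.tw f) := by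
  intro s hs
  obtain ⟨f', hf', hv', hw'⟩ := T.entToks.reduce (v.map fun l => (Sum.inr l.1, l.2))
  have e2 : D.fVal T.tv f = D.fVal D.val (f'.1, f'.2) := by
    rw [e]
    refine (Eq.trans ?_ hv'.symm)
    rw [wev_map]
    rfl
  obtain ⟨g, hg, hgw⟩ := T.segs_entries (s := f.1) (r := f.2) hf hf' e2 s hs
  refine ⟨g, hg, hgw.trans ?_⟩
  have hw2 : formW D.m f' ≤ wsum w5 v := by
    refine hw'.trans (le_of_eq ?_)
    rw [wsum_map]
    rfl
  simp only [formW, segs, List.map_cons, List.sum_cons, List.map_map] at hw2 ⊢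
  simp only [tailW, Function.comp_def] at hw2 ⊢
  omega

end Toks

end Vale.P193.EmbData
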