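import Vale.Agent.P193.WordLemmas
import Mathlib.Tactic.Group

/-!
P193: the universal property of the embedding extension: a map of `P` and five elements satisfying
`yWord (code i) (m i) = val i`.
-/

namespace Vale.P193

open Monoid

theorem wev_replicate_true {α G : Type*} [Group G] (f : α → G) (a : α) (k : ℕ) :
    wev f (List.replicate k (a, true)) = f a ^ k := by
  induction k with
  | zero => simp
  | succ k ih => rw [List.replicate_succ, wev_cons, ih, wev_pos, pow_succ']

theorem wev_replicate_false {α G : Type*} [Group G] (f : α → G) (a : α) (k : ℕ) :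
    wev f (List.replicate k (a, false)) = (f a ^ k)⁻¹ := by
  induction k with
  | zero => simp
  | succ k ih => rw [List.replicate_succ, wev_cons, ih, wev_neg, pow_succ, mul_inv_rev]

theorem wev_yWord {G : Type*} [Group G] (v : Fin 5 → G) (i L : ℕ) :
    wev v (yWord i L) = (v 3)⁻¹ * (v 1 ^ i)⁻¹ * v 4 * v 0 ^ i * v 2 ^ (L + 2) * (v 0 ^ i)⁻¹ * (v 4)⁻¹ *
      v 1 ^ i * (v 3)⁻¹ := by
  simp only [yWord, wev_append, wev_replicate_true, wev_replicate_false, wev_pos, wev_neg]

noncomputable section

namespace EmbData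

variable {P H : Type} [Group P] [Group H] (D : EmbData P)

theorem five_castSucc (j : Fin 4) : D.five j.castSucc = HNNExtension.of (Coprod.inr (FreeGroup.of j)) := by
  have hj : ((j.castSucc : Fin 5) : ℕ) < 4 := by simp
  rw [five, dif_pos hj]
  rfl

theorem five_four : D.five 4 = HNNExtension.t := by simp [five]

/-- The entry is a word in the five generators. -/
theorem five_yWord (i : D.ι) : wev D.five (yWord (D.code i) (D.m i)) = D.inP (D.val i) := by
  have h := D.t_conj i
  have e0 : D.five 0 = HNNExtension.of (Coprod.inr (FreeGroup.of 0)) := D.five_castSucc 0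
  have e1 : D.five 1 = HNNExtension.of (Coprod.inr (FreeGroup.of 1)) := D.five_castSucc 1
  have e2 : D.five 2 = HNNExtension.of (Coprod.inr (FreeGroup.of 2)) := D.five_castSucc 2
  have e3 : D.five 3 = HNNExtension.of (Coprod.inr (FreeGroup.of 3)) := D.five_castSucc 3
  rw [wev_yWord, e0, e1, e2, e3, five_four]
  simp only [aGen, bGen, map_mul, map_inv, map_pow] at h
  simp only [inP, MonoidHom.comp_apply]
  generalize (HNNExtension.of (Coprod.inr (FreeGroup.of (0 : Fin 4))) : D.Emb) = a at h ⊢
  generalize (HNNExtension.of (Coprod.inr (FreeGroup.of (1 : Fin 4))) : D.Emb) = c at h ⊢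
  generalize (HNNExtension.of (Coprod.inr (FreeGroup.of (2 : Fin 4))) : D.Emb) = e at h ⊢
  generalize (HNNExtension.of (Coprod.inr (FreeGroup.of (3 : Fin 4))) : D.Emb) = f at h ⊢
  generalize (HNNExtension.of (Coprod.inl (D.val i)) : D.Emb) = q at h ⊢
  generalize (HNNExtension.t : D.Emb) = t at h ⊢
  have h2 : t * (a ^ D.code i * e ^ (D.m i + 2) * (a ^ D.code i)⁻¹) * t⁻¹ =
      c ^ D.code i * f * q * (f * (c ^ D.code i)⁻¹) := by rw [h, mul_inv_cancel_right]
  calc _ = f⁻¹ * (c ^ D.code i)⁻¹ * (t * (a ^ D.code i * e ^ (D.m i + 2) * (a ^ D.code i)⁻¹) * t⁻¹) *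
        c ^ D.code i * f⁻¹ := by group
    _ = q := by rw [h2]; group

/-- The universal property. -/
def liftHom (fP : P →* H) (v : Fin 5 → H)
    (hv : ∀ i, wev v (yWord (D.code i) (D.m i)) = fP (D.val i)) : D.Emb →* H :=
  HNNExtension.lift (Coprod.lift fP (FreeGroup.lift fun j => v j.castSucc)) (v 4) <| by
    rintro ⟨_, w, rfl⟩
    have key : (MulAut.conj (v 4)).toMonoidHom.comp
          ((Coprod.lift fP (FreeGroup.lift fun j => v j.castSucc)).comp (FreeGroup.lift D.aGen)) =
        (Coprod.lift fP (FreeGroup.lift fun j => v j.castSucc)).comp (FreeGroup.lift D.bGen) := by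
      refine FreeGroup.ext_hom _ _ fun i => ?_
      simp only [MonoidHom.comp_apply, MulEquiv.coe_toMonoidHom, MulAut.conj_apply, FreeGroup.lift_apply_of]
      simp only [aGen, bGen, FreeGroup.lift_apply_of, map_mul, map_inv, map_pow, Coprod.lift_apply_inl, Coprod.lift_apply_inr]
      rw [← hv i, wev_yWord]
      show v 4 * (v 0 ^ D.code i * v 2 ^ (D.m i + 2) * (v 0 ^ D.code i)⁻¹) * (v 4)⁻¹ =
        v 1 ^ D.code i * v 3 * _ * (v 3 * (v 1 ^ D.code i)⁻¹)
      group
    have e : ((D.equiv ⟨FreeGroup.lift D.aGen w, w, rfl⟩ : (FreeGroup.lift D.bGen).range) : Base P) =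
        FreeGroup.lift D.bGen w := by
      have : (MonoidHom.ofInjective D.aGen_injective).symm ⟨FreeGroup.lift D.aGen w, w, rfl⟩ = w := by
        rw [MulEquiv.symm_apply_eq]; rfl
      simp [equiv, MulEquiv.trans_apply, this, MonoidHom.ofInjective_apply]
    rw [e]
    have := DFunLike.congr_fun key w
    simp only [MonoidHom.comp_apply, MulEquiv.coe_toMonoidHom, MulAut.conj_apply] at this
    rw [← this, inv_mul_cancel_right]

variable {D}

@[simp] theorem liftHom_inP {fP : P →* H} {v : Fin 5 → H}
    {hv : ∀ i, wev v (yWord (D.code i) (D.m i)) = fP (D.val i)} (p : P) :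
    D.liftHom fP v hv (D.inP p) = fP p := by
  simp [liftHom, inP]

@[simp] theorem liftHom_five {fP : P →* H} {v : Fin 5 → H}
    {hv : ∀ i, wev v (yWord (D.code i) (D.m i)) = fP (D.val i)} (j : Fin 5) :
    D.liftHom fP v hv (D.five j) = v j := by
  induction j using Fin.lastCases with
  | last => rw [show (Fin.last 4 : Fin 5) = 4 from rfl, five_four]; simp [liftHom]
  | cast j => rw [five_castSucc]; simp [liftHom]

/-- A subgroup with the image of `P` and the five generators is everything. -/
theorem mem_of_gens {K : Subgroup D.Emb} (hP : ∀ p, D.inP p ∈ K) (h5 : ∀ j, D.five j ∈ K) (y : D.Emb) :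
    y ∈ K := by
  induction y using HNNExtension.induction_on with
  | of g =>
    induction g using Coprod.induction_on with
    | inl p => exact hP p
    | inr w =>
      induction w using FreeGroup.induction_on with
      | C1 => rw [map_one, map_one]; exact K.one_mem
      | of j => rw [← five_castSucc]; exact h5 _
      | inv_of j hj => rw [map_inv, map_inv]; exact K.inv_mem hj
      | mul a b ha hb => rw [map_mul, map_mul]; exact K.mul_mem ha hb
    | mul a b ha hb => rw [map_mul]; exact K.mul_mem ha hb
  | t => rw [← five_four]; exact h5 _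
  | mul a b ha hb => exact K.mul_mem ha hb
  | inv a ha => exact K.inv_mem ha

end EmbData

end

end Vale.P193
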