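import Mathlib.GroupTheory.HNNExtension

/-!
P193: pinch-free forms in an HNN extension as lists, Britton's lemma for them, and forms with all
segments in a subgroup that contains both associated subgroups.
-/

namespace Vale.P193.HNNRed

open HNNExtension HNNExtension.NormalWord

variable {G : Type*} [Group G] {A B : Subgroup G} (φ : A ≃* B)

/-- `A` for the sign `true`, `B` for `false`. -/
def side (A B : Subgroup G) (b : Bool) : Subgroup G := if b then A else B

/-- The unit of a sign. -/
def sgn (b : Bool) : ℤˣ := if b then 1 else -1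

theorem sgn_inj {b c : Bool} (h : sgn b = sgn c) : b = c := by
  revert h; cases b <;> cases c <;> decide

/-- `t` or `t⁻¹`. -/
def tE (b : Bool) : HNNExtension G A B φ := if b then t else t⁻¹

/-- Value of a list of signed segments. -/
def prodT : List (Bool × G) → HNNExtension G A B φ
  | [] => 1
  | p :: l => tE φ p.1 * of p.2 * prodT l

/-- Value of a form. -/
def hval (g : G) (l : List (Bool × G)) : HNNExtension G A B φ := of g * prodT φ l

/-- No pinch inside the list. -/
def PF (A B : Subgroup G) : List (Bool × G) → Prop :=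
  List.IsChain fun x y => x.2 ∈ side A B x.1 → x.1 = y.1

theorem pf_nil : PF A B ([] : List (Bool × G)) := List.isChain_nil

theorem pf_cons {p : Bool × G} {l : List (Bool × G)} :
    PF A B (p :: l) ↔ (∀ q ∈ l.head?, p.2 ∈ side A B p.1 → p.1 = q.1) ∧ PF A B l :=
  List.isChain_cons

theorem side_eq (b : Bool) : toSubgroup A B (sgn b) = side A B b := by cases b <;> rfl

theorem side_eq' (b : Bool) : toSubgroup A B (-sgn b) = side A B (!b) := by cases b <;> simp [sgn, side]

theorem tE_eq (b : Bool) : tE φ b = t ^ (sgn b : ℤ) := by cases b <;> simp [tE, sgn]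

theorem tE_not (b : Bool) : tE φ (!b) = (tE φ b)⁻¹ := by cases b <;> simp [tE]

/-- The list as a reduced word of Mathlib. -/
def toRW (g : G) (l : List (Bool × G)) (h : PF A B l) : ReducedWord G A B where
  head := g
  toList := l.map fun p => (sgn p.1, p.2)
  chain := by
    rw [List.isChain_map]
    refine List.IsChain.imp ?_ h
    intro x y hxy hx
    rw [side_eq] at hx
    exact congrArg sgn (hxy hx)

theorem toRW_prod (g : G) (l : List (Bool × G)) (h : PF A B l) :
    (toRW g l h).prod φ = hval φ g l := by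
  have key : ∀ l : List (Bool × G),
      ((l.map fun p => (sgn p.1, p.2)).map fun x => (t ^ (x.1 : ℤ) * of x.2 : HNNExtension G A B φ)).prod
        = prodT φ l := by
    intro l
    induction l with
    | nil => rfl
    | cons p l ih =>
      rw [List.map_cons, List.map_cons, List.prod_cons, ih]
      simp [prodT, tE_eq]
  simp only [toRW, ReducedWord.prod, hval]
  rw [key]

theorem eq_signs {g g' : G} {l l' : List (Bool × G)} (h : PF A B l) (h' : PF A B l')
    (e : hval φ g l = hval φ g' l') :
    l.map Prod.fst = l'.map Prod.fst ∧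
      ∀ b ∈ l.head?.map Prod.fst, g⁻¹ * g' ∈ side A B (!b) := by
  obtain ⟨h1, h2⟩ := ReducedWord.map_fst_eq_and_of_prod_eq φ
    (w₁ := toRW g l h) (w₂ := toRW g' l' h') (by rw [toRW_prod, toRW_prod, e])
  refine ⟨?_, fun b hb => ?_⟩
  · simp only [toRW, List.map_map] at h1
    apply (List.map_injective_iff.2 fun a b => sgn_inj (b := a) (c := b))
    simpa [List.map_map, Function.comp_def] using h1
  · rw [← side_eq']
    refine h2 _ ?_
    simp only [toRW, List.head?_map, Option.map_map, Option.mem_def, Option.map_eq_some_iff] at hb ⊢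
    obtain ⟨a, ha, rfl⟩ := hb
    exact ⟨a, ha, rfl⟩

theorem nil_of {g x : G} {l : List (Bool × G)} (h : PF A B l) (e : hval φ g l = of x) :
    l = [] ∧ g = x := by
  have e' : hval φ g l = hval φ x [] := e.trans (by simp [hval, prodT])
  have hl : l = [] := List.map_eq_nil_iff.1 (eq_signs φ h pf_nil e').1
  subst hl
  exact ⟨rfl, of_injective φ (by simpa [hval, prodT] using e)⟩

/-- Push an associated element through a stable letter. -/
theorem exists_move (b : Bool) {h : G} (hh : h ∈ side A B (!b)) :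
    ∃ a ∈ side A B b, (of h * tE φ b : HNNExtension G A B φ) = tE φ b * of a := by
  cases b
  · refine ⟨φ ⟨h, hh⟩, (φ ⟨h, hh⟩).2, ?_⟩
    simp only [tE, Bool.false_eq_true, if_false]
    exact of_mul_inv_t (⟨h, hh⟩ : A)
  · refine ⟨φ.symm ⟨h, hh⟩, (φ.symm ⟨h, hh⟩).2, ?_⟩
    simp only [tE, if_true]
    exact of_mul_t (⟨h, hh⟩ : B)

/-- Two equal forms agree after removing the first stable letter, up to an associated element. -/
theorem peel {g g' g₁ g₁' : G} {b b' : Bool} {l l' : List (Bool × G)}
    (h : PF A B ((b, g₁) :: l)) (h' : PF A B ((b', g₁') :: l'))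
    (e : hval φ g ((b, g₁) :: l) = hval φ g' ((b', g₁') :: l')) :
    b = b' ∧ g⁻¹ * g' ∈ side A B (!b) ∧ ∃ a ∈ side A B b,
      (of (g⁻¹ * g') * tE φ b : HNNExtension G A B φ) = tE φ b * of a ∧
        hval φ g₁ l = hval φ (a * g₁') l' := by
  obtain ⟨h1, h2⟩ := eq_signs φ h h' e
  simp only [List.map_cons, List.cons.injEq] at h1
  obtain ⟨rfl, -⟩ := h1
  have hm := h2 b (by simp)
  obtain ⟨a, ha, hmove⟩ := exists_move φ b hm
  refine ⟨rfl, hm, a, ha, hmove, ?_⟩
  have e2 : (tE φ b)⁻¹ * ((of g)⁻¹ * hval φ g ((b, g₁) :: l)) =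
      (tE φ b)⁻¹ * ((of g)⁻¹ * hval φ g' ((b, g₁') :: l')) := by rw [e]
  simp only [hval, prodT] at e2 ⊢
  simp only [← mul_assoc, inv_mul_cancel, one_mul] at e2
  rw [e2, map_mul]
  rw [map_mul, map_inv] at hmove
  calc (tE φ b)⁻¹ * (of g)⁻¹ * of g' * tE φ b * of g₁' * prodT φ l'
      = (tE φ b)⁻¹ * ((of g)⁻¹ * of g' * tE φ b) * (of g₁' * prodT φ l') := by
        simp only [mul_assoc]
    _ = of a * (of g₁' * prodT φ l') := by rw [hmove, inv_mul_cancel_left]
    _ = of a * of g₁' * prodT φ l' := by rw [mul_assoc]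

/-- All segments of a form lie in `S`. -/
def AllIn (S : Subgroup G) (g : G) (l : List (Bool × G)) : Prop := g ∈ S ∧ ∀ p ∈ l, p.2 ∈ S

variable {S : Subgroup G}

theorem side_le (hA : A ≤ S) (hB : B ≤ S) (b : Bool) : side A B b ≤ S := by cases b <;> simpa [side]

/-- Left multiplication by a stable letter keeps pinch-free forms with segments in `S`. -/
theorem exists_tE_mul (hA : A ≤ S) (hB : B ≤ S) (b : Bool) {g : G} {l : List (Bool × G)}
    (h : PF A B l) (hS : AllIn S g l) :
    ∃ g' l', PF A B l' ∧ AllIn S g' l' ∧ hval φ g' l' = tE φ b * hval φ g l := by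
  by_cases hc : g ∈ side A B b ∧ l.head?.map Prod.fst = some (!b)
  · obtain ⟨hg, hb⟩ := hc
    match l, hb, h, hS with
    | (c, g₁) :: r, hb, h, hS =>
      simp only [List.head?_cons, Option.map_some, Option.some.injEq] at hb
      subst hb
      obtain ⟨a, ha, hmove⟩ := exists_move φ (!b) (by simpa using hg)
      refine ⟨a * g₁, r, (pf_cons.1 h).2, ⟨S.mul_mem (side_le hA hB _ ha) (hS.2 (!b, g₁) (by simp)),
        fun p hp => hS.2 p (by simp [hp])⟩, ?_⟩
      simp only [hval, prodT, map_mul, ← mul_assoc]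
      rw [mul_assoc (tE φ b), hmove, ← mul_assoc (tE φ b), tE_not, mul_inv_cancel, one_mul]
  · refine ⟨1, (b, g) :: l, pf_cons.2 ⟨fun q hq hg => ?_, h⟩, ⟨S.one_mem, ?_⟩, ?_⟩
    · by_contra hne
      refine hc ⟨hg, ?_⟩
      rw [Option.mem_def] at hq
      simp only [hq, Option.map_some, Option.some.injEq]
      revert hne; cases b <;> cases q.1 <;> simp
    · intro p hp
      rcases List.mem_cons.1 hp with rfl | hp
      exacts [hS.1, hS.2 p hp]
    · simp [hval, prodT, mul_assoc]

/-- The subgroup generated by `S` and the stable letter. -/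
def withT (S : Subgroup G) : Subgroup (HNNExtension G A B φ) :=
  Subgroup.closure (of '' (S : Set G) ∪ {t})

theorem tE_mem (b : Bool) : tE φ b ∈ withT φ S := by
  have : (t : HNNExtension G A B φ) ∈ withT φ S := Subgroup.subset_closure (Or.inr rfl)
  cases b
  exacts [Subgroup.inv_mem _ this, this]

theorem hval_mem {g : G} {l : List (Bool × G)} (hS : AllIn S g l) : hval φ g l ∈ withT φ S := by
  have hof : ∀ x ∈ S, (of x : HNNExtension G A B φ) ∈ withT φ S := fun x hx =>
    Subgroup.subset_closure (Or.inl ⟨x, hx, rfl⟩)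
  refine Subgroup.mul_mem _ (hof _ hS.1) ?_
  have key : ∀ l : List (Bool × G), (∀ p ∈ l, p.2 ∈ S) → prodT φ l ∈ withT φ S := by
    intro l
    induction l with
    | nil => intro _; exact Subgroup.one_mem _
    | cons p l ih =>
      intro h
      exact Subgroup.mul_mem _ (Subgroup.mul_mem _ (tE_mem φ _) (hof _ (h p (by simp))))
        (ih fun q hq => h q (by simp [hq]))
  exact key l hS.2

theorem exists_form (hA : A ≤ S) (hB : B ≤ S) {x : HNNExtension G A B φ} (hx : x ∈ withT φ S) :
    ∃ g l, PF A B l ∧ AllIn S g l ∧ hval φ g l = x := by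
  induction hx using Subgroup.closure_induction_left with
  | one => exact ⟨1, [], pf_nil, ⟨S.one_mem, by simp⟩, by simp [hval, prodT]⟩
  | mul_left y hy z _ ih =>
    obtain ⟨g, l, h, hS, rfl⟩ := ih
    rcases hy with ⟨s, hs, rfl⟩ | rfl
    · exact ⟨s * g, l, h, ⟨S.mul_mem hs hS.1, hS.2⟩, by simp [hval, mul_assoc]⟩
    · obtain ⟨g', l', h', hS', e⟩ := exists_tE_mul φ hA hB true h hS
      exact ⟨g', l', h', hS', e⟩
  | inv_mul_cancel y hy z _ ih =>
    obtain ⟨g, l, h, hS, rfl⟩ := ih
    rcases hy with ⟨s, hs, rfl⟩ | rfl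
    · exact ⟨s⁻¹ * g, l, h, ⟨S.mul_mem (S.inv_mem hs) hS.1, hS.2⟩, by simp [hval, mul_assoc]⟩
    · obtain ⟨g', l', h', hS', e⟩ := exists_tE_mul φ hA hB false h hS
      exact ⟨g', l', h', hS', e⟩

theorem allIn_of_eq (hA : A ≤ S) (hB : B ≤ S) :
    ∀ {g g' : G} {l l' : List (Bool × G)}, PF A B l → PF A B l' → hval φ g l = hval φ g' l' →
      AllIn S g' l' → AllIn S g l := by
  intro g g' l l' h h' e hS
  induction l generalizing g g' l' with
  | nil =>
    obtain ⟨hl, hg⟩ := nil_of φ h' (x := g) (e.symm.trans (by simp [hval, prodT]))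
    subst hl
    exact hg ▸ hS
  | cons p r ih =>
    cases l' with
    | nil => exact absurd (eq_signs φ h h' e).1 (by simp)
    | cons p' r' =>
      obtain ⟨b, g₁⟩ := p
      obtain ⟨b', g₁'⟩ := p'
      obtain ⟨rfl, hm, a, ha, -, e'⟩ := peel φ h h' e
      have hr := ih (pf_cons.1 h).2 (pf_cons.1 h').2 e'
        ⟨S.mul_mem (side_le hA hB _ ha) (hS.2 (b, g₁') (by simp)), fun q hq => hS.2 q (by simp [hq])⟩
      refine ⟨?_, fun q hq => ?_⟩
      · have := S.mul_mem hS.1 (S.inv_mem (side_le hA hB _ hm))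
        simpa [mul_assoc] using this
      · rcases List.mem_cons.1 hq with rfl | hq
        exacts [hr.1, hr.2 q hq]

/-- A pinch-free form lies in `⟨S, t⟩` exactly when all its segments lie in `S`. -/
theorem mem_withT_iff (hA : A ≤ S) (hB : B ≤ S) {g : G} {l : List (Bool × G)} (h : PF A B l) :
    hval φ g l ∈ withT φ S ↔ AllIn S g l := by
  refine ⟨fun hx => ?_, hval_mem φ⟩
  obtain ⟨g', l', h', hS, e⟩ := exists_form φ hA hB hx
  exact allIn_of_eq φ hA hB h h' e.symm hS

end Vale.P193.HNNRed
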