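import Vale.Agent.P193.Gen.EmbBase
import Vale.Agent.P193.Gen.EmbPres
import Vale.Agent.P193.Gen.HNNRed
import Mathlib.Algebra.Group.Conj

/-!
P193 M6: every word in an embedding extension has a pinch-free form of no bigger weight; consequences of
Britton's lemma: base values, token words for elements of `P`, and the subgroup of the five letters.
-/

namespace Vale.P193.EmbData

open Monoid

variable {P : Type} [Group P] {τ : Type} (D : EmbData P)

/-- The `A`-side. -/
abbrev sideA : Subgroup (Base P) := (FreeGroup.lift D.aGen).range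

/-- The `B`-side. -/
abbrev sideB : Subgroup (Base P) := (FreeGroup.lift D.bGen).range

theorem mem_range_lift {ι G : Type*} [Group G] (g : ι → G) {x : G} :
    x ∈ (FreeGroup.lift g).range ↔ ∃ W : Wd ι, FreeGroup.IsReduced W ∧ wev g W = x := by
  classical
  constructor
  · rintro ⟨ξ, rfl⟩
    exact ⟨ξ.toWord, FreeGroup.isReduced_toWord, by rw [wev, FreeGroup.mk_toWord]⟩
  · rintro ⟨W, -, rfl⟩
    exact ⟨_, rfl⟩

/-- A word in entries as a word in codes. -/
def cw (W : Wd D.ι) : Wd ℕ := W.map fun l => (D.code l.1, l.2)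

theorem cw_reduced {W : Wd D.ι} : FreeGroup.IsReduced (D.cw W) ↔ FreeGroup.IsReduced W := by
  simp only [cw, FreeGroup.IsReduced, List.isChain_map, D.code_inj.eq_iff]

/-- Values of signed segments. -/
def vlist (tv : τ → P) (l : List (Bool × SW τ)) : List (Bool × Base P) :=
  l.map fun p => (p.1, wev (bl tv) p.2)

/-- Value of a form. -/
noncomputable def fVal (tv : τ → P) (f : EForm τ) : D.Emb :=
  HNNRed.hval D.equiv (wev (bl tv) f.1) (vlist tv f.2)

/-- The form has no pinch. -/
def Red (tv : τ → P) (f : EForm τ) : Prop := HNNRed.PF D.sideA D.sideB (vlist tv f.2)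

theorem wev_up (tv : τ → P) (u : SW τ) :
    wev (D.eVal tv) (up u) = HNNExtension.of (wev (bl tv) u) := by
  rw [up, wev_map, hom_wev]
  congr 1
  funext c
  obtain k | i := c
  · rfl
  · simp [eVal, bl, five_castSucc]

theorem wev_formWord (tv : τ → P) (f : EForm τ) :
    wev (D.eVal tv) (formWord f) = D.fVal tv f := by
  obtain ⟨s, l⟩ := f
  simp only [formWord, fVal, HNNRed.hval, wev_append, wev_up]
  congr 1
  induction l with
  | nil => simp [vlist, HNNRed.prodT]
  | cons p l ih =>
    obtain ⟨b, s'⟩ := p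
    simp only [List.flatMap_cons, List.cons_append, wev_cons' (D.eVal tv), wev_append, ih, wev_up]
    cases b <;> simp [vlist, HNNRed.prodT, HNNRed.tE, eVal, five_four, mul_assoc]

theorem wsum_up (tw : τ → ℕ) (u : SW τ) : wsum (wE tw) (up u) = wsum (wB tw) u := by
  rw [up, wsum_map]
  congr 1
  funext c
  obtain k | i := c
  · rfl
  · fin_cases i <;> rfl

theorem wsum_formWord (tw : τ → ℕ) (f : EForm τ) : wsum (wE tw) (formWord f) = formW tw f := by
  obtain ⟨s, l⟩ := f
  simp only [formWord, formW, segs, wsum_append, wsum_up, List.map_cons, List.sum_cons]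
  congr 1
  induction l with
  | nil => rfl
  | cons p l ih => simp [ih, wsum_up, wE, w5]

theorem seg_le_formW (tw : τ → ℕ) {f : EForm τ} {s : SW τ} (hs : s ∈ segs f) :
    wsum (wB tw) s ≤ formW tw f :=
  List.le_sum_of_mem (List.mem_map.2 ⟨s, hs, rfl⟩)

/-- `t` conjugates the whole `A`-side onto the `B`-side. -/
theorem t_conj_wev (W : Wd D.ι) :
    (HNNExtension.t : D.Emb) * HNNExtension.of (wev D.aGen W) * HNNExtension.t⁻¹ =
      HNNExtension.of (wev D.bGen W) := by
  rw [hom_wev, hom_wev, ← MulAut.conj_apply, ← MulEquiv.coe_toMonoidHom, hom_wev]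
  congr 1
  funext i
  rw [MulEquiv.coe_toMonoidHom, MulAut.conj_apply, D.t_conj, mul_inv_cancel_right]

theorem genWord_cons (g : ℕ → SW τ) (l : ℕ × Bool) (Ξ : Wd ℕ) :
    genWord g (l :: Ξ) = (if l.2 then g l.1 else winv (g l.1)) ++ genWord g Ξ := by
  simp [genWord]

theorem wev_genWord (tv : τ → P) {g : ℕ → SW τ} {gen : D.ι → Base P}
    (hg : ∀ i, wev (bl tv) (g (D.code i)) = gen i) (W : Wd D.ι) :
    wev (bl tv) (genWord g (D.cw W)) = wev gen W := by
  induction W with
  | nil => simp [genWord, cw]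
  | cons l W ih =>
    obtain ⟨i, b⟩ := l
    rw [show D.cw ((i, b) :: W) = (D.code i, b) :: D.cw W from rfl, genWord_cons, wev_append, ih,
      wev_cons' gen]
    congr 1
    cases b
    · simp [wev_winv, hg]
    · simp [hg]

theorem wsum_genWord (f : τ ⊕ Fin 4 → ℕ) {g : ℕ → SW τ} {k : D.ι → ℕ}
    (hg : ∀ i, wsum f (g (D.code i)) ≤ k i) (W : Wd D.ι) :
    wsum f (genWord g (D.cw W)) ≤ wsum k W := by
  induction W with
  | nil => simp [genWord, cw]
  | cons l W ih =>
    obtain ⟨i, b⟩ := l
    rw [show D.cw ((i, b) :: W) = (D.code i, b) :: D.cw W from rfl, genWord_cons, wsum_append,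
      wsum_cons]
    refine Nat.add_le_add ?_ ih
    cases b
    · simpa [wsum_winv] using hg i
    · simpa using hg i

theorem wsum_add_two {α : Type*} (f : α → ℕ) (W : Wd α) :
    wsum (fun a => f a + 2) W = wsum f W + 2 * W.length := by
  induction W with
  | nil => rfl
  | cons l W ih => simp only [wsum_cons, ih, List.length_cons]; omega

namespace Toks

variable {D} (T : Toks D τ)

theorem wt_code (i : D.ι) : T.C.wt (D.code i) = some (D.m i) := (T.wt_iff _ _).2 ⟨i, rfl, rfl⟩

theorem wev_aWord1 (i : D.ι) : wev (bl T.tv) (aWord1 T.C (D.code i)) = D.aGen i := by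
  simp [aWord1, conjW, wev_append, wev_replicate, bl, T.wt_code, aGen, mul_assoc]

theorem wev_bWord1 (i : D.ι) : wev (bl T.tv) (bWord1 T.C (D.code i)) = D.bGen i := by
  simp [bWord1, conjW, wev_append, wev_replicate, wev_cons', bl, wev_inT, T.rep_val, bGen, mul_assoc]

theorem wsum_aWord1 (i : D.ι) :
    wsum (wB T.C.tw) (aWord1 T.C (D.code i)) ≤ D.m i + 2 := by
  simp [aWord1, conjW, wsum_replicate, wB, w4, T.wt_code]

theorem wsum_bWord1 (i : D.ι) :
    wsum (wB T.C.tw) (bWord1 T.C (D.code i)) ≤ D.m i + 2 := by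
  have := T.rep_w i
  simp [bWord1, conjW, wsum_replicate, wsum_inT, wB, w4]
  omega

theorem a_side {u : SW τ} {W : Wd D.ι} (hW : FreeGroup.IsReduced W)
    (e : wev (bl T.tv) u = wev D.aGen W) :
    ∃ v, wev (bl T.tv) v = wev D.bGen W ∧ wsum (wB T.C.tw) v ≤ wsum (wB T.C.tw) u := by
  refine ⟨genWord (bWord1 T.C) (D.cw W), wev_genWord D T.tv T.wev_bWord1 W, ?_⟩
  have h := (wsum_genWord D (wB T.C.tw) T.wsum_bWord1 W).trans (D.count_e T.tv hW e)
  rw [wB_eq T.C.tw u]
  omega

theorem b_side {u : SW τ} {W : Wd D.ι} (hW : FreeGroup.IsReduced W)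
    (e : wev (bl T.tv) u = wev D.bGen W) :
    ∃ v, wev (bl T.tv) v = wev D.aGen W ∧ wsum (wB T.C.tw) v ≤ wsum (wB T.C.tw) u := by
  refine ⟨genWord (aWord1 T.C) (D.cw W), wev_genWord D T.tv T.wev_aWord1 W, ?_⟩
  have h := wsum_genWord D (wB T.C.tw) T.wsum_aWord1 W
  have h1 := D.count_f T.tv hW e
  have h2 := D.count_tok T.tv T.C.tw T.lb hW e
  rw [wsum_add_two] at h
  rw [wB_eq T.C.tw u]
  omega

/-- A pinch can be removed without increasing the weight. -/
theorem transfer (b : Bool) {u : SW τ}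
    (hu : wev (bl T.tv) u ∈ HNNRed.side D.sideA D.sideB b) :
    ∃ v, wsum (wB T.C.tw) v ≤ wsum (wB T.C.tw) u ∧
      HNNRed.tE D.equiv b * HNNExtension.of (wev (bl T.tv) u) * HNNRed.tE D.equiv (!b) =
        HNNExtension.of (wev (bl T.tv) v) := by
  cases b
  · obtain ⟨W, hW, e⟩ := (mem_range_lift D.bGen).1 hu
    obtain ⟨v, hv, hle⟩ := T.b_side hW e.symm
    refine ⟨v, hle, ?_⟩
    rw [hv, ← e, ← D.t_conj_wev W]
    simp [HNNRed.tE, mul_assoc]
  · obtain ⟨W, hW, e⟩ := (mem_range_lift D.aGen).1 hu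
    obtain ⟨v, hv, hle⟩ := T.a_side hW e.symm
    refine ⟨v, hle, ?_⟩
    rw [hv, ← e, ← D.t_conj_wev W]
    simp [HNNRed.tE]

theorem tE_step (b : Bool) (w : Wd (EL τ)) :
    wev (D.eVal T.tv) ((Sum.inr 4, b) :: w) = HNNRed.tE D.equiv b * wev (D.eVal T.tv) w := by
  rw [wev_cons']
  cases b <;> simp [HNNRed.tE, eVal, five_four]

/-- Every word has a pinch-free form with the same value and no bigger weight. -/
theorem reduce (w : Wd (EL τ)) :
    ∃ f : EForm τ, D.Red T.tv f ∧ D.fVal T.tv f = wev (D.eVal T.tv) w ∧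
      formW T.C.tw f ≤ wsum (wE T.C.tw) w := by
  classical
  induction w with
  | nil =>
    exact ⟨([], []), HNNRed.pf_nil, by simp [fVal, vlist, HNNRed.hval, HNNRed.prodT],
      by simp [formW, segs]⟩
  | cons l w ih =>
    obtain ⟨⟨s, r⟩, hred, hval, hw⟩ := ih
    obtain ⟨c, b⟩ := l
    have letter : ∀ c' : τ ⊕ Fin 4, c = Sum.map id Fin.castSucc c' →
        ∃ f : EForm τ, D.Red T.tv f ∧ D.fVal T.tv f = wev (D.eVal T.tv) ((c, b) :: w) ∧
          formW T.C.tw f ≤ wsum (wE T.C.tw) ((c, b) :: w) := by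
      intro c' hc
      have h1 : D.eVal T.tv c = HNNExtension.of (bl T.tv c') := by
        subst hc
        obtain k | i := c'
        · rfl
        · simp [eVal, bl, five_castSucc]
      have h2 : wE T.C.tw c = wB T.C.tw c' := by
        subst hc
        obtain k | i := c'
        · rfl
        · fin_cases i <;> rfl
      refine ⟨((c', b) :: s, r), hred, ?_, ?_⟩
      · rw [wev_cons', ← hval]
        simp only [fVal, HNNRed.hval, wev_cons' (bl T.tv), h1, map_mul, ← mul_assoc]
        cases b <;> simp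
      · simp [formW, segs, h2] at hw ⊢
        omega
    rcases c with k | j
    · exact letter (Sum.inl k) rfl
    · rcases Fin.eq_castSucc_or_eq_last j with ⟨i, rfl⟩ | rfl
      · exact letter (Sum.inr i) rfl
      rw [show (Fin.last 4 : Fin 5) = 4 from rfl]
      have hw4 : wsum (wE T.C.tw) ((Sum.inr 4, b) :: w) = wsum (wE T.C.tw) w := by
        simp [wE, w5]
      rw [T.tE_step, hw4, ← hval]
      by_cases hc : wev (bl T.tv) s ∈ HNNRed.side D.sideA D.sideB b ∧
          r.head?.map Prod.fst = some (!b)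
      · obtain ⟨hs, hb⟩ := hc
        match r, hb, hred, hw with
        | (b', s1) :: r', hb, hred, hw =>
          simp only [List.head?_cons, Option.map_some, Option.some.injEq] at hb
          subst hb
          obtain ⟨v, hle, hv⟩ := T.transfer b hs
          refine ⟨(v ++ s1, r'), (HNNRed.pf_cons.1 hred).2, ?_, ?_⟩
          · simp only [fVal, HNNRed.hval, vlist, List.map_cons, HNNRed.prodT, wev_append, map_mul,
              ← hv, mul_assoc]
          · simp [formW, segs] at hw ⊢
            omega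
      · refine ⟨([], (b, s) :: r), HNNRed.pf_cons.2 ⟨fun q hq hs => ?_, hred⟩, ?_, ?_⟩
        · by_contra hne
          refine hc ⟨hs, ?_⟩
          simp only [vlist, List.head?_map, Option.mem_def, Option.map_eq_some_iff] at hq
          obtain ⟨a, ha, rfl⟩ := hq
          simp only [ha, Option.map_some, Option.some.injEq]
          revert hne; cases b <;> cases a.1 <;> simp
        · simp [fVal, HNNRed.hval, vlist, HNNRed.prodT, mul_assoc]
        · simpa [formW, segs] using hw

end Toks

theorem form_nil_of {tv : τ → P} {f : EForm τ} (h : D.Red tv f) {x : Base P}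
    (e : D.fVal tv f = HNNExtension.of x) : f.2 = [] ∧ wev (bl tv) f.1 = x := by
  obtain ⟨h1, h2⟩ := HNNRed.nil_of D.equiv h e
  exact ⟨List.map_eq_nil_iff.1 h1, h2⟩

namespace Toks

variable {D} (T : Toks D τ)

/-- A word with value in `P` gives a token word for that value of no bigger weight. -/
theorem inP_word {w : Wd (EL τ)} {x : P} (h : wev (D.eVal T.tv) w = D.inP x) :
    ∃ v : Wd τ, wev T.tv v = x ∧ wsum T.C.tw v ≤ wsum (wE T.C.tw) w := by
  obtain ⟨f, hf, hval, hw⟩ := T.reduce w
  obtain ⟨-, hs⟩ := form_nil_of D hf (hval.trans h)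
  obtain ⟨b, hb, hbv, hbw⟩ := exists_blocks T.tv T.C.tw f.1
  obtain ⟨-, h1⟩ := blk_nil T.tv hb (hbv.trans hs)
  refine ⟨b.1, h1, ?_⟩
  have h2 := wsum_le_btW T.C.tw (b := b) (v := b.1) (by simp [toks])
  have h3 := tokW_le T.C.tw f.1
  have h4 := seg_le_formW T.C.tw (f := f) (s := f.1) (by simp [segs])
  omega

end Toks

/-- The entries. -/
abbrev valSub : Subgroup P := Subgroup.closure (Set.range D.val)

theorem sideA_le (S : Subgroup P) : D.sideA ≤ CoprodNF.withQ S := by
  rw [sideA, FreeGroup.range_lift_eq_closure, Subgroup.closure_le]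
  rintro _ ⟨i, rfl⟩
  exact Subgroup.subset_closure (Or.inr ⟨_, rfl⟩)

theorem sideB_le : D.sideB ≤ CoprodNF.withQ D.valSub := by
  rw [sideB, FreeGroup.range_lift_eq_closure, Subgroup.closure_le]
  rintro _ ⟨i, rfl⟩
  exact Subgroup.mul_mem _ (Subgroup.mul_mem _ (Subgroup.subset_closure (Or.inr ⟨_, rfl⟩))
    (Subgroup.subset_closure (Or.inl ⟨_, Subgroup.subset_closure ⟨i, rfl⟩, rfl⟩)))
    (Subgroup.subset_closure (Or.inr ⟨_, rfl⟩))

theorem closure_five :
    Subgroup.closure (Set.range D.five) = HNNRed.withT D.equiv (CoprodNF.withQ D.valSub) := by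
  refine le_antisymm ?_ ?_
  · rw [Subgroup.closure_le]
    rintro _ ⟨j, rfl⟩
    refine Fin.lastCases ?_ (fun i => ?_) j
    · exact Subgroup.subset_closure (Or.inr D.five_four)
    · rw [five_castSucc]
      exact Subgroup.subset_closure
        (Or.inl ⟨_, Subgroup.subset_closure (Or.inr ⟨_, rfl⟩), rfl⟩)
  · have ht : (HNNExtension.t : D.Emb) ∈ Subgroup.closure (Set.range D.five) :=
      D.five_four ▸ Subgroup.subset_closure ⟨4, rfl⟩
    have h4 : ∀ x : F4, (HNNExtension.of (Coprod.inr x) : D.Emb) ∈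
        Subgroup.closure (Set.range D.five) := by
      intro x
      have hx : x ∈ Subgroup.closure (Set.range (FreeGroup.of : Fin 4 → F4)) := by simp
      refine (Subgroup.closure_le (K := (Subgroup.closure (Set.range D.five)).comap
        ((HNNExtension.of (φ := D.equiv)).comp Coprod.inr))).2 ?_ hx
      rintro _ ⟨i, rfl⟩
      exact Subgroup.subset_closure ⟨i.castSucc, D.five_castSucc i⟩
    rw [HNNRed.withT, Subgroup.closure_le]
    rintro _ (⟨x, hx, rfl⟩ | rfl)
    · refine (Subgroup.closure_le (K := (Subgroup.closure (Set.range D.five)).comap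
        (HNNExtension.of (φ := D.equiv)))).2 ?_ hx
      rintro _ (⟨p, hp, rfl⟩ | ⟨q, rfl⟩)
      · refine (Subgroup.closure_le (K := (Subgroup.closure (Set.range D.five)).comap D.inP)).2 ?_ hp
        rintro _ ⟨i, rfl⟩
        have e : D.inP (D.val i) =
            (HNNExtension.of (Coprod.inr (FreeGroup.of 1 ^ D.code i * FreeGroup.of 3)))⁻¹ *
              ((HNNExtension.t : D.Emb) * HNNExtension.of (D.aGen i) * HNNExtension.t⁻¹) *
              (HNNExtension.of (Coprod.inr (FreeGroup.of 3 * (FreeGroup.of 1 ^ D.code i)⁻¹)))⁻¹ := by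
          rw [D.t_conj, mul_inv_cancel_right]
          simp [bGen, inP, mul_assoc]
        rw [SetLike.mem_coe, Subgroup.mem_comap, e]
        exact Subgroup.mul_mem _ (Subgroup.mul_mem _ (Subgroup.inv_mem _ (h4 _))
          (Subgroup.mul_mem _ (Subgroup.mul_mem _ ht (h4 _)) (Subgroup.inv_mem _ ht)))
          (Subgroup.inv_mem _ (h4 _))
      · exact h4 q
    · exact ht

/-- Membership in `⟨a, c, e, f, t⟩` is decided segment by segment. -/
theorem mem_five_iff {tv : τ → P} {f : EForm τ} (h : D.Red tv f) :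
    D.fVal tv f ∈ Subgroup.closure (Set.range D.five) ↔
      ∀ s ∈ segs f, wev (bl tv) s ∈ CoprodNF.withQ D.valSub := by
  rw [closure_five, fVal, HNNRed.mem_withT_iff D.equiv (D.sideA_le _) D.sideB_le h]
  simp only [HNNRed.AllIn, segs, vlist, List.forall_mem_cons, List.forall_mem_map]

end Vale.P193.EmbData
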