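import Vale.Agent.P193.Gen.EmbWeight

/-!
P193 M6: definitions for words in an embedding extension: tokens, forms, blocks, and the certificate formulas.
Everything except `eVal` and `Toks` is syntax, so that it can be used uniformly in parameters.

Interface theorems (proved in `Gen/EmbRed.lean`, `Gen/EmbCert.lean`, for `T : Toks D τ`):
* `T.reduce`: every word `w` has a pinch-free form with the same value, of weight at most that of `w`.
* `T.nil_of`: a pinch-free form whose value is in the base has no stable letter.
* `T.inP_word`: a word with value `inP x` gives a token word for `x` of no bigger weight.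
* `T.mem_five_iff`: membership in `⟨a, c, e, f, t⟩` is decided segment by segment, block by block.
* `negE_sound`, `negE_complete`, `notP_sound`, `notP_complete`, `notQ_sound`, `notQ_complete`,
  with atoms `NP v`, `NS v` on token words of weight at most twice that of the word.
-/

namespace Vale.P193

namespace EmbData

open Monoid

variable {τ : Type}

/-- Alphabet: tokens and the five letters `a, c, e, f, t`. -/
abbrev EL (τ : Type) := τ ⊕ Fin 5

/-- A segment: a word in tokens and the four free letters. -/
abbrev SW (τ : Type) := Wd (τ ⊕ Fin 4)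

/-- A form: a first segment, then signed stable letters each followed by a segment. -/
abbrev EForm (τ : Type) := SW τ × List (Bool × SW τ)

/-- Blocks: a token word, then pairs of a free word and a token word. -/
abbrev Blk (τ : Type) := Wd τ × List (Wd (Fin 4) × Wd τ)

/-- Weight of the five letters: `1` for `e` and `f`. -/
def w5 (j : Fin 5) : ℕ := if j = 2 ∨ j = 3 then 1 else 0

/-- Weight on the whole alphabet. -/
def wE (tw : τ → ℕ) : EL τ → ℕ
  | .inl k => tw k
  | .inr j => w5 j

/-- A segment as a word in the whole alphabet. -/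
def up (u : SW τ) : Wd (EL τ) := u.map fun l => (Sum.map id Fin.castSucc l.1, l.2)

/-- A token word as a segment. -/
def inT (v : Wd τ) : SW τ := v.map fun l => (Sum.inl l.1, l.2)

/-- A free word as a segment. -/
def in4 (x : Wd (Fin 4)) : SW τ := x.map fun l => (Sum.inr l.1, l.2)

/-- The free letters of a segment. -/
def x4 (u : SW τ) : Wd (Fin 4) := u.filterMap fun l => l.1.getRight?.map fun j => (j, l.2)

/-- A form as a word. -/
def formWord (f : EForm τ) : Wd (EL τ) :=
  up f.1 ++ f.2.flatMap fun p => (Sum.inr 4, p.1) :: up p.2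

/-- All segments of a form. -/
def segs (f : EForm τ) : List (SW τ) := f.1 :: f.2.map Prod.snd

/-- Weight of a form. -/
def formW (tw : τ → ℕ) (f : EForm τ) : ℕ := ((segs f).map fun s => wsum (wB tw) s).sum

/-- Blocks as a segment. -/
def blkWord (b : Blk τ) : SW τ := inT b.1 ++ b.2.flatMap fun x => in4 x.1 ++ inT x.2

/-- All token words of the blocks. -/
def toks (b : Blk τ) : List (Wd τ) := b.1 :: b.2.map Prod.snd

/-- The entries as seen from their codes: weights and token words of the values. -/
structure Codes (τ : Type) where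
  /-- Weights of the tokens. -/
  tw : τ → ℕ
  /-- The weight of the entry with the given code, if there is one. -/
  wt : ℕ → Option ℕ
  /-- A token word for the value of the entry with the given code. -/
  rep : ℕ → Wd τ

/-- `x^n body x^(-n)`. -/
def conjW (x : Fin 4) (n : ℕ) (body : SW τ) : SW τ :=
  List.replicate n (Sum.inr x, true) ++ body ++ List.replicate n (Sum.inr x, false)

/-- A word in generators given by segments. -/
def genWord (g : ℕ → SW τ) (Ξ : Wd ℕ) : SW τ := Ξ.flatMap fun l => if l.2 then g l.1 else winv (g l.1)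

variable (C : Codes τ)

/-- The `A`-side generator with code `n`. -/
def aWord1 (n : ℕ) : SW τ := conjW 0 n (List.replicate ((C.wt n).getD 0 + 2) (Sum.inr 2, true))

/-- The `B`-side generator with code `n`. -/
def bWord1 (n : ℕ) : SW τ := conjW 1 n ((Sum.inr 3, true) :: inT (C.rep n) ++ [(Sum.inr 3, true)])

/-- Total weight of the entries of a code word. -/
def codeW (Ξ : Wd ℕ) : ℕ := wsum (fun n => (C.wt n).getD 0) Ξ

/-- `Ξ` is a reduced word in valid codes with the same free part as `u`. -/
def Shape (g : ℕ → SW τ) (u : SW τ) (Ξ : Wd ℕ) : Prop :=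
  FreeGroup.IsReduced Ξ ∧ (∀ l ∈ Ξ, (C.wt l.1).isSome) ∧
    FreeGroup.mk (x4 (genWord g Ξ)) = FreeGroup.mk (x4 u)

/-- All words of length at most `k` in the codes up to `n`. -/
def cands (n : ℕ) : ℕ → List (Wd ℕ)
  | 0 => [[]]
  | k + 1 => [] :: (cands n k).flatMap fun W =>
      (List.range (n + 1)).flatMap fun c => [(c, true) :: W, (c, false) :: W]

/-- No code word has the free part of `u`; a bounded search. -/
def NoShape (g : ℕ → SW τ) (u : SW τ) : Prop := ∀ Ξ ∈ cands u.length u.length, ¬ Shape C g u Ξ

section Certs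

variable (NP NS : Wd τ → Prop) (Dr : Wd (EL τ) → Prop)

/-- Certified blocks of a segment. -/
def BlkCert (Pz : Blk τ → Prop) (u : SW τ) : Prop :=
  ∃ b : Blk τ, Dr (weq (up u) (up (blkWord b))) ∧ (∀ x ∈ b.2, FreeGroup.mk x.1 ≠ 1) ∧
    (∀ x ∈ b.2.dropLast, NP x.2) ∧ Pz b

/-- The segment is `≠ 1`. -/
def BlockNe (u : SW τ) : Prop := BlkCert NP Dr (fun b => b.2 ≠ [] ∨ NP b.1) u

/-- The segment is outside the `A`-side. -/
def NotA (u : SW τ) : Prop :=
  NoShape C (aWord1 C) u ∨ BlockNe NP Dr (u ++ winv (in4 (x4 u)))

/-- The segment is outside the `B`-side. -/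
def NotB (u : SW τ) : Prop :=
  NoShape C (bWord1 C) u ∨ ∃ Ξ, Shape C (bWord1 C) u Ξ ∧
    (wsum (tokW C.tw) u < codeW C Ξ ∨ BlockNe NP Dr (u ++ winv (genWord (bWord1 C) Ξ)))

/-- The segment after a stable letter of sign `b` does not pinch with the opposite sign. -/
def NotSide (b : Bool) (u : SW τ) : Prop := if b then NotA C NP Dr u else NotB C NP Dr u

/-- A certified pinch-free form of the word. -/
def FormCert (Pz : EForm τ → Prop) (w : Wd (EL τ)) : Prop :=
  ∃ f : EForm τ, Dr (weq w (formWord f)) ∧
    (∀ q ∈ f.2.zip f.2.tail, q.1.1 = q.2.1 ∨ NotSide C NP Dr q.1.1 q.1.2) ∧ Pz f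

/-- Certificate for `≠ 1`. -/
def NegE (w : Wd (EL τ)) : Prop :=
  FormCert C NP Dr (fun f => f.2 ≠ [] ∨ BlockNe NP Dr f.1) w

/-- Certificate for lying outside `inP '' S`, where `NS` refutes membership in `S`. -/
def NotP (w : Wd (EL τ)) : Prop :=
  FormCert C NP Dr (fun f => f.2 ≠ [] ∨ BlkCert NP Dr (fun b => b.2 ≠ [] ∨ NS b.1) f.1) w

/-- Certificate for lying outside `⟨a, c, e, f, t⟩`, where `NS` refutes membership in `⟨values⟩`. -/
def NotQ (w : Wd (EL τ)) : Prop :=
  FormCert C NP Dr (fun f => ∃ s ∈ segs f, BlkCert NP Dr (fun b => ∃ v ∈ toks b, NS v) s) w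

end Certs

variable {P : Type} [Group P] (D : EmbData P)

/-- Values of the letters. -/
noncomputable def eVal (tv : τ → P) : EL τ → D.Emb
  | .inl k => D.inP (tv k)
  | .inr j => D.five j

/-- Tokens for the entries: the lower bound says that no lighter token word equals a value. -/
structure Toks (τ : Type) where
  /-- Values of the tokens. -/
  tv : τ → P
  /-- Their codes. -/
  C : Codes τ
  wt_iff : ∀ n k, C.wt n = some k ↔ ∃ i, D.code i = n ∧ D.m i = k
  rep_val : ∀ i, wev tv (C.rep (D.code i)) = D.val i
  rep_w : ∀ i, wsum C.tw (C.rep (D.code i)) ≤ D.m i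
  lb : ∀ i v, wev tv v = D.val i → D.m i ≤ wsum C.tw v

end EmbData

end Vale.P193
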