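import Vale.Agent.P193.Gen.EmbRed

/-!
P193 M6: the two sides of an embedding extension recognised by a bounded search over code words.
-/

namespace Vale.P193.EmbData

open Monoid

variable {P : Type} [Group P] {τ : Type}

/-- All indices in the reduced word are at most `N` in absolute value. -/
def Small (N : ℕ) (x : FreeGroup ℤ) : Prop := ∀ l ∈ x.toWord, l.1.natAbs ≤ N

theorem small_mul {N : ℕ} {x y : FreeGroup ℤ} (hx : Small N x) (hy : Small N y) :
    Small N (x * y) := fun l hl =>
  (List.mem_append.1 ((FreeGroup.toWord_mul_sublist x y).subset hl)).elim (hx l) (hy l)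

theorem small_shift {N : ℕ} {x : FreeGroup ℤ} (hx : Small N x) (n : Multiplicative ℤ)
    (hn : n.toAdd.natAbs ≤ 1) : Small (N + 1) (shift n x) := by
  intro l hl
  have e : shift n x = FreeGroup.mk (x.toWord.map fun p => (n.toAdd + p.1, p.2)) := by
    show FreeGroup.map (Equiv.addLeft n.toAdd) x = _
    conv_lhs => rw [← FreeGroup.mk_toWord (x := x), FreeGroup.map.mk]
    rfl
  rw [e, FreeGroup.toWord_mk] at hl
  obtain ⟨p, hp, rfl⟩ :=
    List.mem_map.1 ((FreeGroup.Red.sublist (FreeGroup.reduce.red)).subset hl)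
  have := hx p hp
  simp only
  omega

theorem sep_small (tv : τ → P) {j l : Fin 4} (hjl : j ≠ l) (u : SW τ) :
    Small u.length (sep (P := P) j l (wev (bl tv) u)).left := by
  induction u with
  | nil => intro p hp; simp at hp
  | cons c u ih =>
    rw [wev_cons', map_mul, SemidirectProduct.mul_left]
    refine small_mul ?_ (small_shift ih _ ?_)
    · obtain ⟨x | i, b⟩ := c
      · cases b <;> simp [Small, bl, sep]
      · by_cases h1 : i = j
        · subst h1
          cases b <;> simp [Small, bl, sep]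
        · by_cases h2 : i = l
          · subst h2
            cases b <;> simp [Small, bl, sep, h1, FreeGroup.toWord_inv, FreeGroup.invRev]
          · cases b <;> simp [Small, bl, sep, h1, h2]
    · obtain ⟨x | i, b⟩ := c
      · cases b <;> simp [bl, sep]
      · by_cases h1 : i = j
        · subst h1
          cases b <;> simp [bl, sep]
        · by_cases h2 : i = l
          · subst h2
            cases b <;> simp [bl, sep, h1]
          · cases b <;> simp [bl, sep, h1, h2]

theorem sep_snd (j l : Fin 4) (x : Base P) :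
    sep (P := P) j l (Coprod.inr (Coprod.snd x)) = sep j l x := by
  have h : ((sep (P := P) j l).comp ((Coprod.inr : F4 →* Base P).comp (Coprod.snd : Base P →* F4))) = sep j l := by
    refine Coprod.hom_ext ?_ ?_
    · exact MonoidHom.ext fun p => by simp [sep]
    · exact MonoidHom.ext fun p => by simp
  exact DFunLike.congr_fun h x

theorem wsum_le_length {α : Type*} {f : α → ℕ} (hf : ∀ a, f a ≤ 1) (w : Wd α) :
    wsum f w ≤ w.length := by
  induction w with
  | nil => simp
  | cons l w ih => have := hf l.1; simp; omega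

theorem mem_cands {n : ℕ} : ∀ {k : ℕ} {Ξ : Wd ℕ}, Ξ.length ≤ k → (∀ l ∈ Ξ, l.1 ≤ n) →
    Ξ ∈ cands n k := by
  intro k
  induction k with
  | zero => intro Ξ h _; simp [List.length_eq_zero_iff.1 (by omega : Ξ.length = 0), cands]
  | succ k ih =>
    intro Ξ h hb
    cases Ξ with
    | nil => simp [cands]
    | cons l r =>
      obtain ⟨c, b⟩ := l
      simp only [cands, List.mem_cons, reduceCtorEq, List.mem_flatMap, false_or]
      refine ⟨r, ih (by simpa using h) fun x hx => hb x (by simp [hx]), c,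
        List.mem_range.2 (Nat.lt_succ_of_le (hb (c, b) (by simp))), ?_⟩
      cases b <;> simp

variable {D : EmbData P}

theorem inr_snd_aGen (W : Wd D.ι) :
    (Coprod.inr (Coprod.snd (wev D.aGen W)) : Base P) = wev D.aGen W := by
  rw [hom_wev, hom_wev]
  congr 1

theorem cw_cands (tv : τ → P) {u : SW τ} {W : Wd D.ι} {x y : Fin 4} (hxy : x ≠ y) {k : D.ι → ℕ}
    (hk : ∀ i, 1 ≤ k i) {gen : D.ι → Base P}
    (hsep : (sep (P := P) x y (wev gen W)).left.toWord = expand k (fun i => (D.code i : ℤ)) W)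
    (e : Coprod.snd (wev gen W) = FreeGroup.mk (x4 u)) :
    D.cw W ∈ cands u.length u.length := by
  have e2 : sep (P := P) x y (wev (bl tv) u) = sep x y (wev gen W) := by
    rw [← sep_snd x y (wev (bl tv) u), ← sep_snd x y (wev gen W), snd_bl, e]
  refine mem_cands ?_ ?_
  · have h := sep_norm_le tv hxy u
    rw [e2, FreeGroup.norm, hsep, length_expand] at h
    have h1 : W.length ≤ wsum k W := by
      clear h hsep e e2
      induction W with
      | nil => simp
      | cons l W ih => have := hk l.1; simp; omega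
    have h2 : wsum (occ y) u ≤ u.length :=
      wsum_le_length (fun a => by
        obtain a | a := a
        · simp [occ]
        · simp only [occ]; split <;> omega) u
    simp only [cw, List.length_map]
    omega
  · intro l hl
    obtain ⟨p, hp, rfl⟩ := List.mem_map.1 hl
    have h := sep_small tv hxy u
    rw [e2] at h
    have := h ((D.code p.1 : ℤ), p.2) (by
      rw [hsep]
      simp only [expand, List.mem_flatMap]
      exact ⟨p, hp, List.mem_replicate.2 ⟨by have := hk p.1; omega, rfl⟩⟩)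
    simpa using this

namespace Toks

variable (T : Toks D τ)

theorem exists_cw : ∀ {Ξ : Wd ℕ}, (∀ l ∈ Ξ, (T.C.wt l.1).isSome) → ∃ W : Wd D.ι, D.cw W = Ξ := by
  intro Ξ
  induction Ξ with
  | nil => exact fun _ => ⟨[], rfl⟩
  | cons l r ih =>
    intro h
    obtain ⟨W, rfl⟩ := ih fun x hx => h x (by simp [hx])
    obtain ⟨k, hk⟩ := Option.isSome_iff_exists.1 (h l (by simp))
    obtain ⟨i, hi, -⟩ := (T.wt_iff _ _).1 hk
    exact ⟨(i, l.2) :: W, by simp [cw, hi]⟩

theorem codeW_cw (W : Wd D.ι) : codeW T.C (D.cw W) = wsum D.m W := by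
  rw [codeW, cw, wsum_map]
  simp [T.wt_code]

theorem shape_iff {g : ℕ → SW τ} {gen : D.ι → Base P}
    (hg : ∀ i, wev (bl T.tv) (g (D.code i)) = gen i) (u : SW τ) (Ξ : Wd ℕ) :
    Shape T.C g u Ξ ↔ ∃ W : Wd D.ι, D.cw W = Ξ ∧ FreeGroup.IsReduced W ∧
      Coprod.snd (wev gen W) = FreeGroup.mk (x4 u) := by
  constructor
  · rintro ⟨hr, hv, he⟩
    obtain ⟨W, rfl⟩ := T.exists_cw hv
    refine ⟨W, rfl, D.cw_reduced.1 hr, ?_⟩
    rw [← he, ← snd_bl T.tv, wev_genWord D T.tv hg]
  · rintro ⟨W, rfl, hW, he⟩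
    refine ⟨D.cw_reduced.2 hW, fun l hl => ?_, ?_⟩
    · obtain ⟨p, -, rfl⟩ := List.mem_map.1 hl
      simp [T.wt_code]
    · rw [← he, ← wev_genWord D T.tv hg, snd_bl]

theorem shape_a_mem {u : SW τ} (h : wev (bl T.tv) u ∈ D.sideA) :
    ∃ Ξ ∈ cands u.length u.length, Shape T.C (aWord1 T.C) u Ξ := by
  obtain ⟨W, hW, e⟩ := (mem_range_lift D.aGen).1 h
  have e2 : Coprod.snd (wev D.aGen W) = FreeGroup.mk (x4 u) := by rw [e, snd_bl]
  exact ⟨D.cw W, cw_cands T.tv (by decide) (fun i => by omega) (D.toWord_aSep hW) e2,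
    (T.shape_iff T.wev_aWord1 u _).2 ⟨W, rfl, hW, e2⟩⟩

theorem shape_b_mem {u : SW τ} (h : wev (bl T.tv) u ∈ D.sideB) :
    ∃ Ξ ∈ cands u.length u.length, Shape T.C (bWord1 T.C) u Ξ := by
  obtain ⟨W, hW, e⟩ := (mem_range_lift D.bGen).1 h
  have e2 : Coprod.snd (wev D.bGen W) = FreeGroup.mk (x4 u) := by rw [e, snd_bl]
  exact ⟨D.cw W, cw_cands T.tv (by decide) (fun i => by omega) (D.toWord_bSep hW) e2,
    (T.shape_iff T.wev_bWord1 u _).2 ⟨W, rfl, hW, e2⟩⟩

/-- The `A`-side is the set of free elements with a shape. -/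
theorem mem_sideA {u : SW τ} {Ξ : Wd ℕ} (h : Shape T.C (aWord1 T.C) u Ξ) :
    wev (bl T.tv) u ∈ D.sideA ↔ wev (bl T.tv) u = Coprod.inr (FreeGroup.mk (x4 u)) := by
  constructor
  · intro hu
    obtain ⟨W, -, e⟩ := (mem_range_lift D.aGen).1 hu
    rw [← snd_bl T.tv, ← e, inr_snd_aGen]
  · intro e
    obtain ⟨W, -, hW, he⟩ := (T.shape_iff T.wev_aWord1 u Ξ).1 h
    refine (mem_range_lift D.aGen).2 ⟨W, hW, ?_⟩
    rw [e, ← he, inr_snd_aGen]

/-- The free part determines the word on the `B`-side. -/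
theorem mem_sideB {u : SW τ} {Ξ : Wd ℕ} (h : Shape T.C (bWord1 T.C) u Ξ) :
    wev (bl T.tv) u ∈ D.sideB ↔ wev (bl T.tv) u = wev (bl T.tv) (genWord (bWord1 T.C) Ξ) ∧
      codeW T.C Ξ ≤ wsum (tokW T.C.tw) u := by
  obtain ⟨W, rfl, hW, he⟩ := (T.shape_iff T.wev_bWord1 u Ξ).1 h
  rw [wev_genWord D T.tv T.wev_bWord1, T.codeW_cw]
  constructor
  · intro hu
    obtain ⟨W', hW', e⟩ := (mem_range_lift D.bGen).1 hu
    have e2 : sep (P := P) 1 3 (wev D.bGen W) = sep 1 3 (wev D.bGen W') := by
      rw [← sep_snd 1 3 (wev D.bGen W), ← sep_snd 1 3 (wev D.bGen W'), he, e, snd_bl]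
    have e3 : expand (fun _ => 2) (fun i => (D.code i : ℤ)) W =
        expand (fun _ => 2) (fun i => (D.code i : ℤ)) W' := by
      rw [← D.toWord_bSep hW, ← D.toWord_bSep hW', e2]
    have e4 : W = W' := by
      clear e2 e hu hW hW' he h
      induction W generalizing W' with
      | nil =>
        cases W' with
        | nil => rfl
        | cons a r => simp [expand, List.replicate_succ] at e3
      | cons a r ih =>
        cases W' with
        | nil => simp [expand, List.replicate_succ] at e3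
        | cons a' r' =>
          simp only [expand, List.flatMap_cons, List.replicate_succ, List.replicate_zero,
            List.cons_append, List.nil_append, List.cons.injEq, Prod.mk.injEq] at e3
          obtain ⟨⟨h1, h2⟩, -, h3⟩ := e3
          rw [ih r' h3, Prod.ext (D.code_cast_inj h1) h2]
    subst e4
    exact ⟨e.symm, D.count_tok T.tv T.C.tw T.lb hW e.symm⟩
  · rintro ⟨e, -⟩
    exact (mem_range_lift D.bGen).2 ⟨W, hW, e.symm⟩

end Toks

end Vale.P193.EmbData
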