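import Vale.Agent.P193.WordLemmas
import Mathlib.Algebra.Group.Pi.Lemmas
import Mathlib.Tactic.Group
import Mathlib.Tactic.FinCases

/-!
P193: words in tokens and the four free letters, their weights, and the weight bounds for the two
associated subgroups of an embedding extension.
-/

namespace Vale.P193

open Monoid

/-- Sum of the weights of the letters. -/
def wsum {α : Type*} (f : α → ℕ) (w : Wd α) : ℕ := (w.map fun l => f l.1).sum

@[simp] theorem wsum_nil {α : Type*} (f : α → ℕ) : wsum f [] = 0 := rfl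

@[simp] theorem wsum_cons {α : Type*} (f : α → ℕ) (l : α × Bool) (w : Wd α) :
    wsum f (l :: w) = f l.1 + wsum f w := rfl

@[simp] theorem wsum_append {α : Type*} (f : α → ℕ) (u v : Wd α) :
    wsum f (u ++ v) = wsum f u + wsum f v := by simp [wsum]

@[simp] theorem wsum_invRev {α : Type*} (f : α → ℕ) (w : Wd α) :
    wsum f (FreeGroup.invRev w) = wsum f w := by
  simp [wsum, FreeGroup.invRev, List.map_reverse, Function.comp_def]

theorem wsum_replicate {α : Type*} (f : α → ℕ) (k : ℕ) (l : α × Bool) :
    wsum f (List.replicate k l) = k * f l.1 := by simp [wsum]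

theorem wsum_map {α β : Type*} (f : β → ℕ) (c : α → β) (w : Wd α) :
    wsum f (w.map fun l => (c l.1, l.2)) = wsum (fun a => f (c a)) w := by
  simp [wsum, Function.comp_def]

theorem wev_cons' {α G : Type*} [Group G] (f : α → G) (l : α × Bool) (w : Wd α) :
    wev f (l :: w) = cond l.2 (f l.1) (f l.1)⁻¹ * wev f w := by
  rw [← List.singleton_append, wev_append]
  simp [wev, FreeGroup.lift_mk]

@[simp] theorem wev_invRev {α G : Type*} [Group G] (f : α → G) (w : Wd α) :
    wev f (FreeGroup.invRev w) = (wev f w)⁻¹ := by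
  simp [wev, ← FreeGroup.inv_mk]

theorem wev_replicate {α G : Type*} [Group G] (f : α → G) (k : ℕ) (a : α) (b : Bool) :
    wev f (List.replicate k (a, b)) = cond b (f a) (f a)⁻¹ ^ k := by
  induction k with
  | zero => simp
  | succ k ih => rw [List.replicate_succ, wev_cons', ih, pow_succ']

/-- Each letter replaced by a block of copies of one letter. -/
def expand {ι β : Type*} (k : ι → ℕ) (c : ι → β) (W : Wd ι) : Wd β :=
  W.flatMap fun l => List.replicate (k l.1) (c l.1, l.2)

theorem mk_expand {ι β : Type*} (k : ι → ℕ) (c : ι → β) (W : Wd ι) :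
    FreeGroup.mk (expand k c W) = wev (fun i => FreeGroup.of (c i) ^ k i) W := by
  induction W with
  | nil => simp [expand, ← FreeGroup.one_eq_mk]
  | cons l W ih =>
    obtain ⟨i, b⟩ := l
    rw [wev_cons', ← ih, expand, List.flatMap_cons, ← FreeGroup.mul_mk]
    congr 1
    have : ∀ n, FreeGroup.mk (List.replicate n (c i, b)) =
        cond b (FreeGroup.of (c i) ^ n) ((FreeGroup.of (c i) ^ n)⁻¹) := by
      intro n
      induction n with
      | zero => cases b <;> simp [← FreeGroup.one_eq_mk]
      | succ n ih2 =>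
        rw [List.replicate_succ', ← FreeGroup.mul_mk, ih2]
        cases b
        · rw [cond_false, cond_false, pow_succ', mul_inv_rev]
          rfl
        · rw [cond_true, cond_true, pow_succ]
          rfl
    exact this _

theorem expand_reduced {ι β : Type*} {k : ι → ℕ} (hk : ∀ i, 1 ≤ k i) {c : ι → β}
    (hc : Function.Injective c) {W : Wd ι} (hW : FreeGroup.IsReduced W) :
    FreeGroup.IsReduced (expand k c W) := by
  rw [expand, List.flatMap_def, FreeGroup.IsReduced, List.isChain_flatten]
  · refine ⟨?_, ?_⟩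
    · intro l hl
      obtain ⟨a, -, rfl⟩ := List.mem_map.1 hl
      exact List.isChain_replicate_of_rel _ fun _ => rfl
    · rw [List.isChain_map]
      refine List.IsChain.imp ?_ hW
      intro a b hab p hp q hq
      have ha : k a.1 ≠ 0 := by have := hk a.1; omega
      have hb : k b.1 ≠ 0 := by have := hk b.1; omega
      simp only [List.getLast?_replicate, List.head?_replicate, ha, hb, if_false,
        Option.mem_def, Option.some.injEq] at hp hq
      subst hp; subst hq
      exact fun h => hab (hc h)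
  · intro h
    obtain ⟨a, -, ha⟩ := List.mem_map.1 h
    have := hk a.1
    simp at ha; omega

theorem toWord_expand {ι β : Type*} [DecidableEq β] {k : ι → ℕ} (hk : ∀ i, 1 ≤ k i) {c : ι → β}
    (hc : Function.Injective c) {W : Wd ι} (hW : FreeGroup.IsReduced W) :
    (wev (fun i => FreeGroup.of (c i) ^ k i) W).toWord = expand k c W := by
  rw [← mk_expand, FreeGroup.toWord_mk, (expand_reduced hk hc hW).reduce_eq]

namespace EmbData

variable {P : Type} [Group P]

/-- `F(ℤ) ⋊ ℤ`, the target of the separating maps. -/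
abbrev S2 := FreeGroup ℤ ⋊[shift] Multiplicative ℤ

theorem norm_shift_le (n : Multiplicative ℤ) (x : FreeGroup ℤ) :
    (shift n x).norm ≤ x.norm := by
  show (FreeGroup.map (Equiv.addLeft n.toAdd) x).norm ≤ x.norm
  conv_lhs => rw [← FreeGroup.mk_toWord (x := x), FreeGroup.map.mk]
  refine FreeGroup.norm_mk_le.trans ?_
  simp [FreeGroup.norm]

/-- Weight of the four free letters. -/
def w4 (j : Fin 4) : ℕ := if j = 2 ∨ j = 3 then 1 else 0

variable {τ : Type}

/-- Values of tokens and free letters in the base. -/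
def bl (tv : τ → P) : τ ⊕ Fin 4 → Base P
  | .inl k => Coprod.inl (tv k)
  | .inr j => Coprod.inr (FreeGroup.of j)

/-- Token weight. -/
def tokW (tw : τ → ℕ) : τ ⊕ Fin 4 → ℕ
  | .inl k => tw k
  | .inr _ => 0

/-- Occurrences of one free letter. -/
def occ (l : Fin 4) : τ ⊕ Fin 4 → ℕ
  | .inl _ => 0
  | .inr j => if j = l then 1 else 0

/-- Full weight. -/
def wB (tw : τ → ℕ) : τ ⊕ Fin 4 → ℕ
  | .inl k => tw k
  | .inr j => w4 j

theorem wB_eq (tw : τ → ℕ) (u : Wd (τ ⊕ Fin 4)) :
    wsum (wB tw) u = wsum (tokW tw) u + wsum (occ 2) u + wsum (occ 3) u := by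
  induction u with
  | nil => rfl
  | cons l u ih =>
    obtain ⟨x | j, b⟩ := l <;> simp only [wsum_cons, ih]
    · simp only [wB, tokW, occ]; omega
    · fin_cases j <;> simp [wB, tokW, occ, w4] <;> omega

theorem sep_norm_le (tv : τ → P) {j l : Fin 4} (hjl : j ≠ l) (u : Wd (τ ⊕ Fin 4)) :
    (sep (P := P) j l (wev (bl tv) u)).left.norm ≤ wsum (occ l) u := by
  induction u with
  | nil => simp
  | cons p u ih =>
    rw [wev_cons', map_mul, SemidirectProduct.mul_left, wsum_cons]
    refine le_trans (FreeGroup.norm_mul_le _ _) (Nat.add_le_add ?_ ((norm_shift_le _ _).trans ih))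
    obtain ⟨x | i, b⟩ := p
    · cases b <;> simp [bl, sep]
    · by_cases h1 : i = j
      · subst h1
        cases b <;> simp [bl, sep]
      · by_cases h2 : i = l
        · subst h2
          cases b
          · simp [bl, sep, occ, h1]
          · simp [bl, sep, occ, h1]
        · cases b <;> simp [bl, sep, h1, h2]

variable (D : EmbData P)

theorem sep_aGen (W : Wd D.ι) :
    sep (P := P) 0 2 (wev D.aGen W) =
      SemidirectProduct.inl (wev (fun i => FreeGroup.of (D.code i : ℤ) ^ (D.m i + 2)) W) := by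
  rw [hom_wev, hom_wev]
  congr 1
  funext i
  simp only [aGen, sep, Coprod.lift_apply_inr, map_mul, map_inv, map_pow, FreeGroup.lift_apply_of,
    if_neg (show (2 : Fin 4) ≠ 0 by decide), if_true]
  rw [← map_pow SemidirectProduct.inr, ← map_pow SemidirectProduct.inl, ← map_inv,
    ← SemidirectProduct.inl_aut, map_pow, shift_pow_of]
  simp

theorem sep_bGen (W : Wd D.ι) :
    sep (P := P) 1 3 (wev D.bGen W) =
      SemidirectProduct.inl (wev (fun i => FreeGroup.of (D.code i : ℤ) ^ 2) W) := by
  rw [hom_wev, hom_wev]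
  congr 1
  funext i
  simp only [bGen, sep, Coprod.lift_apply_inr, Coprod.lift_apply_inl, map_mul, map_inv, map_pow,
    FreeGroup.lift_apply_of, if_neg (show (3 : Fin 4) ≠ 1 by decide), if_true, MonoidHom.one_apply,
    mul_one]
  rw [← shift_pow_of, ← map_pow SemidirectProduct.inr, ← map_inv, SemidirectProduct.inl_aut]
  simp only [pow_succ, pow_one, pow_zero, one_mul, mul_assoc, inv_mul_cancel_left, ← map_mul]
  simp [mul_assoc]

theorem code_cast_inj : Function.Injective fun i => (D.code i : ℤ) :=
  fun _ _ h => D.code_inj (Int.ofNat.inj h)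

theorem toWord_aSep {W : Wd D.ι} (hW : FreeGroup.IsReduced W) :
    (sep (P := P) 0 2 (wev D.aGen W)).left.toWord =
      expand (fun i => D.m i + 2) (fun i => (D.code i : ℤ)) W := by
  rw [sep_aGen, SemidirectProduct.left_inl]
  exact toWord_expand (fun i => by omega) D.code_cast_inj hW

theorem toWord_bSep {W : Wd D.ι} (hW : FreeGroup.IsReduced W) :
    (sep (P := P) 1 3 (wev D.bGen W)).left.toWord =
      expand (fun _ => 2) (fun i => (D.code i : ℤ)) W := by
  rw [sep_bGen, SemidirectProduct.left_inl]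
  exact toWord_expand (fun _ => by omega) D.code_cast_inj hW

theorem length_expand {ι β : Type*} (k : ι → ℕ) (c : ι → β) (W : Wd ι) :
    (expand k c W).length = wsum k W := by
  induction W with
  | nil => rfl
  | cons l W ih => simp [expand, List.flatMap_cons] at ih ⊢; omega

theorem count_e (tv : τ → P) {u : Wd (τ ⊕ Fin 4)} {W : Wd D.ι} (hW : FreeGroup.IsReduced W)
    (e : wev (bl tv) u = wev D.aGen W) : wsum (fun i => D.m i + 2) W ≤ wsum (occ 2) u := by
  have h := sep_norm_le (P := P) tv (j := 0) (l := 2) (by decide) u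
  rwa [e, FreeGroup.norm, D.toWord_aSep hW, length_expand] at h

theorem count_f (tv : τ → P) {u : Wd (τ ⊕ Fin 4)} {W : Wd D.ι} (hW : FreeGroup.IsReduced W)
    (e : wev (bl tv) u = wev D.bGen W) : 2 * W.length ≤ wsum (occ 3) u := by
  have h := sep_norm_le (P := P) tv (j := 1) (l := 3) (by decide) u
  rw [e, FreeGroup.norm, D.toWord_bSep hW, length_expand] at h
  simpa [wsum, Nat.mul_comm] using h

/-- Translation of functions on `S2`. -/
def wShift : S2 →* MulAut (S2 → P) where
  toFun s :=
    { toFun := fun F x => F (s⁻¹ * x)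
      invFun := fun F x => F (s * x)
      left_inv := fun F => by funext x; simp
      right_inv := fun F => by funext x; simp
      map_mul' := fun _ _ => rfl }
  map_one' := by ext F x; simp
  map_mul' s s' := by ext F x; simp [mul_assoc]

theorem wShift_apply (s : S2) (F : S2 → P) (x : S2) : wShift s F x = F (s⁻¹ * x) := rfl

open Classical in
/-- The wreath map recording where the `P`-letters sit. -/
noncomputable def wr : Base P →* (S2 → P) ⋊[wShift] S2 :=
  Coprod.lift (SemidirectProduct.inl.comp (MonoidHom.mulSingle (fun _ : S2 => P) 1))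
    (SemidirectProduct.inr.comp ((sep (P := P) 1 3).comp Coprod.inr))

theorem wr_right (x : Base P) : (wr x).right = sep 1 3 x := by
  have : (SemidirectProduct.rightHom.comp (wr (P := P))) = sep 1 3 := by
    refine Coprod.hom_ext ?_ ?_
    · refine MonoidHom.ext fun p => ?_
      simp [wr, sep]
    · refine MonoidHom.ext fun p => ?_
      simp [wr]
  exact DFunLike.congr_fun this x

open Classical in
/-- Tokens of `u` sitting at `g`, when `u` is read from `p`. -/
noncomputable def sel : S2 → Wd (τ ⊕ Fin 4) → S2 → Wd τ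
  | _, [], _ => []
  | p, (.inl k, b) :: u, g => (if g = p then [(k, b)] else []) ++ sel p u g
  | p, (.inr j, b) :: u, g =>
      sel (p * cond b (sep (P := Unit) 1 3 (Coprod.inr (FreeGroup.of j)))
        (sep (P := Unit) 1 3 (Coprod.inr (FreeGroup.of j)))⁻¹) u g

theorem sel_val (tv : τ → P) (u : Wd (τ ⊕ Fin 4)) :
    ∀ p g, (wr (wev (bl tv) u)).left (p⁻¹ * g) = wev tv (sel p u g) := by
  classical
  induction u with
  | nil => intro p g; simp [sel]
  | cons l u ih =>
    intro p g
    rw [wev_cons', map_mul, SemidirectProduct.mul_left, Pi.mul_apply, wShift_apply, wr_right]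
    obtain ⟨k | j, b⟩ := l
    · have hright : sep (P := P) 1 3 (cond b (bl tv (.inl k)) (bl tv (.inl k))⁻¹) = 1 := by
        cases b <;> simp [bl, sep]
      rw [hright, inv_one, one_mul, ih, sel, wev_append]
      congr 1
      by_cases h : g = p
      · subst h
        cases b <;> simp [bl, wr, wev_cons', Pi.mulSingle_inv]
      · have : p⁻¹ * g ≠ 1 := fun e => h (inv_mul_eq_one.1 e).symm
        cases b <;> simp [bl, wr, h, this]
    · have hleft : (wr (cond b (bl tv (.inr j)) (bl tv (.inr j))⁻¹)).left = 1 := by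
        cases b <;> simp [bl, wr]
      have hright : sep (P := P) 1 3 (cond b (bl tv (.inr j)) (bl tv (.inr j))⁻¹) =
          cond b (sep (P := Unit) 1 3 (Coprod.inr (FreeGroup.of j)))
            (sep (P := Unit) 1 3 (Coprod.inr (FreeGroup.of j)))⁻¹ := by
        cases b <;> simp [bl, sep]
      rw [hleft, Pi.one_apply, one_mul, hright, sel, ← mul_assoc, ← mul_inv_rev, ih]

theorem sel_weight (tw : τ → ℕ) (u : Wd (τ ⊕ Fin 4)) :
    ∀ (p : S2) (s : Finset S2), ∑ g ∈ s, wsum tw (sel p u g) ≤ wsum (tokW tw) u := by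
  classical
  induction u with
  | nil => intro p s; simp [sel]
  | cons l u ih =>
    intro p s
    obtain ⟨k | j, b⟩ := l
    · simp only [sel, wsum_append, Finset.sum_add_distrib, wsum_cons]
      refine Nat.add_le_add ?_ (ih p s)
      simp only [apply_ite (wsum tw), wsum_cons, wsum_nil, Nat.add_zero, Finset.sum_ite_eq']
      split <;> simp [tokW]
    · simp only [sel, wsum_cons]
      exact (ih _ s).trans (Nat.le_add_left _ _)

/-- Position of the value inside `bGen i ^ (±1)`. -/
def bPos (l : D.ι × Bool) : S2 :=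
  ⟨cond l.2 (FreeGroup.of (D.code l.1 : ℤ)) (FreeGroup.of (D.code l.1 : ℤ))⁻¹,
    Multiplicative.ofAdd (D.code l.1 : ℤ)⟩

/-- Shift after `bGen i ^ (±1)`. -/
def bStep (l : D.ι × Bool) : S2 :=
  SemidirectProduct.inl (cond l.2 (FreeGroup.of (D.code l.1 : ℤ) ^ 2)
    (FreeGroup.of (D.code l.1 : ℤ) ^ 2)⁻¹)

open Classical in
/-- The positions along a word in the `bGen`. -/
noncomputable def posF : Wd D.ι → Finset S2
  | [] => ∅
  | l :: W => insert (D.bPos l) ((posF W).image fun g => D.bStep l * g)

theorem posF_form {W : Wd D.ι} {g : S2} (hg : g ∈ D.posF W) :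
    ∃ W₁ l W₂, W = W₁ ++ l :: W₂ ∧
      g = SemidirectProduct.inl (FreeGroup.mk (expand (fun _ => 2) (fun i => (D.code i : ℤ)) W₁)) *
        D.bPos l := by
  classical
  induction W generalizing g with
  | nil => simp [posF] at hg
  | cons l W ih =>
    simp only [posF, Finset.mem_insert, Finset.mem_image] at hg
    rcases hg with rfl | ⟨g', hg', rfl⟩
    · exact ⟨[], l, W, rfl, by simp [expand, ← FreeGroup.one_eq_mk]⟩
    · obtain ⟨W₁, l', W₂, rfl, rfl⟩ := ih hg'
      refine ⟨l :: W₁, l', W₂, rfl, ?_⟩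
      rw [← mul_assoc, bStep, ← map_mul]
      congr 2
      simp only [mk_expand, wev_cons']

omit D in
/-- A contiguous part of a reduced word is reduced. -/
theorem isReduced_part {α : Type*} {L L' : Wd α} (h : FreeGroup.IsReduced L)
    (hp : ∃ s t, s ++ L' ++ t = L) : FreeGroup.IsReduced L' := by
  obtain ⟨s, t, rfl⟩ := hp
  exact (List.isChain_append.1 (List.isChain_append.1 h).1).2.1

theorem bPos_not_mem {l : D.ι × Bool} {W : Wd D.ι} (h : FreeGroup.IsReduced (l :: W)) :
    D.bPos l ∉ (D.posF W).image fun g => D.bStep l * g := by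
  classical
  intro hm
  obtain ⟨g, hg, e⟩ := Finset.mem_image.1 hm
  obtain ⟨W₁, l', W₂, rfl, rfl⟩ := D.posF_form hg
  obtain ⟨i, ε⟩ := l
  obtain ⟨z, δ⟩ := l'
  have hr := congrArg SemidirectProduct.right e
  have hl := congrArg SemidirectProduct.left e
  simp [bStep, bPos] at hr hl
  have hzi : z = i := D.code_inj hr
  subst hzi
  -- the expanded prefix followed by one letter is reduced
  have hred : FreeGroup.IsReduced
      (expand (fun _ => 2) (fun i => (D.code i : ℤ)) W₁ ++ [((D.code z : ℤ), δ)]) := by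
    have h2 := expand_reduced (k := fun _ : D.ι => 2) (fun _ => by omega) D.code_cast_inj
      (isReduced_part h ⟨[(z, ε)], W₂, by simp⟩ : FreeGroup.IsReduced (W₁ ++ [(z, δ)]))
    refine isReduced_part h2 ⟨[], [((D.code z : ℤ), δ)], ?_⟩
    simp [expand, List.flatMap_append, List.replicate]
  have key : FreeGroup.mk (expand (fun _ => 2) (fun i => (D.code i : ℤ)) W₁ ++ [((D.code z : ℤ), δ)]) =
      FreeGroup.mk [((D.code z : ℤ), !ε)] := by
    rw [← FreeGroup.mul_mk]
    have e1 : FreeGroup.mk [((D.code z : ℤ), δ)] =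
        cond δ (FreeGroup.of (D.code z : ℤ)) (FreeGroup.of (D.code z : ℤ))⁻¹ := by cases δ <;> rfl
    have e2 : FreeGroup.mk [((D.code z : ℤ), !ε)] =
        (cond ε (FreeGroup.of (D.code z : ℤ)) (FreeGroup.of (D.code z : ℤ)))⁻¹ *
          cond ε 1 (FreeGroup.of (D.code z : ℤ) ^ 2) := by
      cases ε
      · simp [pow_two]; rfl
      · simp; rfl
    rw [e1, e2]
    cases ε <;> simp only [cond_false, cond_true] at hl ⊢
    · rw [inv_mul_eq_iff_eq_mul] at hl
      rw [hl, pow_two]; group
    · rw [← eq_inv_mul_iff_mul_eq] at hl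
      rw [hl, pow_two]; group
  have := congrArg FreeGroup.toWord key
  rw [FreeGroup.toWord_mk, FreeGroup.toWord_mk, hred.reduce_eq,
    (FreeGroup.IsReduced.singleton).reduce_eq] at this
  cases W₁ with
  | nil =>
    simp [expand] at this
    have h12 : FreeGroup.IsReduced [(z, ε), (z, δ)] := isReduced_part h ⟨[], W₂, by simp⟩
    have h3 : ε = δ := (FreeGroup.isReduced_cons_cons.1 h12).1 rfl
    subst h3
    cases ε <;> simp at this
  | cons p W₁ =>
    have := congrArg List.length this
    simp [expand, List.flatMap_cons] at this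

theorem wr_bGen_cons (l : D.ι × Bool) (W : Wd D.ι) (g : S2) :
    (wr (wev D.bGen (l :: W))).left g =
      (open Classical in if g = D.bPos l then cond l.2 (D.val l.1) (D.val l.1)⁻¹ else 1) *
        (wr (wev D.bGen W)).left ((D.bStep l)⁻¹ * g) := by
  classical
  have hstep : sep (P := P) 1 3 (cond l.2 (D.bGen l.1) (D.bGen l.1)⁻¹) = D.bStep l := by
    have h := D.sep_bGen [l]
    obtain ⟨i, b⟩ := l
    cases b <;> simpa [wev_cons', bStep] using h
  rw [wev_cons', map_mul, SemidirectProduct.mul_left, Pi.mul_apply, wShift_apply, wr_right, hstep]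
  congr 1
  obtain ⟨i, b⟩ := l
  have hsplit : cond b (D.bGen i) (D.bGen i)⁻¹ =
      Coprod.inr (FreeGroup.of 1 ^ D.code i * cond b (FreeGroup.of 3) (FreeGroup.of 3)⁻¹) *
        Coprod.inl (cond b (D.val i) (D.val i)⁻¹) *
        Coprod.inr (cond b (FreeGroup.of 3) (FreeGroup.of 3)⁻¹ * (FreeGroup.of 1 ^ D.code i)⁻¹) := by
    cases b <;> simp [bGen, mul_assoc]
  have hp : sep (P := P) 1 3
      (Coprod.inr (FreeGroup.of 1 ^ D.code i * cond b (FreeGroup.of 3) (FreeGroup.of 3)⁻¹)) =
        D.bPos (i, b) := by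
    have e1 : sep (P := P) 1 3 (Coprod.inr (FreeGroup.of 1 ^ D.code i)) =
        SemidirectProduct.inr (Multiplicative.ofAdd (1 : ℤ) ^ D.code i) := by simp [sep]
    have e3 : sep (P := P) 1 3 (Coprod.inr (cond b (FreeGroup.of 3) (FreeGroup.of 3)⁻¹)) =
        SemidirectProduct.inl (cond b (FreeGroup.of (0 : ℤ)) (FreeGroup.of 0)⁻¹) := by
      cases b <;> simp [sep]
    rw [map_mul, map_mul, e1, e3]
    have e4 := shift_pow_of (D.code i)
    simp [← ofAdd_nsmul] at e4
    cases b <;> ext <;> simp [bPos, e4, ← ofAdd_nsmul]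
  have hi : ∀ x : F4, (wr (Coprod.inr x : Base P)).left = 1 := fun x => by simp [wr]
  rw [hsplit, map_mul, map_mul, SemidirectProduct.mul_left, SemidirectProduct.mul_left, hi, hi,
    map_one, mul_one, one_mul, wr_right, hp, wShift_apply]
  by_cases hg : g = D.bPos (i, b)
  · subst hg
    simp [wr]
  · have : (D.bPos (i, b))⁻¹ * g ≠ 1 := fun e => hg (inv_mul_eq_one.1 e).symm
    simp [wr, hg, this]

theorem wr_bGen_off (W : Wd D.ι) : ∀ g ∉ D.posF W, (wr (wev D.bGen W)).left g = 1 := by
  classical
  induction W with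
  | nil => simp
  | cons l W ih =>
    intro g hg
    simp only [posF, Finset.mem_insert, not_or] at hg
    rw [wr_bGen_cons, if_neg hg.1, one_mul, ih]
    intro hm
    exact hg.2 (Finset.mem_image.2 ⟨_, hm, by simp⟩)

/-- Each position carries a word worth at least its entry. -/
theorem pos_weight (tv : τ → P) (tw : τ → ℕ)
    (hLB : ∀ i v, wev tv v = D.val i → D.m i ≤ wsum tw v) :
    ∀ {W : Wd D.ι}, FreeGroup.IsReduced W → ∀ h : S2 → Wd τ,
      (∀ g ∈ D.posF W, wev tv (h g) = (wr (wev D.bGen W)).left g) →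
        wsum D.m W ≤ ∑ g ∈ D.posF W, wsum tw (h g) := by
  classical
  intro W
  induction W with
  | nil => intro _ h _; simp
  | cons l W ih =>
    intro hW h hh
    have hnm := D.bPos_not_mem hW
    rw [posF, Finset.sum_insert hnm, Finset.sum_image (fun a _ b _ e => mul_left_cancel e), wsum_cons]
    refine Nat.add_le_add ?_ (ih (isReduced_part hW ⟨[l], [], by simp⟩) _ fun g hg => ?_)
    · have := hh (D.bPos l) (by simp [posF])
      rw [wr_bGen_cons, if_pos rfl, D.wr_bGen_off W _ (fun hm => hnm
        (Finset.mem_image.2 ⟨_, hm, by simp⟩)), mul_one] at this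
      obtain ⟨i, b⟩ := l
      cases b
      · have h2 := hLB i (FreeGroup.invRev (h (D.bPos (i, false)))) (by simp [this])
        simpa using h2
      · exact hLB i _ this
    · rw [hh _ (by simp [posF, hg]), wr_bGen_cons, if_neg, one_mul, inv_mul_cancel_left]
      exact fun e => hnm (Finset.mem_image.2 ⟨g, hg, e⟩)

theorem count_tok (tv : τ → P) (tw : τ → ℕ)
    (hLB : ∀ i v, wev tv v = D.val i → D.m i ≤ wsum tw v)
    {u : Wd (τ ⊕ Fin 4)} {W : Wd D.ι} (hW : FreeGroup.IsReduced W)
    (e : wev (bl tv) u = wev D.bGen W) : wsum D.m W ≤ wsum (tokW tw) u := by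
  refine (D.pos_weight tv tw hLB hW (fun g => sel 1 u g) fun g _ => ?_).trans
    (sel_weight tw u 1 _)
  rw [← sel_val, e, inv_one, one_mul]

end EmbData

end Vale.P193
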