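import Vale.Agent.P193.Words
import Mathlib.GroupTheory.FreeGroup.Reduce
import Mathlib.Algebra.Group.Subgroup.Basic

/-!
P193: free-group lemmas: subgroups generated by letters, and the subgroup generated by the elements `a b⁻¹`
described by alternating reduced words.
-/

namespace Vale.P193

open FreeGroup

variable {α β : Type*}

/-- Every letter of the reduced word lies in `S`. -/
def LettersIn [DecidableEq α] (S : Set α) (g : FreeGroup α) : Prop := ∀ l ∈ g.toWord, l.1 ∈ S

theorem lettersIn_iff [DecidableEq α] {S : Set α} {g : FreeGroup α} :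
    LettersIn S g ↔ g ∈ Subgroup.closure (FreeGroup.of '' S) := by
  constructor
  · intro h
    rw [← mk_toWord (x := g)]
    unfold LettersIn at h
    revert h
    generalize g.toWord = L
    intro h
    induction L with
    | nil => simp [← one_eq_mk]
    | cons a L ih =>
      rw [← List.singleton_append, ← mul_mk]
      refine mul_mem ?_ (ih fun l hl => h l (by simp [hl]))
      have ha : FreeGroup.of a.1 ∈ Subgroup.closure (FreeGroup.of '' S) :=
        Subgroup.subset_closure ⟨a.1, h a (by simp), rfl⟩
      obtain ⟨x, b⟩ := a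
      cases b
      · have e : FreeGroup.mk [(x, false)] = (FreeGroup.of x)⁻¹ := rfl
        rw [e]
        exact inv_mem ha
      · exact ha
  · intro h
    induction h using Subgroup.closure_induction with
    | mem x hx =>
      obtain ⟨a, ha, rfl⟩ := hx
      intro l hl
      simp only [toWord_of, List.mem_singleton] at hl
      subst hl
      exact ha
    | one => intro l hl; simp at hl
    | mul x y _ _ hx hy =>
      intro l hl
      rcases List.mem_append.1 ((toWord_mul_sublist x y).subset hl) with h' | h'
      · exact hx l h'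
      · exact hy l h'
    | inv x _ hx =>
      intro l hl
      rw [toWord_inv] at hl
      simp only [invRev, List.mem_reverse, List.mem_map] at hl
      obtain ⟨a, ha, rfl⟩ := hl
      exact hx a ha

/-- Two homomorphisms equal on the letters in `S` are equal on words in those letters. -/
theorem hom_eq_of_lettersIn [DecidableEq α] {H : Type*} [Group H] {f g : FreeGroup α →* H} {S : Set α}
    (h : ∀ a ∈ S, f (FreeGroup.of a) = g (FreeGroup.of a)) {x : FreeGroup α} (hx : LettersIn S x) :
    f x = g x :=
  MonoidHom.eqOn_closure (f := f) (g := g) (by rintro _ ⟨a, ha, rfl⟩; exact h a ha) (lettersIn_iff.1 hx)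

/-- A homomorphism sending letters in `S` into letters in `T` preserves `LettersIn`. -/
theorem lettersIn_map [DecidableEq α] [DecidableEq β] (f : FreeGroup α →* FreeGroup β) {S : Set α}
    {T : Set β} (h : ∀ a ∈ S, LettersIn T (f (FreeGroup.of a))) {x : FreeGroup α} (hx : LettersIn S x) :
    LettersIn T (f x) := by
  rw [lettersIn_iff] at hx ⊢
  have hle : Subgroup.closure (FreeGroup.of '' S) ≤ (Subgroup.closure (FreeGroup.of '' T)).comap f := by
    rw [Subgroup.closure_le]
    rintro _ ⟨a, ha, rfl⟩
    exact lettersIn_iff.1 (h a ha)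
  exact hle hx

theorem lettersIn_one [DecidableEq α] (S : Set α) : LettersIn S (1 : FreeGroup α) :=
  lettersIn_iff.2 (one_mem _)

theorem lettersIn_mul [DecidableEq α] {S : Set α} {x y : FreeGroup α} (hx : LettersIn S x)
    (hy : LettersIn S y) : LettersIn S (x * y) :=
  lettersIn_iff.2 (mul_mem (lettersIn_iff.1 hx) (lettersIn_iff.1 hy))

theorem lettersIn_inv [DecidableEq α] {S : Set α} {x : FreeGroup α} (hx : LettersIn S x) :
    LettersIn S x⁻¹ :=
  lettersIn_iff.2 (inv_mem (lettersIn_iff.1 hx))

theorem lettersIn_of [DecidableEq α] {S : Set α} {a : α} (ha : a ∈ S) :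
    LettersIn S (FreeGroup.of a) :=
  lettersIn_iff.2 (Subgroup.subset_closure ⟨a, ha, rfl⟩)

/-- `AltW P b w`: the letters satisfy `P` and the signs alternate, starting with `b` and ending with `false`
when `b = true`. -/
def AltW (P : α → Prop) : Bool → Wd α → Prop
  | b, [] => b = true
  | b, l :: w => P l.1 ∧ l.2 = b ∧ AltW P (!b) w

theorem altW_append {P : α → Prop} {v : Wd α} (hv : AltW P true v) :
    ∀ {u : Wd α} {b : Bool}, AltW P b u → AltW P b (u ++ v)
  | [], b, h => by
      have : b = true := h
      subst this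
      simpa using hv
  | _ :: _, _, ⟨h1, h2, h3⟩ => ⟨h1, h2, altW_append hv h3⟩

theorem altW_step {P : α → Prop} {v : Wd α} {x : α} {c : Bool} :
    ∀ {u : Wd α} {b : Bool}, AltW P b (u ++ (x, c) :: (x, !c) :: v) → AltW P b (u ++ v)
  | [], b, h => by
      simp only [List.nil_append, AltW] at h ⊢
      simpa using h.2.2.2.2
  | _ :: _, _, ⟨h1, h2, h3⟩ => ⟨h1, h2, altW_step h3⟩

theorem altW_red {P : α → Prop} {b : Bool} {u v : Wd α} (h : Red u v) (hu : AltW P b u) :
    AltW P b v := by
  induction h with
  | refl => exact hu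
  | tail _ h2 ih =>
    cases h2
    exact altW_step ih

theorem altW_reduce [DecidableEq α] {P : α → Prop} {b : Bool} {u : Wd α} (hu : AltW P b u) :
    AltW P b (reduce u) :=
  altW_red reduce.red hu

theorem mk_mem_of_altW {P : α → Prop} : ∀ {w : Wd α}, AltW P true w →
    FreeGroup.mk w ∈ Subgroup.closure
      {x | ∃ a b, P a ∧ P b ∧ x = FreeGroup.of a * (FreeGroup.of b)⁻¹}
  | [], _ => by simp [← one_eq_mk]
  | [l], h => by simp [AltW] at h
  | (a, s) :: (b, t) :: w, ⟨h1, h2, h3, h4, h5⟩ => by
      simp only [Bool.not_true, Bool.not_false] at h2 h4 h5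
      subst h2; subst h4
      have e : FreeGroup.mk ((a, true) :: (b, false) :: w) =
          (FreeGroup.of a * (FreeGroup.of b)⁻¹) * FreeGroup.mk w := rfl
      rw [e]
      exact mul_mem (Subgroup.subset_closure ⟨a, b, h1, h3, rfl⟩) (mk_mem_of_altW h5)

/-- The subgroup generated by all `a b⁻¹` consists of the alternating reduced words. -/
theorem mem_pairs_iff [DecidableEq α] {P : α → Prop} {g : FreeGroup α} :
    g ∈ Subgroup.closure {x | ∃ a b, P a ∧ P b ∧ x = FreeGroup.of a * (FreeGroup.of b)⁻¹} ↔
      AltW P true g.toWord := by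
  refine ⟨fun h => ?_, fun h => mk_toWord (x := g) ▸ mk_mem_of_altW h⟩
  suffices AltW P true g.toWord ∧ AltW P true g⁻¹.toWord from this.1
  induction h using Subgroup.closure_induction with
  | mem x hx =>
    obtain ⟨a, b, ha, hb, rfl⟩ := hx
    have key : ∀ a b, P a → P b → AltW P true (FreeGroup.of a * (FreeGroup.of b)⁻¹).toWord :=
      fun a b ha hb => by
        rw [show FreeGroup.of a * (FreeGroup.of b)⁻¹ = FreeGroup.mk [(a, true), (b, false)] from rfl,
          toWord_mk]
        exact altW_reduce ⟨ha, rfl, hb, rfl, rfl⟩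
    refine ⟨key a b ha hb, ?_⟩
    rw [mul_inv_rev, inv_inv]
    exact key b a hb ha
  | one => simp [AltW]
  | mul x y _ _ hx hy =>
    refine ⟨?_, ?_⟩
    · rw [toWord_mul]
      exact altW_reduce (altW_append hy.1 hx.1)
    · rw [mul_inv_rev, toWord_mul]
      exact altW_reduce (altW_append hx.2 hy.2)
  | inv x _ hx => exact ⟨hx.2, by rw [inv_inv]; exact hx.1⟩

end Vale.P193
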