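import Vale.Agent.P193.Gen.Graph
import Vale.Agent.P193.WordLemmas
import Mathlib.Tactic.Group

/-!
P193 M5: words in a rope extension `GraphHNN φ`: pinch-free forms with linearly bounded second parts, Britton's
lemma for them, and certificates for negative statements.
-/

namespace Vale.P193.GraphHNN

noncomputable section

open HNNExtension HNNExtension.NormalWord

/-- Alphabet of a rope extension. -/
abbrev GLet (αM αB : Type) := αM ⊕ (αB ⊕ Unit)

/-- A segment: a word for each factor. -/
abbrev Seg (αM αB : Type) := Wd αM × Wd αB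

/-- A form: a first segment, then signed stable letters each followed by a segment. -/
abbrev Form (αM αB : Type) := Seg αM αB × List (Bool × Seg αM αB)

variable {M B : Type} [Group M] [Group B] {U : Subgroup M} (φ : U →* B)
variable {αM αB : Type} (vM : αM → M) (vB : αB → B)

/-- Values of the letters. -/
def gVal : GLet αM αB → GraphHNN φ
  | .inl a => inM φ (vM a)
  | .inr (.inl b) => inB φ (vB b)
  | .inr (.inr _) => r φ

/-- Value of a segment. -/
def segVal (s : Seg αM αB) : M × B := (wev vM s.1, wev vB s.2)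

/-- Unit of a sign. -/
def sgn (ε : Bool) : ℤˣ := if ε then 1 else -1

/-- Value of a signed stable letter followed by a segment. -/
def stepVal (p : Bool × Seg αM αB) : GraphHNN φ :=
  (HNNExtension.t : GraphHNN φ) ^ (sgn p.1 : ℤ) * HNNExtension.of (segVal vM vB p.2)

/-- Value of a form. -/
def formVal (f : Form αM αB) : GraphHNN φ :=
  HNNExtension.of (segVal vM vB f.1) * (f.2.map (stepVal φ vM vB)).prod

/-- Letters of a segment in the big alphabet. -/
def segWord (s : Seg αM αB) : Wd (GLet αM αB) :=
  (s.1.map fun l => (Sum.inl l.1, l.2)) ++ s.2.map fun l => (Sum.inr (Sum.inl l.1), l.2)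

/-- The word of a form. -/
def formWord (f : Form αM αB) : Wd (GLet αM αB) :=
  segWord f.1 ++ f.2.flatMap fun p => (Sum.inr (Sum.inr ()), p.1) :: segWord p.2

/-- `t^ε s t^(-ε)` reduces. -/
def Pinch (ε : Bool) (s : Seg αM αB) : Prop :=
  ∃ h : wev vM s.1 ∈ U, if ε then wev vB s.2 = 1 else wev vB s.2 = φ ⟨_, h⟩

/-- No pinch. -/
def Red (f : Form αM αB) : Prop :=
  f.2.IsChain fun a b => a.1 = b.1 ∨ ¬ Pinch φ vM vB a.1 a.2

/-- Every member of `U` given by a word has an image given by a word `C` times as long. -/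
def WordBound (C : ℕ) : Prop :=
  ∀ (m : Wd αM) (h : wev vM m ∈ U), ∃ b : Wd αB, b.length ≤ C * m.length ∧ wev vB b = φ ⟨_, h⟩

/-- Number of letters of the first kind. -/
def mLen (f : Form αM αB) : ℕ := f.1.1.length + (f.2.map fun p => p.2.1.length).sum

/-- Letters of the second kind beyond `C` per letter of the first kind. -/
def exc (C : ℕ) (f : Form αM αB) : ℕ :=
  (f.1.2.length - C * f.1.1.length) + (f.2.map fun p => p.2.2.length - C * p.2.1.length).sum

variable {φ vM vB}

theorem sgn_eq_iff (a b : Bool) : sgn a = sgn b ↔ a = b := by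
  cases a <;> cases b <;> simp [sgn]

theorem gVal_segWord (s : Seg αM αB) :
    wev (gVal φ vM vB) (segWord s) = HNNExtension.of (segVal vM vB s) := by
  rw [segWord, wev_append, wev_map _ Sum.inl, wev_map _ (fun a : αB => Sum.inr (Sum.inl a))]
  show wev (fun a => inM φ (vM a)) s.1 * wev (fun b => inB φ (vB b)) s.2 = _
  rw [← hom_wev, ← hom_wev, inM, inB, MonoidHom.comp_apply, MonoidHom.comp_apply, ← map_mul]
  simp [segVal]

theorem wev_formWord (f : Form αM αB) : wev (gVal φ vM vB) (formWord f) = formVal φ vM vB f := by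
  obtain ⟨s, l⟩ := f
  rw [formWord, wev_append, gVal_segWord, formVal]
  congr 1
  induction l with
  | nil => simp
  | cons p l ih =>
    rw [List.flatMap_cons, wev_append, ih, List.map_cons, List.prod_cons, wev_cons, gVal_segWord]
    obtain ⟨ε, s'⟩ := p
    cases ε <;> simp [stepVal, sgn, wev_pos, wev_neg, gVal, r]

theorem mem_toSubgroup_iff (ε : Bool) (s : Seg αM αB) :
    segVal vM vB s ∈ toSubgroup (U.map (MonoidHom.inl M B)) (graphSub φ) (sgn ε) ↔
      Pinch φ vM vB ε s := by
  cases ε
  · show segVal vM vB s ∈ graphSub φ ↔ _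
    constructor
    · rintro ⟨u, hu⟩
      have h1 : (u : M) = wev vM s.1 := congrArg Prod.fst hu
      have h2 : φ u = wev vB s.2 := congrArg Prod.snd hu
      refine ⟨h1 ▸ u.2, ?_⟩
      have : (⟨wev vM s.1, h1 ▸ u.2⟩ : U) = u := Subtype.ext h1.symm
      simp [this, h2]
    · rintro ⟨h, h'⟩
      exact ⟨⟨_, h⟩, by simp at h'; simp [segVal, h', MonoidHom.prod_apply]⟩
  · show segVal vM vB s ∈ U.map (MonoidHom.inl M B) ↔ _
    constructor
    · rintro ⟨u, hu, he⟩
      have h1 : (u : M) = wev vM s.1 := congrArg Prod.fst he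
      have h2 : (1 : B) = wev vB s.2 := congrArg Prod.snd he
      exact ⟨h1 ▸ hu, by simp [← h2]⟩
    · rintro ⟨h, h'⟩
      exact ⟨_, h, by simp at h'; simp [segVal, h']⟩

/-- A pinch is replaced by one segment. -/
theorem pinch_move {C : ℕ} (hC : WordBound φ vM vB C) {ε : Bool} {s : Seg αM αB}
    (hp : Pinch φ vM vB ε s) :
    ∃ b : Wd αB, b.length ≤ C * s.1.length ∧
      (HNNExtension.t : GraphHNN φ) ^ (sgn ε : ℤ) * HNNExtension.of (segVal vM vB s) =
        HNNExtension.of (segVal vM vB (s.1, b)) * (HNNExtension.t : GraphHNN φ) ^ (sgn ε : ℤ) := by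
  obtain ⟨h, hb⟩ := hp
  have key : r φ * inM φ (wev vM s.1) =
      HNNExtension.of ((wev vM s.1, φ ⟨_, h⟩) : M × B) * r φ := by
    have := r_conj φ ⟨_, h⟩
    rw [this]
    congr 1
    simp [inM, inB, ← map_mul]
  cases ε
  · refine ⟨[], by simp, ?_⟩
    simp at hb
    have e : segVal vM vB s = (wev vM s.1, φ ⟨_, h⟩) := by simp [segVal, hb]
    rw [e]
    have e2 : segVal vM vB (s.1, ([] : Wd αB)) = ((wev vM s.1, 1) : M × B) := by simp [segVal]
    rw [e2]
    simp only [sgn, Bool.false_eq_true, if_false, Units.val_neg, Units.val_one, zpow_neg, zpow_one]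
    rw [inv_mul_eq_iff_eq_mul, ← mul_assoc, eq_mul_inv_iff_mul_eq]
    simpa [r, inM] using key.symm
  · obtain ⟨b, hbl, hbv⟩ := hC s.1 h
    refine ⟨b, hbl, ?_⟩
    simp at hb
    have e : segVal vM vB s = ((wev vM s.1, 1) : M × B) := by simp [segVal, hb]
    rw [e]
    simpa [sgn, segVal, hbv, r, inM] using key

/-- Every word has a pinch-free form with the linear bounds. -/
theorem exists_form {C : ℕ} (hC : WordBound φ vM vB C) (w : Wd (GLet αM αB)) :
    ∃ f : Form αM αB, formVal φ vM vB f = wev (gVal φ vM vB) w ∧ Red φ vM vB f ∧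
      mLen f ≤ w.length ∧ exc C f ≤ w.length ∧ f.2.length ≤ w.length := by
  induction w with
  | nil =>
    refine ⟨(([], []), []), ?_, List.isChain_nil, by simp [mLen], by simp [exc], by simp⟩
    rw [← wev_formWord]; simp [formWord, segWord]
  | cons l w ih =>
    obtain ⟨⟨⟨m0, b0⟩, rest⟩, hv, hr, hm, he, hn⟩ := ih
    obtain ⟨a | a | a, ε⟩ := l
    · refine ⟨(((a, ε) :: m0, b0), rest), ?_, hr, ?_, ?_, by simp at hn ⊢; omega⟩
      · rw [wev_cons, ← hv, ← wev_formWord, ← wev_formWord]
        simp only [formWord, segWord, List.map_cons, List.cons_append]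
        rw [wev_cons]
      · simp [mLen] at hm ⊢; omega
      · simp only [exc, List.length_cons, Nat.mul_succ] at he ⊢; omega
    · refine ⟨((m0, (a, ε) :: b0), rest), ?_, hr, ?_, ?_, by simp at hn ⊢; omega⟩
      · rw [wev_cons, ← hv, formVal, formVal, ← mul_assoc]
        congr 1
        have h1 : segVal vM vB (m0, (a, ε) :: b0) = (1, wev vB [(a, ε)]) * segVal vM vB (m0, b0) := by
          simp [segVal, wev_cons vB (a, ε) b0]
        rw [h1, map_mul]
        congr 1
        cases ε <;> simp [wev_pos, wev_neg, gVal, inB, ← map_inv]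
      · simp [mLen] at hm ⊢; omega
      · simp only [exc, List.length_cons] at he ⊢; omega
    · have hval : wev (gVal φ vM vB) ((Sum.inr (Sum.inr a), ε) :: w) =
          stepVal φ vM vB (ε, (m0, b0)) * (rest.map (stepVal φ vM vB)).prod := by
        rw [wev_cons, ← hv, formVal, stepVal, mul_assoc]
        congr 1
        cases ε <;> simp [wev_pos, wev_neg, gVal, sgn, r]
      by_cases hp : ∃ m1 b1 rest', rest = (!ε, ((m1, b1) : Seg αM αB)) :: rest' ∧
          Pinch φ vM vB ε ((m0, b0) : Seg αM αB)
      · obtain ⟨m1, b1, rest', rfl, hp⟩ := hp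
        obtain ⟨b, hbl, hmove⟩ := pinch_move hC hp
        refine ⟨((m0 ++ m1, b ++ b1), rest'), ?_, (List.isChain_cons.1 hr).2, ?_, ?_,
          by simp at hn ⊢; omega⟩
        · rw [hval, List.map_cons, List.prod_cons, formVal, stepVal, hmove, stepVal]
          have : segVal vM vB (m0 ++ m1, b ++ b1) = segVal vM vB (m0, b) * segVal vM vB (m1, b1) := by
            simp [segVal, wev_append]
          rw [this, map_mul]
          have hs : ((sgn (!ε) : ℤˣ) : ℤ) = -(sgn ε : ℤ) := by cases ε <;> simp [sgn]
          rw [hs]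
          group
        · simp [mLen] at hm ⊢; omega
        · simp [exc] at he hbl ⊢
          rw [Nat.mul_add]
          omega
      · refine ⟨(([], []), (ε, (m0, b0)) :: rest), ?_, ?_, ?_, ?_, by simp at hn ⊢; omega⟩
        · rw [hval, formVal, List.map_cons, List.prod_cons]
          have h1 : segVal vM vB (([], []) : Seg αM αB) = 1 := by simp [segVal]
          rw [h1, map_one, one_mul]
        · refine List.isChain_cons.2 ⟨?_, hr⟩
          rintro ⟨ε', s'⟩ hy
          rcases rest with _ | ⟨p, rest'⟩
          · simp at hy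
          · simp at hy
            subst hy
            by_cases h : ε = ε'
            · exact Or.inl h
            · have : ε' = !ε := by cases ε <;> cases ε' <;> simp at h ⊢
              subst this
              exact Or.inr fun hh => hp ⟨s'.1, s'.2, rest', rfl, hh⟩
        · simp [mLen] at hm ⊢; omega
        · simp [exc] at he ⊢; omega

/-- The reduced word of a pinch-free form. -/
def toReduced (f : Form αM αB) (h : Red φ vM vB f) :
    ReducedWord (M × B) (U.map (MonoidHom.inl M B)) (graphSub φ) where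
  head := segVal vM vB f.1
  toList := f.2.map fun p => (sgn p.1, segVal vM vB p.2)
  chain := by
    rw [List.isChain_map]
    refine List.IsChain.imp ?_ h
    intro a b hab hmem
    rw [sgn_eq_iff]
    rcases hab with hab | hab
    · exact hab
    · exact absurd ((mem_toSubgroup_iff a.1 a.2).1 hmem) hab

theorem toReduced_prod (f : Form αM αB) (h : Red φ vM vB f) :
    (toReduced f h).prod (graphEquiv φ) = formVal φ vM vB f := by
  simp [toReduced, ReducedWord.prod, formVal, List.map_map, Function.comp_def]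
  rfl

/-- Britton: a pinch-free form of a base element has no stable letter. -/
theorem nil_of_eq_of {f : Form αM αB} (h : Red φ vM vB f) {x : M × B}
    (hx : formVal φ vM vB f = HNNExtension.of x) : f.2 = [] ∧ segVal vM vB f.1 = x := by
  have hn := ReducedWord.toList_eq_nil_of_mem_of_range (graphEquiv φ) (toReduced f h)
    ⟨x, by rw [toReduced_prod, hx]⟩
  have hnil : f.2 = [] := by simpa [toReduced] using hn
  refine ⟨hnil, ?_⟩
  rw [formVal, hnil] at hx
  simpa using HNNExtension.of_injective _ (by simpa using hx)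

theorem inM_injective : Function.Injective (inM φ) := fun a b h => by
  simpa [inM] using HNNExtension.of_injective (graphEquiv φ) h

theorem inB_injective : Function.Injective (inB φ) := fun a b h => by
  simpa [inB] using HNNExtension.of_injective (graphEquiv φ) h

/-- An element of the second factor has a word of linear length. -/
theorem bWord {C : ℕ} (hC : WordBound φ vM vB C) (w : Wd (GLet αM αB)) {b : B}
    (h : wev (gVal φ vM vB) w = inB φ b) :
    ∃ v : Wd αB, v.length ≤ (C + 1) * w.length ∧ wev vB v = b := by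
  obtain ⟨f, hf, hr, hm, he, -⟩ := exists_form hC w
  obtain ⟨hnil, hs⟩ := nil_of_eq_of hr (x := (1, b)) (by rw [hf, h]; rfl)
  refine ⟨f.1.2, ?_, congrArg Prod.snd hs⟩
  simp [mLen, hnil] at hm
  simp [exc, hnil] at he
  have := Nat.mul_le_mul_left C hm
  rw [Nat.add_mul]
  omega

theorem seg_bound {C n : ℕ} {f : Form αM αB} (hm : mLen f ≤ n) (he : exc C f ≤ n) :
    f.1.2.length ≤ (C + 1) * n ∧ ∀ p ∈ f.2, p.2.1.length ≤ n ∧ p.2.2.length ≤ (C + 1) * n := by
  have aux : ∀ a b : ℕ, a ≤ n → b - C * a ≤ n → b ≤ (C + 1) * n := by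
    intro a b ha hb
    have := Nat.mul_le_mul_left C ha
    rw [Nat.add_mul]
    omega
  simp [mLen] at hm
  simp [exc] at he
  refine ⟨aux f.1.1.length _ (by omega) (by omega), fun p hp => ?_⟩
  have h1 := List.single_le_sum (l := f.2.map fun p => p.2.1.length) (by simp) _
    (List.mem_map.2 ⟨p, hp, rfl⟩)
  have h2 := List.single_le_sum (l := f.2.map fun p => p.2.2.length - C * p.2.1.length) (by simp) _
    (List.mem_map.2 ⟨p, hp, rfl⟩)
  exact ⟨by omega, aux p.2.1.length _ (by omega) (by omega)⟩

/-! Certificates. `NU` refutes membership in `U`, `NB` triviality in `B`, `Dr` derives triviality of a word. -/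

section Cert

variable (φ vM vB) (NU : Wd αM → Prop) (NB : Wd αB → Prop) (Dr : Wd (GLet αM αB) → Prop)

/-- A certificate that `t^ε s t^(-ε)` does not reduce. -/
def PinchNeg (ε : Bool) (s : Seg αM αB) : Prop :=
  NU s.1 ∨ if ε then NB s.2 else
    ∃ b : Wd αB, Dr (weq ([(Sum.inr (Sum.inr ()), true)] ++ segWord (s.1, []) ++
        [(Sum.inr (Sum.inr ()), false)]) (segWord (s.1, b))) ∧ NB (s.2 ++ winv b)

/-- A certified pinch-free form of `w` which, if it has no stable letter, has a segment satisfying `Pz`. -/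
def Cert (Pz : Seg αM αB → Prop) (w : Wd (GLet αM αB)) : Prop :=
  ∃ f : Form αM αB, Dr (weq w (formWord f)) ∧
    (∀ q ∈ f.2.zip f.2.tail, q.1.1 = q.2.1 ∨ PinchNeg NU NB Dr q.1.1 q.1.2) ∧
    (f.2 ≠ [] ∨ Pz f.1)

variable {φ vM vB NU NB Dr}

theorem pinchNeg_sound (hNU : ∀ m, NU m → wev vM m ∉ U) (hNB : ∀ b, NB b → wev vB b ≠ 1)
    (hDr : ∀ w, Dr w → wev (gVal φ vM vB) w = 1) {ε : Bool} {s : Seg αM αB}
    (h : PinchNeg NU NB Dr ε s) : ¬ Pinch φ vM vB ε s := by
  rintro ⟨hu, hb⟩
  rcases h with h | h
  · exact hNU _ h hu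
  cases ε
  · simp at h hb
    obtain ⟨b, hd, hn⟩ := h
    refine hNB _ hn ?_
    have e := hDr _ hd
    rw [wev_weq, wev_cons, wev_append, gVal_segWord, gVal_segWord, wev_pos, wev_neg] at e
    have e2 := r_conj φ ⟨_, hu⟩
    have e3 : (HNNExtension.of ((wev vM s.1, φ ⟨_, hu⟩) : M × B) : GraphHNN φ) =
        HNNExtension.of (segVal vM vB (s.1, b)) := by
      rw [← e]
      simp only [gVal, segVal, wev_nil]
      rw [show HNNExtension.of ((wev vM s.1, 1) : M × B) = inM φ (wev vM s.1) from rfl, ← mul_assoc,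
        e2]
      simp [inM, inB, ← map_mul]
    have := congrArg Prod.snd (HNNExtension.of_injective _ e3)
    simp [segVal] at this
    rw [wev_append, wev_winv, hb, this, mul_inv_cancel]
  · exact hNB _ (by simpa using h) (by simpa using hb)

theorem cert_sound (hNU : ∀ m, NU m → wev vM m ∉ U) (hNB : ∀ b, NB b → wev vB b ≠ 1)
    (hDr : ∀ w, Dr w → wev (gVal φ vM vB) w = 1) {Pz : Seg αM αB → Prop} {w : Wd (GLet αM αB)}
    (h : Cert NU NB Dr Pz w) {x : M × B} (hx : wev (gVal φ vM vB) w = HNNExtension.of x) :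
    ∃ s, Pz s ∧ segVal vM vB s = x := by
  obtain ⟨f, hd, hc, hz⟩ := h
  have e := (wev_weq _ _ _).1 (hDr _ hd)
  rw [hx, wev_formWord] at e
  have hred : Red φ vM vB f := by
    obtain ⟨s, l⟩ := f
    dsimp [Red] at hc ⊢
    clear hd hz e
    induction l with
    | nil => exact List.isChain_nil
    | cons p l ih =>
      refine List.isChain_cons.2 ⟨fun q hq => ?_, ih fun q hq => ?_⟩
      · rcases l with _ | ⟨p', l'⟩
        · simp at hq
        · simp at hq
          subst hq
          rcases hc (p, p') (by simp) with h | h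
          · exact Or.inl h
          · exact Or.inr (pinchNeg_sound hNU hNB hDr h)
      · rcases l with _ | ⟨p', l'⟩
        · simp at hq
        · exact hc q (by simp at hq ⊢; exact Or.inr hq)
  obtain ⟨hnil, hs⟩ := nil_of_eq_of hred e.symm
  exact ⟨f.1, hz.resolve_left (fun hne => hne hnil), hs⟩

theorem cert_complete {C : ℕ} (hC : WordBound φ vM vB C) (w : Wd (GLet αM αB))
    (hNU : ∀ m, m.length ≤ w.length → wev vM m ∉ U → NU m)
    (hNB : ∀ b, b.length ≤ (2 * C + 1) * w.length → wev vB b ≠ 1 → NB b)
    (hDr : ∀ v, wev (gVal φ vM vB) v = 1 → Dr v) (Pz : Seg αM αB → Prop)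
    (hPz : ∀ s : Seg αM αB, s.1.length ≤ w.length → s.2.length ≤ (C + 1) * w.length →
      wev (gVal φ vM vB) w = HNNExtension.of (segVal vM vB s) → Pz s) :
    Cert NU NB Dr Pz w := by
  obtain ⟨f, hf, hr, hm, he, -⟩ := exists_form hC w
  obtain ⟨h0, hseg⟩ := seg_bound hm he
  refine ⟨f, hDr _ ((wev_weq _ _ _).2 (by rw [wev_formWord, hf])), ?_, ?_⟩
  · have hstep : ∀ p ∈ f.2, ¬ Pinch φ vM vB p.1 p.2 → PinchNeg NU NB Dr p.1 p.2 := by
      intro p hp hn
      by_cases hu : wev vM p.2.1 ∈ U
      · refine Or.inr ?_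
        obtain ⟨h1, h2⟩ := hseg p hp
        obtain ⟨ε, s⟩ := p
        cases ε
        · obtain ⟨b, hbl, hbv⟩ := hC s.1 hu
          simp only [Bool.false_eq_true, if_false]
          refine ⟨b, hDr _ ?_, hNB _ ?_ ?_⟩
          · rw [wev_weq, List.append_assoc, List.singleton_append, wev_cons, wev_append, gVal_segWord,
              gVal_segWord, wev_pos, wev_neg]
            simp only [gVal, segVal, wev_nil, hbv]
            rw [← mul_assoc, mul_inv_eq_iff_eq_mul]
            show r φ * inM φ (wev vM s.1) = _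
            rw [r_conj φ ⟨_, hu⟩]
            simp [inM, inB, ← map_mul]
          · rw [List.length_append, length_winv]
            have := Nat.mul_le_mul_left C h1
            dsimp at h1 h2 this
            rw [Nat.add_mul] at h2 ⊢
            rw [Nat.mul_assoc]
            omega
          · rw [wev_append, wev_winv, hbv, Ne, mul_inv_eq_one]
            exact fun hb => hn ⟨hu, by simpa using hb⟩
        · simp only [if_true]
          refine hNB _ ?_ fun hb => hn ⟨hu, by simpa using hb⟩
          dsimp at h2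
          rw [Nat.add_mul] at h2 ⊢
          rw [Nat.mul_assoc]
          omega
      · exact Or.inl (hNU _ (hseg p hp).1 hu)
    intro q hq
    obtain ⟨p, p'⟩ := q
    have hp : p ∈ f.2 := (List.of_mem_zip hq).1
    have : p.1 = p'.1 ∨ ¬ Pinch φ vM vB p.1 p.2 := by
      obtain ⟨s, l⟩ := f
      dsimp [Red] at hr hq ⊢
      clear hp hseg hstep hf hm he h0
      induction l with
      | nil => simp at hq
      | cons a l ih =>
        rcases l with _ | ⟨a', l'⟩
        · simp at hq
        · simp at hq
          rw [List.isChain_cons_cons] at hr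
          rcases hq with ⟨rfl, rfl⟩ | hq
          · exact hr.1
          · exact ih hr.2 (by simpa using hq)
    rcases this with h | h
    · exact Or.inl h
    · exact Or.inr (hstep p hp h)
  · by_cases hnil : f.2 = []
    · refine Or.inr (hPz _ ?_ h0 ?_)
      · simp [mLen, hnil] at hm; omega
      · rw [← hf, formVal, hnil]; simp
    · exact Or.inl hnil

end Cert

end

end Vale.P193.GraphHNN
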