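import Mathlib.GroupTheory.HNNExtension
import Mathlib.Algebra.Group.Subgroup.Map
import Mathlib.Algebra.Ring.Divisibility.Basic
import Mathlib.Tactic.Group

/-! P193: existence of multiple HNN extensions with Britton's lemma, and the valid lemma for affine rules. -/

namespace Vale.P193.Hnn

open HNNExtension HNNExtension.NormalWord

universe u
variable {G : Type u} [Group G]

variable (G) in
/-- An associated pair of subgroups with an isomorphism. -/
structure Pair where
  A : Subgroup G
  B : Subgroup G
  φ : A ≃* B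


/-- Letters of a word in a multiple extension. -/
abbrev Lett (G : Type u) (n : ℕ) := Fin n × ℤˣ × G

/-- Evaluation of a word. -/
def val {H : Type u} [Group H] {n : ℕ} (ι : G →* H) (τ : Fin n → H) (g : G) (l : List (Lett G n)) : H :=
  ι g * (l.map fun p => τ p.1 ^ (p.2.1 : ℤ) * ι p.2.2).prod

/-- No pinch. -/
def Red {n : ℕ} (R : Fin n → Pair G) (l : List (Lett G n)) : Prop :=
  l.IsChain fun a b =>
    a.2.2 ∈ toSubgroup (R a.1).A (R a.1).B a.2.1 → a.1 = b.1 → a.2.1 = b.2.1

/-- The letters before the first top letter. -/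
def pref {n : ℕ} : List (Lett G (n + 1)) → List (Lett G n)
  | [] => []
  | p :: l => Fin.lastCases [] (fun j => (j, p.2) :: pref l) p.1

/-- The signs of the top letters. -/
def tops {n : ℕ} : List (Lett G (n + 1)) → List ℤˣ
  | [] => []
  | p :: l => Fin.lastCases (p.2.1 :: tops l) (fun _ => tops l) p.1

theorem pref_red {n : ℕ} {R : Fin (n + 1) → Pair G} :
    ∀ {l : List (Lett G (n + 1))}, Red R l → Red (fun i : Fin n => R i.castSucc) (pref l)
  | [], _ => List.isChain_nil
  | [(i, p)], _ => by
    induction i using Fin.lastCases <;> simp [pref, Red]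
  | (i, p) :: (j, q) :: l, h => by
    have ih := pref_red (List.isChain_cons.1 h).2
    induction i using Fin.lastCases with
    | last => simp [pref, Red]
    | cast i =>
      induction j using Fin.lastCases with
      | last => simp [pref, Red]
      | cast j =>
        simp only [pref, Fin.lastCases_castSucc] at ih ⊢
        refine List.isChain_cons.2 ⟨fun b hb hm he => ?_, ih⟩
        simp only [List.head?_cons, Option.mem_def, Option.some.injEq] at hb
        subst hb
        exact (List.isChain_cons.1 h).1 _ rfl hm (by simpa using congrArg Fin.castSucc he)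

/-- A multiple HNN extension, with Britton's lemma. -/
structure Model {n : ℕ} (R : Fin n → Pair G) (H : Type u) [Group H] where
  ι : G →* H
  τ : Fin n → H
  inj : Function.Injective ι
  rel : ∀ i (a : (R i).A), τ i * ι a = ι ((R i).φ a : G) * τ i
  britton : ∀ g l, Red R l → val ι τ g l ∈ ι.range → l = []

theorem exists_model : ∀ {n : ℕ} (R : Fin n → Pair G),
    ∃ (H : Type u) (_ : Group H), Nonempty (Model R H)
  | 0, R => ⟨G, inferInstance,
      ⟨{ ι := MonoidHom.id G
         τ := Fin.elim0
         inj := fun _ _ h => h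
         rel := fun i => i.elim0
         britton := fun g l _ _ => by
           rcases l with _ | ⟨⟨i, p⟩, l⟩
           · rfl
           · exact i.elim0 }⟩⟩
  | n + 1, R => by
    obtain ⟨H, _, ⟨M⟩⟩ := exists_model (fun i : Fin n => R i.castSucc)
    set P := R (Fin.last n)
    let eA := P.A.equivMapOfInjective M.ι M.inj
    let eB := P.B.equivMapOfInjective M.ι M.inj
    let ψ : P.A.map M.ι ≃* P.B.map M.ι := eA.symm.trans (P.φ.trans eB)
    have hψ : ∀ a : P.A, (ψ (eA a) : H) = M.ι (P.φ a : G) := fun a => by
      simp [ψ, eB, Subgroup.coe_equivMapOfInjective_apply]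
    refine ⟨HNNExtension H _ _ ψ, inferInstance,
      ⟨{ ι := of.comp M.ι
         τ := Fin.snoc (fun i => of (M.τ i)) t
         inj := (of_injective ψ).comp M.inj
         rel := ?_, britton := ?_ }⟩⟩
    · intro i
      induction i using Fin.lastCases with
      | last =>
        intro a
        have := t_mul_of (φ := ψ) (eA a)
        rw [hψ, Subgroup.coe_equivMapOfInjective_apply] at this
        simpa using this
      | cast j =>
        intro a
        simpa [← map_mul] using congrArg (of (φ := ψ)) (M.rel j a)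
    · intro g l hl hg
      have side : ∀ e (h : H), h ∈ toSubgroup (P.A.map M.ι) (P.B.map M.ι) e →
          ∃ a ∈ toSubgroup P.A P.B e, M.ι a = h := by
        intro e h hh
        rcases Int.units_eq_one_or e with rfl | rfl <;> exact Subgroup.mem_map.1 hh
      have key : ∀ (l : List (Lett G (n + 1))), Red R l → ∀ g,
          ∃ w : ReducedWord H (P.A.map M.ι) (P.B.map M.ι),
            w.prod ψ = val (of.comp M.ι) (Fin.snoc (fun i => of (M.τ i)) t) g l ∧
              w.head = val M.ι M.τ g (pref l) ∧ w.toList.map Prod.fst = tops l := by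
        intro l
        induction l with
        | nil =>
          exact fun _ g => ⟨⟨M.ι g, [], List.isChain_nil⟩,
            by simp [ReducedWord.prod, val], by simp [val, pref], rfl⟩
        | cons p l ih =>
          intro hl g
          obtain ⟨i, e, h⟩ := p
          obtain ⟨w, hw, hh, ht⟩ := ih (List.isChain_cons.1 hl).2 h
          induction i using Fin.lastCases with
          | cast j =>
            refine ⟨⟨M.ι g * M.τ j ^ (e : ℤ) * w.head, w.toList, w.chain⟩, ?_, ?_, by simpa [tops] using ht⟩
            · have e1 : (ReducedWord.prod ψ ⟨M.ι g * M.τ j ^ (e : ℤ) * w.head, w.toList, w.chain⟩) =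
                  of (M.ι g * M.τ j ^ (e : ℤ)) * w.prod ψ := by
                simp [ReducedWord.prod, mul_assoc]
              rw [e1, hw]
              simp [val, mul_assoc]
            · simp [val, pref, hh, mul_assoc]
          | last =>
            refine ⟨⟨M.ι g, (e, w.head) :: w.toList, List.isChain_cons.2 ⟨fun b hb hm => ?_, w.chain⟩⟩,
              ?_, by simp [val, pref], by simpa [tops] using ht⟩
            · obtain ⟨a, ha, hae⟩ := side e _ hm
              rw [hh] at hae
              have hp := M.britton h (pref l) (pref_red (List.isChain_cons.1 hl).2) ⟨a, hae⟩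
              obtain rfl : a = h := M.inj (by simpa [hp, val] using hae)
              rcases l with _ | ⟨⟨j, q⟩, l⟩
              · simp only [tops, List.map_eq_nil_iff] at ht
                simp [ht] at hb
              · induction j using Fin.lastCases with
                | cast j => simp [pref] at hp
                | last =>
                  have hb' : b.1 = q.1 := by
                    have h2 := congrArg List.head? ht
                    rw [List.head?_map, (Option.mem_def.1 hb)] at h2
                    simpa [tops] using h2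
                  rw [hb']
                  exact (List.isChain_cons.1 hl).1 _ rfl ha rfl
            · rw [show ReducedWord.prod ψ ⟨M.ι g, (e, w.head) :: w.toList, _⟩ =
                of (M.ι g) * t ^ (e : ℤ) * w.prod ψ by simp [ReducedWord.prod, mul_assoc], hw]
              simp [val, mul_assoc]
      obtain ⟨w, hw, hh, ht⟩ := key l hl g
      obtain ⟨a, ha⟩ := hg
      have hnil := ReducedWord.toList_eq_nil_of_mem_of_range ψ w ⟨M.ι a, by rw [hw]; exact ha⟩
      have hwh : of w.head = (of (M.ι a) : HNNExtension H _ _ ψ) := by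
        rw [show of (M.ι a) = w.prod ψ from by rw [hw]; exact ha]
        simp [ReducedWord.prod, hnil]
      have hp := M.britton g (pref l) (pref_red hl) ⟨a, by rw [← hh]; exact (of_injective ψ hwh).symm⟩
      rcases l with _ | ⟨⟨i, q⟩, l⟩
      · rfl
      · induction i using Fin.lastCases with
        | cast i => simp [pref] at hp
        | last => simp [hnil, tops] at ht

theorem Model.rel_pow {n : ℕ} {R : Fin n → Pair G} {H : Type u} [Group H] (M : Model R H) (i : Fin n)
    (e : ℤˣ) (a : toSubgroup (R i).A (R i).B e) :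
    M.τ i ^ (e : ℤ) * M.ι a = M.ι (toSubgroupEquiv (R i).φ e a : G) * M.τ i ^ (e : ℤ) := by
  rcases Int.units_eq_one_or e with rfl | rfl
  · simp only [Units.val_one, zpow_one, toSubgroupEquiv_one]; exact M.rel i a
  · simp only [Units.val_neg, Units.val_one, zpow_neg, zpow_one, toSubgroupEquiv_neg_one]
    have hb : (((R i).φ ((R i).φ.symm a) : (R i).B) : G) = (a : G) :=
      congrArg Subtype.val ((R i).φ.apply_symm_apply a)
    have h' := M.rel i ((R i).φ.symm a)
    rw [hb] at h'
    rw [inv_mul_eq_iff_eq_mul, ← mul_assoc]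
    exact eq_mul_inv_of_mul_eq h'.symm

/-! ### Affine rules as stable letters over `ℤ^ι` -/

section Machine

variable {ι : Type}

/-- The rule `c₀ + p u ↦ c₁ + q u`, coordinatewise, where `p` and `q` vanish at the same places. -/
structure DRule (ι : Type) where
  c0 : ι → ℤ
  c1 : ι → ℤ
  p : ι → ℤ
  q : ι → ℤ
  hpq : ∀ j, p j = 0 ↔ q j = 0

/-- The lattice of multiples of `p`. -/
def lat (p : ι → ℤ) : AddSubgroup (ι → ℤ) where
  carrier := {v | ∀ j, p j ∣ v j}
  add_mem' ha hb j := dvd_add (ha j) (hb j)
  zero_mem' _ := dvd_zero _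
  neg_mem' ha j := (ha j).neg_right

theorem scale_back {p q v : ℤ} (h : p = 0 ↔ q = 0) (hv : p ∣ v) :
    p * ((q * (v / p)) / q) = v := by
  by_cases hq : q = 0
  · obtain rfl := h.2 hq
    simp [zero_dvd_iff.1 hv]
  · rw [Int.mul_ediv_cancel_left _ hq, Int.mul_ediv_cancel' hv]

/-- The scaling between the two lattices. -/
def DRule.scale (r : DRule ι) : lat r.p ≃+ lat r.q where
  toFun v := ⟨fun j => r.q j * (v.1 j / r.p j), fun j => dvd_mul_right _ _⟩
  invFun v := ⟨fun j => r.p j * (v.1 j / r.q j), fun j => dvd_mul_right _ _⟩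
  left_inv v := Subtype.ext (funext fun j => scale_back (r.hpq j) (v.2 j))
  right_inv v := Subtype.ext (funext fun j => scale_back (r.hpq j).symm (v.2 j))
  map_add' v w := Subtype.ext (funext fun j => by
    show r.q j * ((v.1 j + w.1 j) / r.p j) = r.q j * (v.1 j / r.p j) + r.q j * (w.1 j / r.p j)
    rw [Int.add_ediv_of_dvd_left (v.2 j), mul_add])

/-- The configurations form a multiplicative copy of `ℤ^ι`. -/
abbrev Y (ι : Type) := Multiplicative (ι → ℤ)

/-- A rule as an associated pair. -/
def DRule.pair (r : DRule ι) : Pair (Y ι) where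
  A := AddSubgroup.toSubgroup (lat r.p)
  B := AddSubgroup.toSubgroup (lat r.q)
  φ := AddEquiv.toMultiplicative r.scale

/-- The end of the signed rule that it leaves. -/
def DRule.src (r : DRule ι) (e : ℤˣ) : ι → ℤ := if e = 1 then r.c0 else r.c1

/-- The end of the signed rule that it enters. -/
def DRule.dst (r : DRule ι) (e : ℤˣ) : ι → ℤ := if e = 1 then r.c1 else r.c0

theorem DRule.src_neg (r : DRule ι) (e : ℤˣ) : r.src (-e) = r.dst e := by
  rcases Int.units_eq_one_or e with rfl | rfl <;> simp [DRule.src, DRule.dst]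

theorem DRule.dst_neg (r : DRule ι) (e : ℤˣ) : r.dst (-e) = r.src e := by
  rcases Int.units_eq_one_or e with rfl | rfl <;> simp [DRule.src, DRule.dst]

/-- `c` moves to `c'` by the signed rule. -/
def DRule.Move (r : DRule ι) (e : ℤˣ) (c c' : ι → ℤ) : Prop :=
  ∃ h : Multiplicative.ofAdd (c - r.src e) ∈ toSubgroup r.pair.A r.pair.B e,
    c' = r.dst e + Multiplicative.toAdd (toSubgroupEquiv r.pair.φ e ⟨_, h⟩ : Y ι)

variable {n : ℕ} (rs : Fin n → DRule ι)

/-- A path of signed rules; the last letter acts first. -/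
def Path : List (Fin n × ℤˣ) → (ι → ℤ) → (ι → ℤ) → Prop
  | [], c, c' => c = c'
  | p :: l, c, c' => ∃ d, Path l c d ∧ (rs p.1).Move p.2 d c'

/-- No letter followed by its inverse. -/
def Free (l : List (Fin n × ℤˣ)) : Prop := l.IsChain fun a b => a.1 = b.1 → a.2 = b.2

variable {rs} {H : Type} [Group H] (M : Model (fun i => (rs i).pair) H)

/-- A configuration in the group. -/
def pt (c : ι → ℤ) : H := M.ι (Multiplicative.ofAdd c)

/-- A signed rule in the group. -/
def ev (l : List (Fin n × ℤˣ)) : H := (l.map fun p => M.τ p.1 ^ (p.2 : ℤ)).prod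

/-- The element `y^{-c₁} r y^{c₀}`. -/
def fix' (i : Fin n) : H := (pt M (rs i).c1)⁻¹ * M.τ i * pt M (rs i).c0

/-- The stabiliser of the base coset. -/
def Hh : Subgroup H := Subgroup.closure (Set.range (fix' M))

theorem pt_add (c d : ι → ℤ) : pt M (c + d) = pt M c * pt M d := by simp [pt]

theorem pt_neg (c : ι → ℤ) : pt M (-c) = (pt M c)⁻¹ := by simp [pt]

theorem fix_zpow (i : Fin n) (e : ℤˣ) :
    fix' M i ^ (e : ℤ) = (pt M ((rs i).dst e))⁻¹ * M.τ i ^ (e : ℤ) * pt M ((rs i).src e) := by
  rcases Int.units_eq_one_or e with rfl | rfl <;> simp [fix', DRule.src, DRule.dst, mul_assoc]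

theorem move_eq {i : Fin n} {e : ℤˣ} {c c' : ι → ℤ} (h : (rs i).Move e c c') :
    M.τ i ^ (e : ℤ) * pt M c = pt M c' * fix' M i ^ (e : ℤ) := by
  obtain ⟨h, rfl⟩ := h
  have key := M.rel_pow i e
  have e1 : pt M c = M.ι (Multiplicative.ofAdd (c - (rs i).src e)) * pt M ((rs i).src e) := by
    rw [show M.ι (Multiplicative.ofAdd (c - (rs i).src e)) = pt M (c - (rs i).src e) from rfl,
      ← pt_add, sub_add_cancel]
  rw [fix_zpow, pt_add, e1, ← mul_assoc, key ⟨_, h⟩]
  simp only [pt, ofAdd_toAdd]
  have comm : ∀ a b : Y ι, M.ι a * M.ι b = M.ι b * M.ι a := fun a b => by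
    rw [← map_mul, ← map_mul, mul_comm]
  simp only [← mul_assoc]
  rw [comm (Multiplicative.ofAdd ((rs i).dst e))]
  simp [mul_assoc]

theorem path_mem {l : List (Fin n × ℤˣ)} {c c' : ι → ℤ} (h : Path rs l c c') :
    (pt M c')⁻¹ * ev M l * pt M c ∈ Hh M := by
  induction l generalizing c' with
  | nil => obtain rfl : c = c' := h; simp [ev]
  | cons p l ih =>
    obtain ⟨d, hd, hm⟩ := h
    have h2 : fix' M p.1 ^ (p.2 : ℤ) ∈ Hh M := by
      refine zpow_mem ?_ _
      exact Subgroup.subset_closure (Set.mem_range_self p.1)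
    convert mul_mem h2 (ih hd) using 1
    rw [show fix' M p.1 ^ (p.2 : ℤ) = (pt M c')⁻¹ * M.τ p.1 ^ (p.2 : ℤ) * pt M d by
      rw [mul_assoc, move_eq M hm, inv_mul_cancel_left]]
    simp [ev, mul_assoc]

/-- The letters of a product of fixing elements. -/
def hword : List (Fin n × ℤˣ) → List (Lett (Y ι) n)
  | [] => []
  | [p] => [(p.1, p.2, Multiplicative.ofAdd ((rs p.1).src p.2))]
  | p :: q :: l => (p.1, p.2, Multiplicative.ofAdd ((rs p.1).src p.2 - (rs q.1).dst q.2)) :: hword (q :: l)

/-- The first base entry of `hword`. -/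
def hhead (c : ι → ℤ) : List (Fin n × ℤˣ) → Y ι
  | [] => Multiplicative.ofAdd c
  | q :: _ => Multiplicative.ofAdd (c - (rs q.1).dst q.2)

theorem hword_red : ∀ {q : List (Fin n × ℤˣ)}, Free q → Red (fun i => (rs i).pair) (hword (rs := rs) q)
  | [], _ => List.isChain_nil
  | [_], _ => by simp [hword, Red]
  | [p, p'], h => by
    simp only [hword, Red, List.isChain_pair]
    exact fun _ e => (List.isChain_cons.1 h).1 p' rfl e
  | p :: p' :: p'' :: l, h => by
    refine List.isChain_cons.2 ⟨fun b hb _ e => ?_, hword_red (List.isChain_cons.1 h).2⟩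
    simp only [hword, List.head?_cons, Option.mem_def, Option.some.injEq] at hb
    subst hb
    exact (List.isChain_cons.1 h).1 p' rfl e

theorem val_hword : ∀ (c : ι → ℤ) (q : List (Fin n × ℤˣ)),
    val M.ι M.τ (hhead (rs := rs) c q) (hword (rs := rs) q) =
      pt M c * (q.map fun p => fix' M p.1 ^ (p.2 : ℤ)).prod
  | c, [] => by simp [val, hword, hhead, pt]
  | c, [p] => by simp [val, hword, hhead, fix_zpow, pt, mul_assoc, div_eq_mul_inv]
  | c, p :: p' :: l => by
    have ih := val_hword ((rs p.1).src p.2) (p' :: l)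
    simp only [val, hhead] at ih
    simp only [List.map_cons, List.prod_cons, val, hword, hhead] at ih ⊢
    simp only [fix_zpow, pt, ofAdd_sub, div_eq_mul_inv, map_mul, map_inv, mul_assoc] at ih ⊢
    rw [← ih]

/-- The letters of a path word followed by a configuration and fixing elements. -/
def lword : List (Fin n × ℤˣ) → Y ι → List (Lett (Y ι) n) → List (Lett (Y ι) n)
  | [], _, _ => []
  | [p], g, t => (p.1, p.2, g) :: t
  | p :: q :: l, g, t => (p.1, p.2, 1) :: lword (q :: l) g t

theorem val_lword : ∀ (l : List (Fin n × ℤˣ)) (g : Y ι) (t : List (Lett (Y ι) n)), l ≠ [] →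
    val M.ι M.τ 1 (lword l g t) = ev M l * val M.ι M.τ g t
  | [p], g, t, _ => by simp [val, lword, ev, mul_assoc]
  | p :: q :: l, g, t, _ => by
    have ih := val_lword (q :: l) g t (by simp)
    simp [val, ev] at ih ⊢
    simp [lword, mul_assoc, ih]

theorem lword_red : ∀ {l : List (Fin n × ℤˣ)} {g : Y ι} {t : List (Lett (Y ι) n)}, Free l →
    Red (fun i => (rs i).pair) t →
    (∀ p ∈ l.getLast?, ∀ b ∈ t.head?, g ∈ toSubgroup (rs p.1).pair.A (rs p.1).pair.B p.2 →
      p.1 = b.1 → p.2 = b.2.1) →
    Red (fun i => (rs i).pair) (lword l g t)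
  | [], _, _, _, _, _ => List.isChain_nil
  | [p], _, _, _, ht, hj => List.isChain_cons.2 ⟨fun b hb => hj p rfl b hb, ht⟩
  | [p, q], g, t, h, ht, hj => List.isChain_cons.2
      ⟨fun b hb _ e => by
        simp only [lword, List.head?_cons, Option.mem_def, Option.some.injEq] at hb
        subst hb
        exact (List.isChain_cons.1 h).1 q rfl e,
      lword_red (List.isChain_cons.1 h).2 ht (by simpa using hj)⟩
  | p :: q :: q' :: l, g, t, h, ht, hj => List.isChain_cons.2
      ⟨fun b hb _ e => by
        simp only [lword, List.head?_cons, Option.mem_def, Option.some.injEq] at hb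
        subst hb
        exact (List.isChain_cons.1 h).1 q rfl e,
      lword_red (List.isChain_cons.1 h).2 ht (by simpa using hj)⟩

theorem path_append : ∀ {l : List (Fin n × ℤˣ)} {p : Fin n × ℤˣ} {c d c' : ι → ℤ},
    (rs p.1).Move p.2 c d → Path rs l d c' → Path rs (l ++ [p]) c c'
  | [], _, c, _, _, hm, rfl => ⟨c, rfl, hm⟩
  | _ :: _, _, _, _, _, hm, ⟨z, hz, hz'⟩ => ⟨z, path_append hm hz, hz'⟩

/-- A free word carries one configuration coset to another only along a path. -/
theorem path_of_eq : ∀ (l : List (Fin n × ℤˣ)) (q : List (Fin n × ℤˣ)) (c c' : ι → ℤ),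
    Free l → Free q →
    ev M l * pt M c * (q.map fun p => fix' M p.1 ^ (p.2 : ℤ)).prod = pt M c' → Path rs l c c' := by
  intro l
  induction l using List.reverseRecOn with
  | nil =>
    intro q c c' _ hq h
    have h' : pt M c * (q.map fun p => fix' M p.1 ^ (p.2 : ℤ)).prod = pt M c' := by simpa [ev] using h
    rw [← val_hword] at h'
    rcases q with _ | ⟨p, q⟩
    · exact Multiplicative.ofAdd.injective (M.inj (by simpa [val, hword, hhead, pt] using h'))
    · have := M.britton _ _ (hword_red hq) ⟨_, h'.symm⟩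
      rcases q with _ | ⟨p', q⟩ <;> simp [hword] at this
  | append_singleton l p ih =>
    intro q c c' hl hq h
    rw [mul_assoc, ← val_hword, ← val_lword M _ _ _ (by simp)] at h
    by_cases hj : ∀ b ∈ (hword (rs := rs) q).head?, hhead (rs := rs) c q ∈
        toSubgroup (rs p.1).pair.A (rs p.1).pair.B p.2 → p.1 = b.1 → p.2 = b.2.1
    · have hred := lword_red (l := l ++ [p]) hl (hword_red hq) (by simpa using hj)
      have := M.britton _ _ hred ⟨_, h.symm⟩
      rcases l with _ | ⟨a, _ | ⟨a', l⟩⟩ <;> simp [lword] at this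
    simp only [not_forall] at hj
    obtain ⟨b, hb, hg, hb1, hb2⟩ := hj
    rcases q with _ | ⟨p', q⟩
    · simp [hword] at hb
    have hbp : b.1 = p'.1 ∧ b.2.1 = p'.2 := by
      rcases q with _ | ⟨p'', q⟩ <;>
      · simp only [hword, List.head?_cons, Option.mem_def, Option.some.injEq] at hb
        subst hb
        exact ⟨rfl, rfl⟩
    obtain rfl : p' = (p.1, -p.2) := by
      refine Prod.ext (by rw [hb1, hbp.1]) ?_
      rcases Int.units_eq_one_or p.2 with e1 | e1 <;> rcases Int.units_eq_one_or p'.2 with e2 | e2 <;>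
        simp_all
    have hmove : Multiplicative.ofAdd (c - (rs p.1).src p.2) ∈
        toSubgroup (rs p.1).pair.A (rs p.1).pair.B p.2 := by simpa [hhead, DRule.dst_neg] using hg
    obtain ⟨d, hd⟩ : ∃ d, (rs p.1).Move p.2 c d := ⟨_, hmove, rfl⟩
    refine path_append hd (ih q d c' (hl.left_of_append) (List.isChain_cons.1 hq).2 ?_)
    rw [val_lword M _ _ _ (by simp), val_hword] at h
    simp only [ev, List.map_append, List.prod_append,
      List.map_cons, List.prod_cons, Units.val_neg, zpow_neg] at h
    rw [← h]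
    simp only [ev, List.map_nil, List.prod_nil, one_mul, mul_assoc]
    rw [← mul_assoc (M.τ p.1 ^ (p.2 : ℤ)) (pt M c), move_eq M hd]
    simp [mul_assoc]

/-- Every element of `Hh` is a free product of fixing elements. -/
theorem exists_free {x : H} (hx : x ∈ Hh M) :
    ∃ q, Free q ∧ x = (q.map fun p => fix' M p.1 ^ (p.2 : ℤ)).prod := by
  have push : ∀ i (e : ℤˣ) (q : List (Fin n × ℤˣ)), Free q → ∃ q', Free q' ∧
      fix' M i ^ (e : ℤ) * (q.map fun p => fix' M p.1 ^ (p.2 : ℤ)).prod =
        (q'.map fun p => fix' M p.1 ^ (p.2 : ℤ)).prod := by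
    intro i e q hq
    rcases q with _ | ⟨p, q⟩
    · exact ⟨[(i, e)], by simp [Free], by simp⟩
    by_cases hc : p = (i, -e)
    · subst hc
      exact ⟨q, (List.isChain_cons.1 hq).2, by simp⟩
    · refine ⟨(i, e) :: p :: q, List.isChain_cons.2 ⟨fun b hb hi => ?_, hq⟩, by simp⟩
      simp only [List.head?_cons, Option.mem_def, Option.some.injEq] at hb
      subst hb
      rcases Int.units_eq_one_or e with rfl | rfl <;> rcases Int.units_eq_one_or p.2 with e2 | e2 <;>
        simp_all [Prod.ext_iff]
  refine Subgroup.closure_induction_left (p := fun x _ => ∃ q, Free q ∧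
    x = (q.map fun p => fix' M p.1 ^ (p.2 : ℤ)).prod) ⟨[], List.isChain_nil, by simp⟩ ?_ ?_ hx
  · rintro _ ⟨i, rfl⟩ y - ⟨q, hq, rfl⟩
    simpa using push i 1 q hq
  · rintro _ ⟨i, rfl⟩ y - ⟨q, hq, rfl⟩
    simpa using push i (-1) q hq

/-- The valid lemma. -/
theorem mem_Hh_iff {l : List (Fin n × ℤˣ)} (hl : Free l) {c c' : ι → ℤ} :
    (pt M c')⁻¹ * ev M l * pt M c ∈ Hh M ↔ Path rs l c c' := by
  refine ⟨fun h => ?_, path_mem M⟩
  obtain ⟨q, hq, he⟩ := exists_free M (inv_mem h)
  refine path_of_eq M l q c c' hl hq ?_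
  rw [← he]
  group

end Machine

end Vale.P193.Hnn
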