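import Vale.Agent.P193.Gen.MultiDefs
import Vale.Agent.P193.Gen.MultiModel
import Mathlib.Data.Fintype.Basic

/-! P193: universal property, injectivity of the base and Britton's lemma for `MultiHNN`. -/

namespace Vale.P193.MultiHNN

open Monoid Monoid.Coprod

variable {ι G : Type} [Group G] (A B : ι → Subgroup G) (φ : ∀ i, A i ≃* B i)

section Lift

variable {A B φ} {K : Type*} [Group K]

/-- The homomorphism given by images of the base and of the stable letters. -/
def lift (f : G →* K) (x : ι → K) (h : ∀ i (a : A i), x i * f a = f (φ i a : G) * x i) :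
    MultiHNN A B φ →* K :=
  Con.lift (multiCon A B φ) (Coprod.lift f (FreeGroup.lift x)) <| Con.conGen_le.2 <| by
    rintro a b ⟨i, c, rfl, rfl⟩
    simpa [Con.ker_rel] using h i c

@[simp] theorem lift_of (f : G →* K) (x : ι → K) (h) (g : G) :
    lift (A := A) (B := B) (φ := φ) f x h (of A B φ g) = f g := by
  erw [Con.lift_mk']

@[simp] theorem lift_t (f : G →* K) (x : ι → K) (h) (i : ι) :
    lift (A := A) (B := B) (φ := φ) f x h (t A B φ i) = x i := by
  erw [Con.lift_mk']; simp

theorem hom_ext {f g : MultiHNN A B φ →* K} (h₁ : ∀ a, f (of A B φ a) = g (of A B φ a))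
    (h₂ : ∀ i, f (t A B φ i) = g (t A B φ i)) : f = g := by
  refine MonoidHom.cancel_right Con.mk'_surjective |>.1 ?_
  exact Coprod.hom_ext (MonoidHom.ext h₁) (FreeGroup.ext_hom _ _ h₂)

end Lift

variable {n : ℕ} (A' B' : Fin n → Subgroup G) (φ' : ∀ i, A' i ≃* B' i)

/-- The associated pairs. -/
def pairs (i : Fin n) : Hnn.Pair G := ⟨A' i, B' i, φ' i⟩

/-- A model receives a homomorphism from `MultiHNN`. -/
def toModel {H : Type} [Group H] (M : Hnn.Model (pairs A' B' φ') H) : MultiHNN A' B' φ' →* H :=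
  lift M.ι M.τ M.rel

theorem toModel_val {H : Type} [Group H] (M : Hnn.Model (pairs A' B' φ') H) (g : G)
    (l : List (Hnn.Lett G n)) :
    toModel A' B' φ' M (Hnn.val (of A' B' φ') (t A' B' φ') g l) = Hnn.val M.ι M.τ g l := by
  have h1 : ∀ g, toModel A' B' φ' M (of A' B' φ' g) = M.ι g := fun g => lift_of _ _ _ g
  have h2 : ∀ i, toModel A' B' φ' M (t A' B' φ' i) = M.τ i := fun i => lift_t _ _ _ i
  simp only [Hnn.val, map_mul, map_list_prod, List.map_map, h1]
  congr 2
  exact List.map_congr_left fun p _ => by simp [map_mul, map_zpow, h1, h2]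

/-- The base embeds. -/
theorem of_injective : Function.Injective (of A' B' φ') := by
  obtain ⟨H, _, ⟨M⟩⟩ := Hnn.exists_model (pairs A' B' φ')
  intro a b h
  refine M.inj ?_
  exact ((lift_of _ _ _ a).symm.trans (congrArg (toModel A' B' φ' M) h)).trans (lift_of _ _ _ b)

/-- Britton: a nonempty word without pinch is outside the base. -/
theorem britton {g : G} {l : List (Hnn.Lett G n)} (hl : Hnn.Red (pairs A' B' φ') l)
    (h : Hnn.val (of A' B' φ') (t A' B' φ') g l ∈ (of A' B' φ').range) : l = [] := by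
  obtain ⟨H, _, ⟨M⟩⟩ := Hnn.exists_model (pairs A' B' φ')
  obtain ⟨a, ha⟩ := h
  refine M.britton g l hl ⟨a, ?_⟩
  rw [← toModel_val, ← ha]
  exact (lift_of _ _ _ a).symm

end Vale.P193.MultiHNN
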