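import Vale.Agent.P193.Gen.MultiModel

/-!
P193: in a multiple HNN extension a word without pinch is shortest, and a word with value in the base has
value of size at most `D ^ length` times the size of its base entries.
-/

namespace Vale.P193.Hnn

open HNNExtension HNNExtension.NormalWord

universe u

variable {G : Type u} [Group G] {n : ℕ} {R : Fin n → Pair G} {H : Type u} [Group H] (M : Model R H)

theorem val_cons (g : G) (p : Lett G n) (l : List (Lett G n)) :
    val M.ι M.τ g (p :: l) = M.ι g * M.τ p.1 ^ (p.2.1 : ℤ) * val M.ι M.τ p.2.2 l := by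
  simp [val, mul_assoc]

theorem val_mul_left (a g : G) (l : List (Lett G n)) :
    val M.ι M.τ (a * g) l = M.ι a * val M.ι M.τ g l := by
  simp [val, mul_assoc]

/-- Removing a pinch. -/
theorem val_pinch {i : Fin n} {e : ℤˣ} {k : G} (hk : k ∈ toSubgroup (R i).A (R i).B e) (g k' : G)
    (l : List (Lett G n)) :
    val M.ι M.τ g ((i, e, k) :: (i, -e, k') :: l) =
      val M.ι M.τ (g * ((toSubgroupEquiv (R i).φ e ⟨k, hk⟩ : G) * k')) l := by
  rw [val_cons, val_cons, val_mul_left, val_mul_left]
  simp only [mul_assoc]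
  rw [← mul_assoc (M.τ i ^ (e : ℤ)) (M.ι k), M.rel_pow i e ⟨k, hk⟩]
  simp [mul_assoc]

theorem units_eq_neg {a b : ℤˣ} (h : a ≠ b) : b = -a := by
  rcases Int.units_eq_one_or a with rfl | rfl <;> rcases Int.units_eq_one_or b with rfl | rfl <;>
    simp at h ⊢

/-- A word without pinch is shortest. -/
theorem red_min : ∀ (m : List (Lett G n)) (g' g : G) (l : List (Lett G n)), Red R l →
    val M.ι M.τ g l = val M.ι M.τ g' m → l.length ≤ m.length
  | [], g', g, l, hl, h => by
    rw [M.britton g l hl ⟨g', by rw [h]; simp [val]⟩]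
  | (j, e, k) :: m, g', g, l, hl, h => by
    have h' : M.τ j ^ ((-e : ℤˣ) : ℤ) * val M.ι M.τ (g'⁻¹ * g) l = val M.ι M.τ k m := by
      rw [val_mul_left, h, val_cons]
      simp [mul_assoc]
    by_cases hc : Red R ((j, -e, g'⁻¹ * g) :: l)
    · have := red_min m k 1 _ hc (by rw [← h', val_cons]; simp)
      simp only [List.length_cons] at this ⊢
      omega
    · rcases l with _ | ⟨⟨i, e', k'⟩, l⟩
      · simp [Red] at hc
      · have hp : g'⁻¹ * g ∈ toSubgroup (R j).A (R j).B (-e) ∧ j = i ∧ -e ≠ e' := by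
          by_contra hne
          refine hc (List.isChain_cons.2 ⟨fun b hb hm hi => ?_, hl⟩)
          simp only [List.head?_cons, Option.mem_def, Option.some.injEq] at hb
          subst hb
          by_contra he
          exact hne ⟨hm, hi, he⟩
        obtain ⟨hm, rfl, he⟩ := hp
        obtain rfl : e' = - -e := units_eq_neg he
        have hv := val_pinch M hm 1 k' l
        rw [val_cons] at hv
        simp only [map_one, one_mul] at hv
        rw [hv] at h'
        have := red_min m k _ l (List.isChain_cons.1 hl).2 h'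
        simp only [List.length_cons]
        omega

/-- A word with a pinch has an equal word shorter by two. -/
theorem exists_shorter (nu : G → ℕ) (hmul : ∀ a b, nu (a * b) ≤ nu a + nu b) {D : ℕ} (hD : 1 ≤ D)
    (hphi : ∀ i e (a : toSubgroup (R i).A (R i).B e), nu (toSubgroupEquiv (R i).φ e a : G) ≤ D * nu a) :
    ∀ (l : List (Lett G n)) (g : G), ¬ Red R l → ∃ g' l', val M.ι M.τ g l = val M.ι M.τ g' l' ∧
      l'.length + 2 = l.length ∧
      nu g' + (l'.map fun p => nu p.2.2).sum ≤ D * (nu g + (l.map fun p => nu p.2.2).sum)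
  | [], _, h => absurd List.isChain_nil h
  | [p], _, h => absurd (List.isChain_singleton p) h
  | (i, e, k) :: (i', e', k') :: l, g, h => by
    by_cases hp : k ∈ toSubgroup (R i).A (R i).B e ∧ i = i' ∧ e ≠ e'
    · obtain ⟨hk, rfl, he⟩ := hp
      obtain rfl : e' = -e := units_eq_neg he
      refine ⟨_, l, val_pinch M hk g k' l, rfl, ?_⟩
      have h1 := hmul g ((toSubgroupEquiv (R i).φ e ⟨k, hk⟩ : G) * k')
      have h2 := hmul (toSubgroupEquiv (R i).φ e ⟨k, hk⟩ : G) k'
      have h3 := hphi i e ⟨k, hk⟩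
      simp only [List.map_cons, List.sum_cons, mul_add]
      have h4 : nu g ≤ D * nu g := Nat.le_mul_of_pos_left _ hD
      have h5 : nu k' ≤ D * nu k' := Nat.le_mul_of_pos_left _ hD
      have h6 : (l.map fun p => nu p.2.2).sum ≤ D * (l.map fun p => nu p.2.2).sum :=
        Nat.le_mul_of_pos_left _ hD
      dsimp only at h3
      omega
    · have hns : ¬ Red R ((i', e', k') :: l) := fun hr => h (List.isChain_cons.2
        ⟨fun b hb hm hi => by
          simp only [List.head?_cons, Option.mem_def, Option.some.injEq] at hb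
          subst hb
          by_contra he
          exact hp ⟨hm, hi, he⟩, hr⟩)
      obtain ⟨k'', l', hv, hl, hb⟩ := exists_shorter nu hmul hD hphi ((i', e', k') :: l) k hns
      refine ⟨g, (i, e, k'') :: l', ?_, by simp only [List.length_cons] at hl ⊢; omega, ?_⟩
      · rw [val_cons, hv, val_cons]
      · have h4 : nu g ≤ D * nu g := Nat.le_mul_of_pos_left _ hD
        simp only [List.map_cons, List.sum_cons, mul_add] at hb ⊢
        omega

/-- The size of a base value. -/
theorem base_bound (nu : G → ℕ) (hmul : ∀ a b, nu (a * b) ≤ nu a + nu b) {D : ℕ} (hD : 1 ≤ D)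
    (hphi : ∀ i e (a : toSubgroup (R i).A (R i).B e), nu (toSubgroupEquiv (R i).φ e a : G) ≤ D * nu a)
    {a : G} : ∀ (L : ℕ) (g : G) (l : List (Lett G n)), l.length ≤ L → val M.ι M.τ g l = M.ι a →
      nu a ≤ D ^ L * (nu g + (l.map fun p => nu p.2.2).sum) := by
  intro L
  induction L using Nat.strong_induction_on with
  | _ L ih =>
    intro g l hl h
    rcases l with _ | ⟨p, l⟩
    · obtain rfl : g = a := M.inj (by simpa [val] using h)
      simpa using Nat.le_mul_of_pos_left (nu g) (Nat.pow_pos hD)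
    · have hns : ¬ Red R (p :: l) := fun hr => by simpa using M.britton g _ hr ⟨a, h.symm⟩
      obtain ⟨g', l', hv, hlen, hb⟩ := exists_shorter M nu hmul hD hphi _ g hns
      obtain ⟨L', rfl⟩ : ∃ L', L = L' + 1 := ⟨L - 1, by simp only [List.length_cons] at hl; omega⟩
      have := ih L' (Nat.lt_succ_self _) g' l' (by omega) (hv.symm.trans h)
      exact this.trans (by rw [pow_succ, mul_assoc]; exact Nat.mul_le_mul le_rfl hb)

/-- `x` has a word with at most `L` stable letters and base entries of total size at most `C`. -/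
def Small (nu : G → ℕ) (x : H) (L C : ℕ) : Prop :=
  ∃ g l, val M.ι M.τ g l = x ∧ l.length ≤ L ∧ nu g + (l.map fun p => nu p.2.2).sum ≤ C

theorem Small.mono {nu : G → ℕ} {x : H} {L C L' C' : ℕ} (h : Small M nu x L C) (hL : L ≤ L')
    (hC : C ≤ C') : Small M nu x L' C' := by
  obtain ⟨g, l, h1, h2, h3⟩ := h
  exact ⟨g, l, h1, h2.trans hL, h3.trans hC⟩

theorem glue (nu : G → ℕ) (hmul : ∀ a b, nu (a * b) ≤ nu a + nu b) :
    ∀ (l : List (Lett G n)) (g h : G) (m : List (Lett G n)),
      Small M nu (val M.ι M.τ g l * val M.ι M.τ h m) (l.length + m.length)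
        (nu g + (l.map fun p => nu p.2.2).sum + (nu h + (m.map fun p => nu p.2.2).sum))
  | [], g, h, m => ⟨g * h, m, by simp [val, mul_assoc], by simp,
      by have := hmul g h; simp only [List.map_nil, List.sum_nil]; omega⟩
  | (i, e, k) :: l, g, h, m => by
    obtain ⟨k', l', h1, h2, h3⟩ := glue nu hmul l k h m
    refine ⟨g, (i, e, k') :: l', ?_, by simp only [List.length_cons]; omega, ?_⟩
    · rw [val_cons, h1, val_cons]
      simp [mul_assoc]
    · simp only [List.map_cons, List.sum_cons]
      omega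

theorem Small.mul {nu : G → ℕ} (hmul : ∀ a b, nu (a * b) ≤ nu a + nu b) {x y : H} {L C L' C' : ℕ}
    (hx : Small M nu x L C) (hy : Small M nu y L' C') : Small M nu (x * y) (L + L') (C + C') := by
  obtain ⟨g, l, rfl, h2, h3⟩ := hx
  obtain ⟨h, m, rfl, k2, k3⟩ := hy
  exact (glue M nu hmul l g h m).mono M (by omega) (by omega)

theorem small_base {nu : G → ℕ} (a : G) : Small M nu (M.ι a) 0 (nu a) :=
  ⟨a, [], by simp [val], by simp, by simp⟩

theorem small_letter {nu : G → ℕ} (h1 : nu 1 = 0) (i : Fin n) (e : ℤˣ) :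
    Small M nu (M.τ i ^ (e : ℤ)) 1 0 :=
  ⟨1, [(i, e, 1)], by simp [val], by simp, by simp [h1]⟩

end Vale.P193.Hnn
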