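import Vale.Agent.P193.Words
import Mathlib.GroupTheory.FreeGroup.Reduce

/-!
P193 (M4): certificates about the reduced word of a list of represented letters, using only negative facts about
the equality of the letters: every way of cancelling either uses two unequal letters or ends in a bad word.
-/

namespace Vale.P193.RedCert

open FreeGroup

variable {Z Q : Type}

/-- A branch: the pairs cancelled so far and the stack. -/
abbrev Branch (Z : Type) := List (Z × Z) × Wd Z

/-- One letter: push it, or cancel it with the top of the stack. -/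
def cstep (P : List (Branch Z)) (x : Z × Bool) : List (Branch Z) :=
  P.flatMap fun p => (p.1, x :: p.2) ::
    (if (p.2.head?.map fun y => y.2) = some (!x.2) then
      (p.2.head?.map fun y => ((y.1, x.1) :: p.1, p.2.tail)).toList else [])

/-- All branches. -/
def paths (l : Wd Z) : List (Branch Z) := l.foldl cstep [([], [])]

/-- The certificate. -/
def Cert (Ne : Z × Z → Prop) (Bad : Wd Z → Prop) (l : Wd Z) : Prop :=
  ∀ p ∈ paths l, (∃ q ∈ p.1, Ne q) ∨ Bad p.2.reverse

/-- Apply the value map to the letters. -/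
def val (f : Z → Q) (l : Wd Z) : Wd Q := l.map fun x => (f x.1, x.2)

theorem mem_cstep {P : List (Branch Z)} {x : Z × Bool} {p' : Branch Z} :
    p' ∈ cstep P x ↔ ∃ p ∈ P, p' = (p.1, x :: p.2) ∨
      ∃ y, p.2.head? = some y ∧ y.2 = (!x.2) ∧ p' = ((y.1, x.1) :: p.1, p.2.tail) := by
  simp only [cstep, List.mem_flatMap, List.mem_cons]
  constructor
  · rintro ⟨p, hp, h | h⟩
    · exact ⟨p, hp, .inl h⟩
    · split_ifs at h with hc
      · cases hy : p.2.head? with
        | none => simp [hy] at h
        | some y =>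
          simp [hy] at h hc
          exact ⟨p, hp, .inr ⟨y, hy, hc, h⟩⟩
      · simp at h
  · rintro ⟨p, hp, h | ⟨y, hy, hc, h⟩⟩
    · exact ⟨p, hp, .inl h⟩
    · exact ⟨p, hp, .inr (by simp [hy, hc, h])⟩

theorem red_of_equal (f : Z → Q) : ∀ (l : Wd Z) (p : Branch Z), p ∈ paths l →
    (∀ q ∈ p.1, f q.1 = f q.2) → Red (val f l) (val f p.2.reverse) := by
  intro l
  induction l using List.reverseRecOn with
  | nil => intro p hp _; simp [paths] at hp; subst hp; exact .refl
  | append_singleton l x ih =>
    intro p' hp' he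
    rw [paths, List.foldl_append, List.foldl_cons, List.foldl_nil, ← paths, mem_cstep] at hp'
    obtain ⟨p, hp, rfl | ⟨y, hy, hc, rfl⟩⟩ := hp'
    · have := ih p hp he
      simp only [val, List.map_append, List.reverse_cons]
      exact Red.append_append this .refl
    · obtain ⟨a, st, hst⟩ : ∃ a st, p.2 = a :: st := by
        cases h : p.2 with
        | nil => simp [h] at hy
        | cons a st => exact ⟨a, st, rfl⟩
      simp [hst] at hy
      subst hy
      have := ih p hp fun q hq => he q (List.mem_cons_of_mem _ hq)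
      refine Relation.ReflTransGen.trans
        (b := val f (p.2.reverse ++ [x])) ?_ (Relation.ReflTransGen.single ?_)
      · simp only [val, List.map_append]
        exact Red.append_append this .refl
      · have h1 : f a.1 = f x.1 := he (a.1, x.1) (by simp)
        simp only [hst, List.tail_cons, List.reverse_cons, List.append_assoc, List.singleton_append,
          val, List.map_append, List.map_cons, List.map_nil, h1, hc]
        have := Red.Step.not (L₁ := (st.reverse.map fun x => (f x.1, x.2))) (L₂ := [])
          (x := f x.1) (b := !x.2)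
        simpa using this

theorem exists_reduced (f : Z → Q) : ∀ l : Wd Z, ∃ p ∈ paths l, (∀ q ∈ p.1, f q.1 = f q.2) ∧
    IsReduced (val f p.2) := by
  classical
  intro l
  induction l using List.reverseRecOn with
  | nil => exact ⟨([], []), by simp [paths], by simp, by simp [val]⟩
  | append_singleton l x ih =>
    obtain ⟨p, hp, he, hr⟩ := ih
    rw [paths, List.foldl_append, List.foldl_cons, List.foldl_nil, ← paths]
    simp only [mem_cstep]
    obtain ⟨ps, st⟩ := p
    cases st with
    | nil => exact ⟨(ps, [x]), ⟨_, hp, .inl rfl⟩, he, by simp [val]⟩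
    | cons a st =>
      by_cases hc : f a.1 = f x.1 ∧ a.2 = (!x.2)
      · refine ⟨((a.1, x.1) :: ps, st), ⟨_, hp, .inr ⟨a, rfl, hc.2, rfl⟩⟩, ?_, ?_⟩
        · intro q hq
          rcases List.mem_cons.1 hq with rfl | hq
          · exact hc.1
          · exact he q hq
        · exact List.IsChain.tail hr
      · refine ⟨(ps, x :: a :: st), ⟨_, hp, .inl rfl⟩, he, ?_⟩
        simp only [val, List.map_cons] at hr ⊢
        refine List.IsChain.cons_cons (fun h => ?_) hr
        dsimp at h
        rcases a with ⟨az, ab⟩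
        rcases x with ⟨xz, xb⟩
        cases ab <;> cases xb <;> simp_all

theorem isReduced_reverse {L : Wd Q} (h : IsReduced L) : IsReduced L.reverse := by
  refine List.isChain_reverse.2 (h.imp fun a b hab he => ?_)
  exact (hab he.symm).symm

variable [DecidableEq Q] {f : Z → Q} {Ne : Z × Z → Prop} {Bad : Wd Z → Prop} {Φ : Wd Q → Prop} {l : Wd Z}

/-- Soundness: the property fails for the reduced word. -/
theorem sound (hNe : ∀ q, Ne q → f q.1 ≠ f q.2) (hBad : ∀ r, Bad r → ¬ Φ (val f r))
    (h : Cert Ne Bad l) : ¬ Φ (reduce (val f l)) := by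
  obtain ⟨p, hp, he, hr⟩ := exists_reduced f l
  rcases h p hp with ⟨q, hq, hn⟩ | hb
  · exact absurd (he q hq) (hNe q hn)
  · have h1 : reduce (val f l) = val f p.2.reverse := by
      rw [reduce.eq_of_red (red_of_equal f l p hp he)]
      refine IsReduced.reduce_eq ?_
      rw [val, List.map_reverse]
      exact isReduced_reverse hr
    rw [h1]
    exact hBad _ hb

theorem mem_of_paths : ∀ (l : Wd Z) (p : Branch Z), p ∈ paths l →
    (∀ q ∈ p.1, q.1 ∈ l.map Prod.fst ∧ q.2 ∈ l.map Prod.fst) ∧ ∀ x ∈ p.2, x ∈ l := by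
  intro l
  induction l using List.reverseRecOn with
  | nil => intro p hp; simp [paths] at hp; subst hp; simp
  | append_singleton l x ih =>
    intro p' hp'
    rw [paths, List.foldl_append, List.foldl_cons, List.foldl_nil, ← paths, mem_cstep] at hp'
    obtain ⟨p, hp, rfl | ⟨y, hy, hc, rfl⟩⟩ := hp'
    · obtain ⟨h1, h2⟩ := ih p hp
      refine ⟨fun q hq => ?_, fun z hz => ?_⟩
      · have := h1 q hq; simp [this.1, this.2]
      · rcases List.mem_cons.1 hz with rfl | hz
        · simp
        · simp [h2 z hz]
    · obtain ⟨h1, h2⟩ := ih p hp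
      refine ⟨fun q hq => ?_, fun z hz => ?_⟩
      · rcases List.mem_cons.1 hq with rfl | hq
        · exact ⟨List.mem_map.2 ⟨y, by simp [h2 y (List.mem_of_mem_head? hy)], rfl⟩, by simp⟩
        · have := h1 q hq; simp [this.1, this.2]
      · simp [h2 z (List.mem_of_mem_tail hz)]

/-- Completeness, for a property preserved by cancellation. -/
theorem complete (hΦ : ∀ a b, Red a b → Φ a → Φ b)
    (hNe : ∀ a ∈ l, ∀ b ∈ l, f a.1 ≠ f b.1 → Ne (a.1, b.1))
    (hBad : ∀ r : Wd Z, (∀ x ∈ r, x ∈ l) → ¬ Φ (val f r) → Bad r)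
    (h : ¬ Φ (reduce (val f l))) : Cert Ne Bad l := by
  intro p hp
  obtain ⟨h1, h2⟩ := mem_of_paths l p hp
  by_cases he : ∀ q ∈ p.1, f q.1 = f q.2
  · refine .inr (hBad _ (fun x hx => h2 x (List.mem_reverse.1 hx)) fun hh => h ?_)
    rw [reduce.eq_of_red (red_of_equal f l p hp he)]
    exact hΦ _ _ reduce.red hh
  · simp only [not_forall] at he
    obtain ⟨⟨a, b⟩, hq, hne⟩ := he
    obtain ⟨ha, hb⟩ := h1 _ hq
    obtain ⟨a', ha', rfl⟩ := List.mem_map.1 ha
    obtain ⟨b', hb', rfl⟩ := List.mem_map.1 hb
    exact .inl ⟨_, hq, hNe a' ha' b' hb' hne⟩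

end Vale.P193.RedCert
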